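import Crest.Agent.X212.Ind26.Main

/-!
# X212 / Ind26 (helper26): what passes to every lift and every cut
-/

set_option autoImplicit false
set_option linter.unusedSectionVars false

open Finset Classical

noncomputable section

namespace Crest.Agent.X212.Ind26

open Hp13

theorem rch_ind {P : Type} [PartialOrder P] {E : Set P} {x y : P} (h : Rch E x y) {p : P → Prop}
    (hx : p x) (hp : ∀ a ∈ E, ∀ b ∈ E, Cm a b → p a → p b) : p y :=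
  h.ind hx fun a ha b hb e => ⟨hp a ha b hb (Or.inl e), hp b hb a ha (Or.inr e)⟩

theorem ee_bij {P Q : Type} [PartialOrder P] [Fintype P] [PartialOrder Q] [Fintype Q] {E : Set P}
    {F : Set Q} {f : Q → P} (h : Set.BijOn f F E) (he : ∀ b ∈ F, eps b = eps (f b)) :
    ee F = ee E :=
  sum_bij (fun b _ => f b) (fun _ hb => mem_filter.2 ⟨mem_univ _, h.mapsTo (mem_filter.1 hb).2⟩)
    (fun _ hb _ hb' e => h.injOn (mem_filter.1 hb).2 (mem_filter.1 hb').2 e)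
    (fun _ ha => let ⟨b, hb, e⟩ := h.surjOn (mem_filter.1 ha).2
      ⟨b, mem_filter.2 ⟨mem_univ _, hb⟩, e⟩) fun b hb => he b (mem_filter.1 hb).2

namespace Lift

variable {s s' : St} {π : s'.P → s.P}

theorem mt_im (h : Lift s s' π) {d : Ch s'.P} (hd : Mt s'.A d) : Mt s.A (h.im d) :=
  let ⟨b, hb, hb'⟩ := hd; ⟨π b, h.mem_im.2 ⟨b, hb, rfl⟩, h.mem hb'⟩

theorem dom_im (h : Lift s s' π) {d : Ch s'.P} (hd : Dom s'.A d) : Dom s.A (h.im d) :=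
  let ⟨b, hb, hb'⟩ := hd
  ⟨π b, h.mem hb, fun _ hx => let ⟨q, hq, e⟩ := h.mem_im.1 hx; e ▸ (hb' q hq).map h.mon⟩

theorem dp (h : Lift s s' π) {q r : s'.P} (hd : Dp s'.A q r) : Dp s.A (π q) (π r) :=
  let ⟨h1, b, hb, h2, h3⟩ := hd; ⟨h.mon h1, π b, h.mem hb, h2.map h.mon, h3.map h.mon⟩

/-- chains through `b` correspond to chains through `π b` -/
theorem ex_thr (h : Lift s s' π) {b : s'.P} (hb : b ∈ s'.A) {e : Ch s.P} (he : π b ∈ e.1) :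
    ∃ d : Ch s'.P, h.im d = e ∧ b ∈ d.1 := by
  obtain ⟨d, rfl, hd⟩ := h.ex_ch hb e fun x hx => e.cm he hx
  obtain ⟨q, hq, e'⟩ := h.mem_im.1 he
  exact ⟨d, rfl, h.inj hb (hd q hq) Cm.rfl e' ▸ hq⟩

theorem le_thr (h : Lift s s' π) {b : s'.P} (hb : b ∈ s'.A) {d d' : Ch s'.P} (hd : b ∈ d.1)
    (hd' : b ∈ d'.1) : h.im d ≤ h.im d' ↔ d ≤ d' :=
  ⟨h.le_of_im hb (fun _ hq => d.cm hd hq) fun _ hq => d'.cm hd' hq, fun e => h.im_mono e⟩

theorem eq_thr (h : Lift s s' π) {b : s'.P} (hb : b ∈ s'.A) {d d' : Ch s'.P} (hd : b ∈ d.1)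
    (hd' : b ∈ d'.1) (e : h.im d = h.im d') : d = d' :=
  le_antisymm ((h.le_thr hb hd hd').1 e.le) ((h.le_thr hb hd' hd).1 e.ge)

/-- sums over chains through `b` -/
theorem sum_thr (h : Lift s s' π) {b : s'.P} (hb : b ∈ s'.A) (p' : Ch s'.P → Prop)
    (p : Ch s.P → Prop) (h' : ∀ d, p' d → b ∈ d.1) (h0 : ∀ e, p e → π b ∈ e.1)
    (hp : ∀ d, b ∈ d.1 → (p' d ↔ p (h.im d))) (F : Ch s.P → ℤ) :
    ∑ d ∈ univ.filter p', F (h.im d) = ∑ e ∈ univ.filter p, F e := by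
  refine sum_bij (fun d _ => h.im d) (fun d hd => ?_) (fun d hd d' hd' e => ?_) (fun e he => ?_)
    fun _ _ => rfl
  · have := (mem_filter.1 hd).2
    exact mem_filter.2 ⟨mem_univ _, (hp d (h' d this)).1 this⟩
  · exact h.eq_thr hb (h' d (mem_filter.1 hd).2) (h' d' (mem_filter.1 hd').2) e
  · obtain ⟨d, rfl, hd⟩ := h.ex_thr hb (h0 e (mem_filter.1 he).2)
    exact ⟨d, mem_filter.2 ⟨mem_univ _, (hp d hd).2 (mem_filter.1 he).2⟩, rfl⟩

theorem eps_eq (h : Lift s s' π) {b : s'.P} (hb : b ∈ s'.A) : eps b = eps (π b) := by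
  unfold eps
  rw [← h.sum_thr hb (fun d => d.top = b) (fun e => e.top = π b) (fun d e => e ▸ d.top_mem)
    (fun d e => e ▸ d.top_mem) (fun d hd => ?_) Ch.sg]
  · simp only [h.sg_im]
  · rw [h.top_im]
    exact ⟨congrArg π, h.inj hb (d.cm hd d.top_mem) Cm.rfl⟩

theorem sum_A (h : Lift s s' π) (F : s.P → ℤ) :
    ∑ b ∈ univ.filter (· ∈ s'.A), F (π b) = ∑ a ∈ univ.filter (· ∈ s.A), F a :=
  sum_bij (fun b _ => π b) (fun _ hb => mem_filter.2 ⟨mem_univ _, h.mem (mem_filter.1 hb).2⟩)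
    (fun _ hb _ hb' e => h.bij.injOn (mem_filter.1 hb).2 (mem_filter.1 hb').2 e)
    (fun _ ha => let ⟨b, hb, e⟩ := h.exA (mem_filter.1 ha).2
      ⟨b, mem_filter.2 ⟨mem_univ _, hb⟩, e⟩) fun _ _ => rfl

theorem ee_pre (h : Lift s s' π) {E : Set s.P} (hE : E ⊆ s.A) :
    ee {b | b ∈ s'.A ∧ π b ∈ E} = ee E :=
  ee_bij ⟨fun _ hb => hb.2, fun _ hb _ hb' e => h.bij.injOn hb.1 hb'.1 e, fun _ ha =>
    let ⟨b, hb, e⟩ := h.exA (hE ha); ⟨b, ⟨hb, e ▸ ha⟩, e⟩⟩ fun _ hb => h.eps_eq hb.1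

theorem ee_eq (h : Lift s s' π) : ee s'.A = ee s.A :=
  ee_bij h.bij fun _ hb => h.eps_eq hb

theorem mf (h : Lift s s' π) {n : ℕ} (hM : Mf n s.A) : Mf n s'.A where
  card_le d hd := h.card_im d ▸ hM.card_le _ (h.mt_im hd)
  eul d hd := by
    obtain ⟨b, hb, hb'⟩ := _root_.id hd
    rw [← hM.eul _ (h.mt_im hd), ← h.sum_thr hb' (d ≤ ·) (h.im d ≤ ·) (fun _ e => e hb)
      (fun _ e => e (h.mem_im.2 ⟨b, hb, rfl⟩)) (fun d' hd' => (h.le_thr hb' hb hd').symm) Ch.sg]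
    simp only [h.sg_im]
  conn d hd hc := by
    obtain ⟨b, hb, hb'⟩ := _root_.id hd
    have hm : π b ∈ (h.im d).1 := h.mem_im.2 ⟨b, hb, rfl⟩
    have lt : ∀ d' : Ch s'.P, b ∈ d'.1 → (d < d' ↔ h.im d < h.im d') := fun d' hd' => by
      rw [lt_iff_le_not_ge, lt_iff_le_not_ge, h.le_thr hb' hb hd', h.le_thr hb' hd' hb]
    intro x (hx : d < x) y (hy : d < y)
    have hx' : b ∈ x.1 := hx.le hb
    have := hM.conn _ (h.mt_im hd) (by rwa [h.card_im]) _ ((lt x hx').1 hx) _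
      ((lt y (hy.le hb)).1 hy)
    refine rch_ind this (p := fun e => ∀ y : Ch s'.P, b ∈ y.1 → h.im y = e → Rch {c' | d < c'} x y)
      (fun y hy e => h.eq_thr hb' hy hx' e ▸ Rch.rfl) (fun e (he : h.im d < e) e' he' hc ih y hy e1 => ?_) y
      (hy.le hb) rfl
    obtain ⟨w, rfl, hw⟩ := h.ex_thr hb' (he.le hm)
    subst e1
    exact (ih w hw rfl).trans (Rch.of_cm ((lt w hw).2 he) ((lt y hy).2 he')
      (hc.imp (h.le_thr hb' hw hy).1 (h.le_thr hb' hy hw).1))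
  pure d hd := by
    obtain ⟨b, hb, hb'⟩ := _root_.id hd
    obtain ⟨e, he, hc⟩ := hM.pure _ (h.mt_im hd)
    obtain ⟨d', rfl, hd'⟩ := h.ex_thr hb' (he (h.mem_im.2 ⟨b, hb, rfl⟩))
    exact ⟨d', (h.le_thr hb' hb hd').1 he, h.card_im d' ▸ hc⟩

theorem esc (h : Lift s s' π) (hE : Alg36.Esc s.A s.A) : Alg36.Esc s'.A s'.A := fun b hb => by
  by_contra hn
  have k : ∀ b' ∈ s'.A, Rch s'.A b b' → ∀ q, Cm b' q → q ∈ s'.A := fun b' hb' hr q hq => by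
    by_contra hq'
    exact hn ⟨b', hb', hr, q, hq', hq⟩
  obtain ⟨a, -, hr, x, hx, hc⟩ := hE _ (h.mem hb)
  obtain ⟨b', hb', h1, rfl⟩ := rch_ind hr (p := fun a => ∃ b' ∈ s'.A, Rch s'.A b b' ∧ π b' = a)
    ⟨b, hb, Rch.rfl, rfl⟩ fun _ _ y _ hc ⟨b', hb', h1, e⟩ => by
      obtain ⟨q, hq, e'⟩ := h.ex hb' (e ▸ hc)
      exact ⟨q, k b' hb' h1 q hq, h1.trans (Rch.of_cm hb' (k b' hb' h1 q hq) hq), e'⟩
  obtain ⟨q, hq, rfl⟩ := h.ex hb' hc
  exact hx (h.mem (k b' hb' h1 q hq))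

theorem coc {G : Type} [AddCommGroup G] (h : Lift s s' π) {w : s.P → s.P → G} (hw : Coc s.A w) :
    Coc s'.A (pb π w) := (hw.pb h.mon).mono fun _ hb => h.mem hb

theorem mono' (h : Lift s s' π) {w : s.P → s.P → ℤ} (hw : Mono s.A w) : Mono s'.A (pb π w) :=
  (hw.pb h.mon).mono fun _ hb => h.mem hb

theorem eqD {G : Type} (h : Lift s s' π) {w w' : s.P → s.P → G} (hw : EqD s.A w w') :
    EqD s'.A (pb π w) (pb π w') := fun _ _ hp => hw _ _ (h.dp hp)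

end Lift

namespace Cov

variable {s s' : St} {z : s.P → s.P → ℤ} {π : s'.P → s.P}

theorem zero (h : Cov s s' z π) {b b' : s'.P} (hb : b ∈ s'.A) (hb' : b' ∈ s'.A) (e : b ≤ b') :
    z (π b) (π b') = 0 := ((h.up b hb b' e).1 hb').2

/-- the order on the cells of the cut -/
theorem le_iff (h : Cov s s' z π) {b b' : s'.P} (hb : b ∈ s'.A) (hb' : b' ∈ s'.A) :
    b ≤ b' ↔ π b ≤ π b' ∧ z (π b) (π b') = 0 := by
  refine ⟨fun e => ⟨h.toLift.mon e, h.zero hb hb' e⟩, fun ⟨e, e'⟩ => ?_⟩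
  obtain ⟨q, hq, e1⟩ := h.toLift.ex hb (Or.inl e)
  have h1 : b ≤ q := h.refl b hb _ _ Cm.rfl hq (e1 ▸ e)
  rwa [← h.bij.injOn ((h.up b hb q h1).2 (e1 ▸ ⟨h.toLift.mem hb', e'⟩)) hb' e1]

theorem conv (h : Cov s s' z π) (hA : s.A.OrdConnected) (hz : Coc s.A z) (hm : Mono s.A z) :
    s'.A.OrdConnected := ⟨fun b hb b' hb' q hq => by
  have a1 := h.toLift.mem hb
  have l1 := h.toLift.mon hq.1
  have l2 := h.toLift.mon hq.2
  have h1 : π q ∈ s.A := hA.out a1 (h.toLift.mem hb') ⟨l1, l2⟩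
  refine (h.up b hb q hq.1).2 ⟨h1, ?_⟩
  have h2 := hz _ a1 _ _ _ l1 l2 Cm.rfl (Or.inl l1) (Or.inl (l1.trans l2))
  have h3 := h.zero hb hb' (hq.1.trans hq.2)
  have h4 := hm _ _ (Dp.of_left a1 l1)
  have h5 := hm _ _ (Dp.of_left h1 l2)
  omega⟩

/-- the cutting surface is exact on the cut -/
theorem exOn (h : Cov s s' z π) : ExOn s'.A (pb π z) :=
  ⟨0, fun _ hb _ hb' e => by simpa [pb] using h.zero hb hb' e⟩

theorem congr {z' : s.P → s.P → ℤ} (h : Cov s s' z π) (e : EqD s.A z z') : Cov s s' z' π where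
  toLift := h.toLift
  up b hb q hq := by rw [h.up b hb q hq, e _ _ (Dp.of_left (h.toLift.mem hb) (h.toLift.mon hq))]
  dn b hb q hq := by rw [h.dn b hb q hq, e _ _ (Dp.of_right (h.toLift.mem hb) (h.toLift.mon hq))]

end Cov

end Crest.Agent.X212.Ind26
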