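import Crest.Agent.X212.Hp13.Sd
import Crest.Agent.X212.Kh11.Ref
import Crest.Agent.X212.Alg36.Hp2

/-!
# X212 / Ind26 (helper26): the skeleton of the sutured hierarchy

* `Cov s s' z π`: `s'` is `s` cut along `z` (cover poset: the same cells, the comparabilities
  with `z > 0` are opened);
* `Adm s z`: what the smooth side needs of a decomposing surface;
* `Hier s`: a hierarchy on ONE level, ending in boxes;
* the leaves `StepStmt`, `P1Stmt`, `P2Stmt`, `BaseStmt`.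
-/

set_option autoImplicit false
set_option linter.unusedSectionVars false

open Finset Classical

noncomputable section

namespace Crest.Agent.X212.Ind26

open Hp13

/-- `π` identifies the cells of `s'` with those of `s` and their stars with their stars -/
structure Lift (s s' : St) (π : s'.P → s.P) : Prop where
  mono : StrictMono π
  bij : Set.BijOn π s'.A s.A
  star : ∀ b ∈ s'.A, Set.BijOn π {q | Cm b q} {x | Cm (π b) x}
  refl : ∀ b ∈ s'.A, ∀ q q', Cm b q → Cm b q' → π q ≤ π q' → q ≤ q'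

/-- `s'` is `s` cut along `z` -/
structure Cov (s s' : St) (z : s.P → s.P → ℤ) (π : s'.P → s.P) : Prop extends Lift s s' π where
  up : ∀ b ∈ s'.A, ∀ q, b ≤ q → (q ∈ s'.A ↔ π q ∈ s.A ∧ z (π b) (π q) = 0)
  dn : ∀ b ∈ s'.A, ∀ q, q ≤ b → (q ∈ s'.A ↔ π q ∈ s.A ∧ z (π q) (π b) = 0)

section
variable {P : Type} [PartialOrder P]

/-- cohomologous on `M` (NOT relative to the boundary) -/
def Coh (A : Set P) (ζ z : P → P → ℤ) : Prop := ∃ g : P → ℤ, EqD A z (ζ + cb g)

/-- no two sheets on an interior edge -/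
def Spr (A : Set P) (z : P → P → ℤ) : Prop := ∀ a ∈ A, ∀ a' ∈ A, a ≤ a' → z a a' ≤ 1

/-- comparable and on the same side of `z` -/
def Z0 (z : P → P → ℤ) (a a' : P) : Prop := (a ≤ a' ∧ z a a' = 0) ∨ (a' ≤ a ∧ z a' a = 0)

/-- a vertex of `R₊` -/
def PU (A : Set P) (a o : P) : Prop := a ∈ A ∧ o ∉ A ∧ a ≤ o

/-- a vertex of `R₋` -/
def PD (A : Set P) (a o : P) : Prop := a ∈ A ∧ o ∉ A ∧ o ≤ a

/-- a move inside a region of `R± ∖ ∂S` (`V` is `PU A` or `PD A`) -/
def Mv (V : P → P → Prop) (z : P → P → ℤ) (p q : P × P) : Prop :=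
  V p.1 p.2 ∧ V q.1 q.2 ∧ ((p.2 = q.2 ∧ Z0 z p.1 q.1) ∨ (p.1 = q.1 ∧ Cm p.2 q.2))

/-- every region of `R₊ ∖ ∂S` meets a suture or lies above a curve of `∂S` -/
def CondU (A : Set P) (z : P → P → ℤ) : Prop :=
  ∀ a o, PU A a o → ∃ q, Relation.ReflTransGen (Mv (PU A) z) (a, o) q ∧
    ∃ x, x ≤ q.1 ∧ (x ∉ A ∨ 0 < z x q.1)

/-- every region of `R₋ ∖ ∂S` meets a suture or lies below a curve of `∂S` -/
def CondD (A : Set P) (z : P → P → ℤ) : Prop :=
  ∀ a o, PD A a o → ∃ q, Relation.ReflTransGen (Mv (PD A) z) (a, o) q ∧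
    ∃ y, q.1 ≤ y ∧ (y ∉ A ∨ 0 < z q.1 y)

instance (A : Set P) : IsCoc A (Rm A) := ⟨coc_Rm⟩
instance (A : Set P) : IsCoc A (Rp A) := ⟨coc_Rp⟩

/-- `R₋` and `R₊` are discs -/
structure Box [Fintype P] (C : Set P) : Prop where
  cm : Conn (LA C (Rm C))
  cp : Conn (LA C (Rp C))
  em : chi C (Rm C) = 1
  ep : chi C (Rp C) = 1

end

/-- an admissible decomposing surface -/
structure Adm (s : St) (z : s.P → s.P → ℤ) : Prop where
  sf : Sf s.A z
  spr : Spr s.A z
  cu : CondU s.A z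
  cd : CondD s.A z

/-- the invariant of all stages -/
structure Inv (s : St) : Prop extends Taut s where
  esc : Alg36.Esc s.A s.A

/-- what the smooth side uses of a stage -/
structure Wk (s : St) : Prop extends Good s where
  sfm : Sf s.A (Rm s.A)
  sfp : Sf s.A (Rp s.A)
  esc : Alg36.Esc s.A s.A

theorem Inv.wk {s : St} (h : Inv s) : Wk s := ⟨h.toGood, h.sfm, h.sfp, h.esc⟩

/-- the last stage -/
structure End (s : St) : Prop extends Wk s where
  box : ∀ C, IsCmp s.A C → Box C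

/-- a hierarchy on one level -/
inductive Hier : St → Prop
  | fin {s : St} : End s → Hier s
  | step {s s' : St} {z : s.P → s.P → ℤ} {π : s'.P → s.P} :
      Inv s → Adm s z → Cov s s' z π → Hier s' → Hier s

/-- the free parameters of the induction: the invariant `J` that STEP carries, the position
`Pos` of the surface at the level of the cut, handlebodies `HB s c` of index at most `c` -/
structure Par where
  J : St → Prop
  Pos : (s : St) → (s.P → s.P → ℤ) → Prop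
  HB : St → ℕ → Prop

/-- `s'` is `s` cut along a maximiser dual to `ζ` -/
def Cut (X : Par) (s : St) (ζ : s.P → s.P → ℤ) (s' : St) : Prop :=
  ∃ (t : St) (f : t.P → s.P) (z : t.P → t.P → ℤ) (π : s'.P → t.P), Desc s t f ∧
    Coh t.A (pb f ζ) z ∧ Max t z ∧ Adm t z ∧ X.Pos t z ∧ Cov t s' z π ∧ X.J s'

/-- (36, SD) -/
def SdStmt : Prop := ∀ s, Inv s → Inv s.sd

/-- (21) -/
def JStmt (X : Par) : Prop := ∀ s, X.J s → Inv s ∧ X.J s.sd

/-- (21) -/
def StepStmt (X : Par) : Prop := ∀ s, X.J s → ∀ ζ, Coc s.A ζ → ∃ s', Cut X s ζ s'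

/-- (11) -/
def P1Stmt (X : Par) : Prop :=
  ∃ h : St → ℕ, ∀ s, X.J s → (∃ c, X.HB s c) ∨ ∃ (t : St) (f : t.P → s.P) (ζ : t.P → t.P → ℤ),
    Desc s t f ∧ Coc t.A ζ ∧ ∀ s', Cut X t ζ s' → h s' < h s

/-- (30) -/
def P2Stmt (X : Par) : Prop :=
  ∀ s c, X.J s → X.HB s (c + 1) → X.HB s c ∨ ∃ (t : St) (f : t.P → s.P) (ζ : t.P → t.P → ℤ),
    Desc s t f ∧ Coc t.A ζ ∧ ∀ s', Cut X t ζ s' → X.HB s' c

/-- (26) -/
def BaseStmt (X : Par) : Prop :=
  ∀ s, X.J s → X.HB s 0 → ∃ (t : St) (f : t.P → s.P) (z : t.P → t.P → ℤ) (s' : St)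
    (π : s'.P → t.P), Desc s t f ∧ Adm t z ∧ Cov t s' z π ∧ End s'

/-- the output -/
def HierStmt (X : Par) : Prop := ∀ s, X.J s → ∃ t f, Desc s t f ∧ Hier t

end Crest.Agent.X212.Ind26
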