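import Crest.Agent.X212.Ind26.Cov
import Crest.Agent.X212.Cut21.Tb
import Crest.Agent.X212.Alg36.Sd3
import Crest.Agent.X212.Alg36.Hp4

/-!
# X212 / Ind26 (helper26): competitors of `R±` given by a region, sutures are reachable
-/

set_option autoImplicit false
set_option linter.unusedSectionVars false

open Finset Classical

noncomputable section

namespace Crest.Agent.X212.Ind26

open Hp13 Cut21
open Alg36 (Om Op Esc Fb Clo)

section pot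

variable {P : Type} [PartialOrder P] [Fintype P] {A : Set P}

theorem cb_ind_pos {U : Set P} {x y : P} (h : 0 < cb (ind U) x y) : x ∉ U ∧ y ∈ U := by
  unfold cb ind at h
  split_ifs at h with h1 h2 h2 <;> first | omega | exact ⟨h2, h1⟩

theorem cb_ind_one {U : Set P} {x y : P} (hx : x ∉ U) (hy : y ∈ U) : cb (ind U) x y = 1 := by
  simp [cb, ind, hx, hy]

theorem cb_ind_le {U : Set P} (x y : P) : cb (ind U) x y ≤ 1 := by
  unfold cb ind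
  split_ifs <;> omega

theorem cb_ind_zero {U : Set P} {x y : P} (h : x ∈ U ↔ y ∈ U) : cb (ind U) x y = 0 := by
  simp [cb, ind, h]

/-- a frontier has no closed component if both sides are joined to the boundary -/
theorem nc_pot (hB : Bnd ℤ A) {U : Set P} (hU : ∀ x y, Dp A x y → x ∈ U → y ∈ U)
    (R1 : ∀ a ∈ A ∩ U, ∃ b, Rch (A ∩ U) a b ∧ ∃ o, o ∉ A ∧ o ∈ U ∧ Cm b o)
    (R0 : ∀ a ∈ A \ U, ∃ b, Rch (A \ U) a b ∧ ∃ o, o ∉ A ∧ o ∉ U ∧ Cm b o) :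
    NC A (cb (ind U)) := by
  let T : P → P → ℤ := fun x y => if x ∉ U ∧ y ∈ U ∧ ¬ Tb A (cb (ind U)) x y 0 then 1 else 0
  have T0 : ∀ x y, (x ∈ U ↔ y ∈ U) → T x y = 0 := fun x y h => if_neg fun k => k.1 (h.2 k.2.1)
  have hT : Coc A T := fun a ha x y w h1 h2 c1 c2 c3 => by
    have t : Tri A x y w := ⟨h1, h2, a, ha, c1, c2, c3⟩
    by_cases hy : y ∈ U
    · have hw := hU _ _ t.d23 hy
      rw [T0 y w (iff_of_true hy hw), add_zero]
      by_cases hx : x ∈ U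
      · rw [T0 x w (iff_of_true hx hw), T0 x y (iff_of_true hx hy)]
      · have := Tb.R (z := cb (ind U)) t le_rfl (by rw [cb_ind_one hx hy]; exact one_pos)
        simp only [T, this, hy, hw]
    · have hx : x ∉ U := fun k => hy (hU _ _ t.d12 k)
      rw [T0 x y (iff_of_false hx hy), zero_add]
      by_cases hw : w ∈ U
      · have := Tb.L (z := cb (ind U)) (k' := 0) t le_rfl (by rw [cb_ind_one hy hw]; exact one_pos)
          (by rw [cb_ind_zero (iff_of_false hx hy)]; rfl)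
        simp only [T, this, hx, hy]
      · rw [T0 x w (iff_of_false hx hw), T0 y w (iff_of_false hy hw)]
  obtain ⟨g, g0, hg⟩ := hB T hT fun x y _ hx hy => if_neg fun k => k.2.2 (Tb.base hx hy)
  have e : ∀ x y, Dp A x y → (x ∈ U ↔ y ∈ U) → g x = g y := fun x y hp h => by
    have := hg x y hp
    rw [T0 x y h] at this
    simp only [Pi.add_apply, Pi.zero_apply, cb] at this
    omega
  have e' : ∀ b ∈ A, ∀ o, o ∉ A → Cm b o → (b ∈ U ↔ o ∈ U) → g b = 0 := fun b hb o ho hc h =>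
    hc.elim (fun k => (e _ _ (Dp.of_left hb k) h).trans (g0 o ho))
      fun k => (e _ _ (Dp.of_right hb k) h.symm).symm.trans (g0 o ho)
  have z : ∀ x, g x = 0 := fun x => by
    by_cases hx : x ∈ A
    swap
    · exact g0 x hx
    by_cases hx' : x ∈ U
    · obtain ⟨b, h1, o, h2, h3, h4⟩ := R1 x ⟨hx, hx'⟩
      have hb := h1.mem ⟨hx, hx'⟩
      rw [h1.eq fun a ha b hb k => e a b (Dp.of_left ha.1 k) (iff_of_true ha.2 hb.2)]
      exact e' b hb.1 o h2 h4 (iff_of_true hb.2 h3)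
    · obtain ⟨b, h1, o, h2, h3, h4⟩ := R0 x ⟨hx, hx'⟩
      have hb := h1.mem ⟨hx, hx'⟩
      rw [h1.eq fun a ha b hb k => e a b (Dp.of_left ha.1 k) (iff_of_false ha.2 hb.2)]
      exact e' b hb.1 o h2 h4 (iff_of_false hb.2 h3)
  intro x y k hp h0 h1
  have := cb_ind_le (U := U) x y
  obtain rfl : k = 0 := by omega
  by_contra hn
  have h2 := hg x y hp
  simp only [Pi.add_apply, Pi.zero_apply, cb, z, T, (cb_ind_pos h1).1, (cb_ind_pos h1).2, hn] at h2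
  simp at h2

theorem Rp_eq : Rp A = cb (ind (Op A)) := rfl

theorem rm_pos (_hA : A.OrdConnected) {x y : P} (hp : Dp A x y) (h : 0 < Rm A x y) : x ∈ Om A := by
  obtain ⟨-, a, ha, c, -⟩ := hp
  have := (cb_ind_pos h).1
  exact ⟨fun k => this ⟨x, k, le_rfl⟩, a, ha, c.resolve_left fun k => this ⟨a, ha, k⟩⟩

theorem rm_one (hA : A.OrdConnected) {x y a : P} (hx : x ∈ Om A) (ha : a ∈ A) (h : a ≤ y) :
    Rm A x y = 1 :=
  cb_ind_one (fun ⟨_, hb, k⟩ => let ⟨h1, _, h2, h3⟩ := hx; h1 (hA.out hb h2 ⟨k, h3⟩)) ⟨a, ha, h⟩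

theorem rp_one (hA : A.OrdConnected) {x y a : P} (hy : y ∈ Op A) (ha : a ∈ A) (h : x ≤ a) :
    Rp A x y = 1 :=
  cb_ind_one (fun ⟨h1, _, hb, k⟩ => h1 (hA.out hb ha ⟨k, h⟩)) hy

/-- a suture at `a` -/
def Su (A : Set P) (x a y : P) : Prop := x ∉ A ∧ a ∈ A ∧ y ∉ A ∧ x ≤ a ∧ a ≤ y

theorem su_of (hA : A.OrdConnected) {x y : P} (hp : Dp A x y) (hx : x ∈ Om A) (hy : y ∈ Op A) :
    ∃ a, Su A x a y := by
  obtain ⟨-, a, ha, c1, c2⟩ := hp
  exact ⟨a, hx.1, ha, hy.1, c1.resolve_left fun k => Alg36.om_op hA hx ⟨hx.1, a, ha, k⟩,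
    c2.resolve_right fun k => Alg36.om_op hA ⟨hy.1, a, ha, k⟩ hy⟩

/-- every component of `O₋` reaches a suture -/
theorem om_su (hA : A.OrdConnected) (h : NC A (Rm A)) {o : P} (ho : o ∈ Om A) :
    ∃ x a y, Rch (Om A) o x ∧ Su A x a y := by
  obtain ⟨h1, a, ha, h2⟩ := id ho
  refine h.ind coc_Rm mono_Rm (G := fun o _ _ => ∃ x a y, Rch (Om A) o x ∧ Su A x a y)
    (fun x y k hp _ hy h0 hk => ?_) (fun _ _ _ _ _ _ _ => Iff.rfl) (fun x y w k t h0 hk => ?_)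
    (Dp.of_right ha h2) le_rfl (by rw [rm_one hA ho ha le_rfl]; exact one_pos)
  · obtain ⟨b, hb⟩ := su_of hA hp (rm_pos hA hp (h0.trans_lt hk))
      ⟨hy, (cb_ind_pos (h0.trans_lt hk)).2⟩
    exact ⟨x, b, y, Rch.rfl, hb⟩
  · have hy := rm_pos hA t.d23 (h0.trans_lt hk)
    have r := Rch.of_cm (om_dn hA hy t.1) hy (Or.inl t.1)
    exact ⟨fun ⟨u, b, v, h1, h2⟩ => ⟨u, b, v, r.trans h1, h2⟩,
      fun ⟨u, b, v, h1, h2⟩ => ⟨u, b, v, r.symm.trans h1, h2⟩⟩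

/-- every component of `O₊` reaches a suture -/
theorem op_su (hA : A.OrdConnected) (h : NC A (Rp A)) {o : P} (ho : o ∈ Op A) :
    ∃ x a y, Rch (Op A) o y ∧ Su A x a y := by
  obtain ⟨h1, a, ha, h2⟩ := id ho
  refine h.ind coc_Rp (mono_Rp hA) (G := fun _ o _ => ∃ x a y, Rch (Op A) o y ∧ Su A x a y)
    (fun x y k hp hx _ h0 hk => ?_) (fun x y w k t h0 hk => ?_) (fun _ _ _ _ _ _ _ => Iff.rfl)
    (Dp.of_left ha h2) le_rfl (by rw [rp_one hA ho ha le_rfl]; exact one_pos)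
  · have := cb_ind_pos (h0.trans_lt hk)
    obtain ⟨-, c, hc, c1, -⟩ := id hp
    obtain ⟨b, hb⟩ := su_of hA hp ⟨hx, c, hc, c1.resolve_left fun k => this.1 ⟨hx, c, hc, k⟩⟩ this.2
    exact ⟨x, b, y, Rch.rfl, hb⟩
  · have hy : y ∈ Op A := (cb_ind_pos (h0.trans_lt hk)).2
    have r := Rch.of_cm hy (op_up hA hy t.2.1) (Or.inl t.2.1)
    exact ⟨fun ⟨u, b, v, h1, h2⟩ => ⟨u, b, v, r.symm.trans h1, h2⟩,
      fun ⟨u, b, v, h1, h2⟩ => ⟨u, b, v, r.trans h1, h2⟩⟩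

theorem nice_rch (hN : Nice A) {o a b : P} (ha : a ∈ A) (hb : b ∈ A) (h1 : Cm a o) (h2 : Cm b o) :
    Rch (Fb A o o) a b := Alg36.Nice.conn_fb hN Cm.rfl a ⟨ha, h1, h1⟩ b ⟨hb, h2, h2⟩

/-- a path in `O₋` or `O₊` is followed by a path in `A` -/
theorem rch_follow (hN : Nice A) {E : Set P} (hE : ∀ x ∈ E, ∀ y ∈ E, x ≤ y → Dp A x y) {o x a : P}
    (h : Rch E o x) (ha : a ∈ A) (hc : Cm a o) : ∀ b ∈ A, Cm b x → Rch A a b := by
  have k : ∀ {o a b : P}, a ∈ A → b ∈ A → Cm a o → Cm b o → Rch A a b := fun ha hb h1 h2 =>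
    (nice_rch hN ha hb h1 h2).mono fun _ h => h.1
  refine h.ind (p := fun x => ∀ b ∈ A, Cm b x → Rch A a b) (fun b hb h => k ha hb hc h)
    fun x hx y hy e => ?_
  obtain ⟨-, c, c0, c1, c2⟩ := hE x hx y hy e
  exact ⟨fun H b hb h => (H c c0 c1).trans (k c0 hb c2 h),
    fun H b hb h => (H c c0 c2).trans (k c0 hb c1 h)⟩

theorem dp_om {x y : P} (hy : y ∈ Om A) (h : x ≤ y) : Dp A x y :=
  let ⟨_, _, ha, k⟩ := hy; dp_hi ha h k

theorem dp_op {x y : P} (hx : x ∈ Op A) (h : x ≤ y) : Dp A x y :=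
  let ⟨_, _, ha, k⟩ := hx; dp_lo ha k h

end pot

/-- every component has a suture -/
theorem Wk.su {s : St} (h : Wk s) {a : s.P} (ha : a ∈ s.A) :
    ∃ x b y, Rch s.A a b ∧ Su s.A x b y := by
  obtain ⟨c, hc, r, o, ho, k⟩ := h.esc a ha
  rcases k with k | k
  · obtain ⟨x, b, y, h1, h2⟩ := op_su h.conv h.sfp.nc ⟨ho, c, hc, k⟩
    exact ⟨x, b, y, r.trans (rch_follow h.nice (fun _ hx _ _ e => dp_op hx e) h1 hc (Or.inl k) b
      h2.2.1 (Or.inl h2.2.2.2.2)), h2⟩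
  · obtain ⟨x, b, y, h1, h2⟩ := om_su h.conv h.sfm.nc ⟨ho, c, hc, k⟩
    exact ⟨x, b, y, r.trans (rch_follow h.nice (fun _ _ _ hy e => dp_om hy e) h1 hc (Or.inr k) b
      h2.2.1 (Or.inr h2.2.2.2.1)), h2⟩

theorem Inv.su {s : St} (h : Inv s) {a : s.P} (ha : a ∈ s.A) :
    ∃ x b y, Rch s.A a b ∧ Su s.A x b y := h.wk.su ha

/-- **competitors**: pushing `R₊` down across a region `V` does not increase `chi` -/
theorem ee_nonneg {s : St} (h : Taut s) {V : Set s.P} (hV : V ⊆ s.A)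
    (up : ∀ x ∈ V, ∀ y ∈ s.A, x ≤ y → y ∈ V)
    (R1 : ∀ a ∈ V, ∃ b, Rch V a b ∧ ∃ o, o ∉ s.A ∧ b ≤ o)
    (R0 : ∀ a ∈ s.A \ V, ∃ b, Rch (s.A \ V) a b ∧ ∃ o, o ∉ s.A ∧ o ≤ b) : 0 ≤ ee V := by
  have e1 : s.A ∩ (Op s.A ∪ V) = V := Set.ext fun x =>
    ⟨fun k => k.2.resolve_left fun j => j.1 k.1, fun k => ⟨hV k, Or.inr k⟩⟩
  have e2 : s.A \ (Op s.A ∪ V) = s.A \ V := Set.ext fun x =>
    ⟨fun k => ⟨k.1, fun j => k.2 (Or.inr j)⟩, fun k => ⟨k.1, fun j => j.elim (fun j => j.1 k.1) k.2⟩⟩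
  have e3 : cb (ind (Op s.A ∪ V)) = Rp s.A + cb (ind V) := by
    rw [Rp_eq, ← cb_add]
    congr 1
    funext x
    by_cases h1 : x ∈ V
    · have : x ∉ Op s.A := fun k => k.1 (hV h1)
      simp [ind, h1, this]
    · simp [ind, h1]
  have hU : ∀ x y, Dp s.A x y → x ∈ Op s.A ∪ V → y ∈ Op s.A ∪ V := fun x y hp k => by
    rcases k with k | k
    · exact Or.inl (op_up h.conv k hp.1)
    · by_cases hy : y ∈ s.A
      exacts [Or.inr (up x k y hy hp.1), Or.inl ⟨hy, x, hV k, hp.1⟩]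
  have hn := nc_pot h.bnd hU (by
    rw [e1]
    intro a ha
    obtain ⟨b, h1, o, h2, h3⟩ := R1 a ha
    exact ⟨b, h1, o, h2, Or.inl ⟨h2, b, hV (h1.mem ha), h3⟩, Or.inl h3⟩) (by
    rw [e2]
    intro a ha
    obtain ⟨b, h1, o, h2, h3⟩ := R0 a ha
    exact ⟨b, h1, o, h2, fun k => k.elim (Alg36.om_op h.conv ⟨h2, b, (h1.mem ha).1, h3⟩)
      fun k => h2 (hV k), Or.inr h3⟩)
  have := h.maxp s id Desc.refl _ (sf_iff.2 ⟨mono_ind hU, coc_cb _, hn⟩)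
    (e3 ▸ eqv_add_cb fun x hx => ind_of_not fun k => hx (hV k))
  rw [e3, chi_add, chi_cb_ind h.mf hV] at this
  omega

/-- tautness against potentials with values `0, 1` -/
def Pot (s : St) : Prop := ∀ V ⊆ s.A, (∀ x ∈ V, ∀ y ∈ s.A, x ≤ y → y ∈ V) →
  (∀ a ∈ V, ∃ b, Rch V a b ∧ ∃ o, o ∉ s.A ∧ b ≤ o) →
  (∀ a ∈ s.A \ V, ∃ b, Rch (s.A \ V) a b ∧ ∃ o, o ∉ s.A ∧ o ≤ b) → 0 ≤ ee V

theorem pot_of_taut {s : St} (h : Taut s) : Pot s := fun _ hV up R1 R0 => ee_nonneg h hV up R1 R0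

/-- every union of components is balanced -/
theorem Wk.ee_clo {s : St} (h : Wk s) (hb : ee s.A = 0) (hp : Pot s) {C : Set s.P}
    (hC : Clo s.A C) : ee C = 0 := by
  have k : ∀ C, Clo s.A C → 0 ≤ ee C := fun C hC => by
    refine hp _ hC.sub (fun x hx y hy e => hC.cl x hx y hy (Or.inl e))
      (fun a ha => ?_) fun a ha => ?_
    · obtain ⟨x, b, y, h1, h2⟩ := h.su (hC.sub ha)
      exact ⟨b, hC.rch_in ha h1, y, h2.2.2.1, h2.2.2.2.2⟩
    · obtain ⟨x, b, y, h1, h2⟩ := h.su ha.1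
      exact ⟨b, hC.compl.rch_in ha h1, x, h2.1, h2.2.2.2.1⟩
  have h1 := k C hC
  have h2 := k _ hC.compl
  rw [ee_diff hC.sub, hb] at h2
  omega

theorem Inv.ee_clo {s : St} (h : Inv s) {C : Set s.P} (hC : Clo s.A C) : ee C = 0 :=
  h.wk.ee_clo h.bal (pot_of_taut h.toTaut) hC

end Crest.Agent.X212.Ind26
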