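import Crest.Agent.X212.Ind26.Ball
import Crest.Agent.X212.Hp13.Mx
import Crest.Agent.X212.Cut21.Leaf
import Crest.Agent.X212.Sf30.Tree

/-!
# X212 / Ind26 (helper26): handlebodies, complete disc systems, the one-sided index
-/

set_option autoImplicit false
set_option linter.unusedSectionVars false

open Finset Classical

noncomputable section

namespace Crest.Agent.X212.Ind26

open Hp13 Cut21 Alg36

section
variable {P : Type} [PartialOrder P]

/-- the classes on `M` spanned by the components of `z` -/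
inductive Spn (A : Set P) (z : P → P → ℤ) : (P → P → ℤ) → Prop
  | part {T : Set (Lv A z)} : Sat T → Spn A z (cnt T)
  | cb (g : P → ℤ) : Spn A z (cb g)
  | add {u v : P → P → ℤ} : Spn A z u → Spn A z v → Spn A z (u + v)
  | neg {u : P → P → ℤ} : Spn A z u → Spn A z (-u)
  | congr {u v : P → P → ℤ} : Spn A z u → EqD A v u → Spn A z v

variable [Fintype P]

/-- number of ARCS of `∂S` on `R₋`; linear, depends only on the boundary data -/
def nm (A : Set P) (z : P → P → ℤ) : ℤ :=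
  ∑ c ∈ univ.filter (fun c : Ch P => c.top ∈ Om A), c.sg * z c.bot c.top

/-- a complete disc system -/
structure DS (A : Set P) (z : P → P → ℤ) [IsCoc A z] : Prop where
  sf : Sf A z
  disc : ∀ D, IsCmp (LA A z) D → chiC D = 1
  span : ∀ w, Coc A w → Spn A z w

/-- the index of a system -/
def idx (A : Set P) (z : P → P → ℤ) [IsCoc A z] : ℕ :=
  ∑ D ∈ Sf30.cs (LA A z), (nm A (cnt (dn D)) - 1).toNat

/-- `w` is isotopic to the refinement of `z` along `f`, the boundary may move on `R₋`;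
`m` sends a cell to its carrier -/
structure Iso {Q : Type} [PartialOrder Q] [Fintype Q] (f : Q → P) (A : Set P) (z : P → P → ℤ)
    (B : Set Q) (w : Q → Q → ℤ) [IsCoc A z] [IsCoc B w] (m : Lv B w → Lv A z) : Prop where
  mono : Monotone m
  la : ∀ p ∈ LA B w, m p ∈ LA A z
  surj : ∀ q ∈ LA A z, ∃ p ∈ LA B w, Rch (LA A z) (m p) q
  rch : ∀ p ∈ LA B w, ∀ q ∈ LA B w, Rch (LA A z) (m p) (m q) → Rch (LA B w) p q
  chi : ∀ T, Sat T → chi B (cnt (m ⁻¹' T)) = chi A (cnt T)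
  nm : ∀ T, Sat T → nm B (cnt (m ⁻¹' T)) = nm A (cnt T)
  coh : ∀ T, Sat T → ∃ g : Q → ℤ, (∀ o ∈ Op B, g o = 0) ∧
    EqD B (cnt (m ⁻¹' T)) (pb f (cnt T) + cb g)
  dip : ∀ x y, Dp B x y → x ∉ B → y ∈ Op B → 0 < w x y →
    ∃ x' y', Dp A x' y' ∧ x' ∉ A ∧ y' ∈ Op A ∧ 0 < z x' y'

end

/-- handlebodies of index at most `c` -/
def HB (s : St) (c : ℕ) : Prop :=
  ∃ (t : St) (f : t.P → s.P) (z : t.P → t.P → ℤ) (_ : IsCoc t.A z),
    Desc s t f ∧ DS t.A z ∧ idx t.A z ≤ c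

/-- the parameters of the induction -/
def par : Par := ⟨Stt, fun s z => NF s.P s.A z, HB⟩

/-- REG (open): every surface is isotopic to one with regular boundary on `R₋` -/
def RegStmt : Prop := ∀ (s : St) (z : s.P → s.P → ℤ) [IsCoc s.A z], Good s → Sf s.A z →
  ∃ (t : St) (f : t.P → s.P) (w : t.P → t.P → ℤ) (_ : IsCoc t.A w) (m : Lv t.A w → Lv s.A z),
    Desc s t f ∧ Sf t.A w ∧ Iso f s.A z t.A w m ∧ JO t.A w ∧ BR t.A w

/-- ISO (26): disc systems under isotopies -/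
def IsoStmt : Prop := ∀ (s t : St) (f : t.P → s.P) (z : s.P → s.P → ℤ) (w : t.P → t.P → ℤ)
  [IsCoc s.A z] [IsCoc t.A w] (m : Lv t.A w → Lv s.A z), Good s → Desc s t f → DS s.A z →
    Sf t.A w → Iso f s.A z t.A w m → DS t.A w ∧ idx t.A w = idx s.A z

/-- CUT without maximality (21) -/
def Cut0Stmt : Prop := ∀ (s : St) (z : s.P → s.P → ℤ), Good s → Thick s.A → Esc s.A s.A →
  Sf s.A z → Bdy s.A z →
    ∃ (t : St) (f : t.P → s.P) (z' : t.P → t.P → ℤ) (c : St) (pr : c.P → t.P) (lev : c.P → ℤ),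
      Desc s t f ∧ Eqv t.A (pb f z) z' ∧ chi t.A z' = chi s.A z ∧ NF t.P t.A z' ∧
      IsCut t.A z' c.A pr lev ∧ Good c ∧ Thick c.A

/-- TRANSFER (26): a surface with the boundary and the Euler characteristic of a disc system -/
def TrStmt : Prop := ∀ (s t : St) (f : t.P → s.P) (z : s.P → s.P → ℤ) (w : t.P → t.P → ℤ)
  [IsCoc s.A z] [IsCoc t.A w], Good s → Desc s t f → DS s.A z → Sf t.A w → Eqv t.A (pb f z) w →
    chi s.A z ≤ chi t.A w → DS t.A w ∧ idx t.A w = idx s.A z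

/-- NULL₊ (26): a disc without arc on `R₋` cuts off a region that misses `R₋` -/
def NullPStmt : Prop := ∀ (s : St) (z : s.P → s.P → ℤ) [IsCoc s.A z], Stt s → Sf s.A z →
  Conn (LA s.A z) → chi s.A z = 1 → (∀ x y, y ∈ Om s.A → x ≤ y → z x y = 0) →
    ∃ g : s.P → ℤ, (∀ o ∈ Om s.A, g o = 0) ∧ EqD s.A z (cb g)

/-- NULL₋ (26): a disc with boundary inside `R₋` cuts off a region that misses `R₊` -/
def NullMStmt : Prop := ∀ (s : St) (z : s.P → s.P → ℤ) [IsCoc s.A z], Stt s → Sf s.A z →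
  Conn (LA s.A z) → chi s.A z = 1 → (∀ x y, Dp s.A x y → x ∉ s.A → y ∈ Op s.A → z x y = 0) →
    ∃ g : s.P → ℤ, (∀ o ∈ Op s.A, g o = 0) ∧ EqD s.A z (cb g)

end Crest.Agent.X212.Ind26
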