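import Crest.Agent.X212.Ind26.Defs

/-!
# X212 / Ind26 (helper26): cuts and admissible surfaces under subdivision, the induction
-/

set_option autoImplicit false
set_option linter.unusedSectionVars false

open Finset Classical

noncomputable section

namespace Crest.Agent.X212.Ind26

open Hp13

namespace Lift

variable {s s' s'' : St} {π : s'.P → s.P}

theorem mon (h : Lift s s' π) : Monotone π := h.mono.monotone

theorem inj_cm (h : Lift s s' π) {x y : s'.P} (hc : Cm x y) (e : π x = π y) : x = y := by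
  rcases hc with hc | hc
  · exact hc.eq_of_not_lt fun hl => (h.mono hl).ne e
  · exact (hc.eq_of_not_lt fun hl => (h.mono hl).ne e.symm).symm

theorem mem (h : Lift s s' π) {b : s'.P} (hb : b ∈ s'.A) : π b ∈ s.A := h.bij.mapsTo hb

theorem inj (h : Lift s s' π) {b q q' : s'.P} (hb : b ∈ s'.A) (hq : Cm b q) (hq' : Cm b q')
    (e : π q = π q') : q = q' := (h.star b hb).injOn hq hq' e

theorem ex (h : Lift s s' π) {b : s'.P} (hb : b ∈ s'.A) {x : s.P} (hx : Cm (π b) x) :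
    ∃ q, Cm b q ∧ π q = x := (h.star b hb).surjOn hx

theorem exA (h : Lift s s' π) {a : s.P} (ha : a ∈ s.A) : ∃ b ∈ s'.A, π b = a := h.bij.surjOn ha

theorem le_iff (h : Lift s s' π) {b q q' : s'.P} (hb : b ∈ s'.A) (hq : Cm b q) (hq' : Cm b q') :
    π q ≤ π q' ↔ q ≤ q' := ⟨h.refl b hb q q' hq hq', fun e => h.mon e⟩

/-- the image of a chain -/
def im (h : Lift s s' π) : Ch s'.P → Ch s.P := Ch.img π h.mon

theorem top_im (h : Lift s s' π) (d : Ch s'.P) : (h.im d).top = π d.top := Ch.top_img _ d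
theorem bot_im (h : Lift s s' π) (d : Ch s'.P) : (h.im d).bot = π d.bot := Ch.bot_img _ d
theorem im_mono (h : Lift s s' π) : Monotone h.im := Ch.img_mono h.mon
theorem mem_im (h : Lift s s' π) {d : Ch s'.P} {x : s.P} :
    x ∈ (h.im d).1 ↔ ∃ q ∈ d.1, π q = x := Ch.mem_img

theorem card_im (h : Lift s s' π) (d : Ch s'.P) : (h.im d).1.card = d.1.card :=
  card_image_of_injOn fun _ hx _ hy e => h.inj_cm (d.cm hx hy) e

theorem sg_im (h : Lift s s' π) (d : Ch s'.P) : (h.im d).sg = d.sg := by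
  rw [Ch.sg, h.card_im, Ch.sg]

/-- chains in a star are determined by their images -/
theorem le_of_im (h : Lift s s' π) {b : s'.P} (hb : b ∈ s'.A) {d d' : Ch s'.P}
    (hd : ∀ q ∈ d.1, Cm b q) (hd' : ∀ q ∈ d'.1, Cm b q) (e : h.im d ≤ h.im d') : d ≤ d' := by
  intro q hq
  obtain ⟨q', hq', e'⟩ := h.mem_im.1 (e (h.mem_im.2 ⟨q, hq, rfl⟩))
  exact h.inj hb (hd' _ hq') (hd _ hq) e' ▸ hq'

/-- chains in a star lift -/
theorem ex_ch (h : Lift s s' π) {b : s'.P} (hb : b ∈ s'.A) (e : Ch s.P)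
    (he : ∀ x ∈ e.1, Cm (π b) x) : ∃ d : Ch s'.P, h.im d = e ∧ ∀ q ∈ d.1, Cm b q := by
  refine ⟨Ch.mk' (univ.filter fun q => Cm b q ∧ π q ∈ e.1) ?_ ?_, Ch.ext (Finset.ext fun x => ?_),
    fun q hq => (mem_filter.1 hq).2.1⟩
  · obtain ⟨q, hq, e'⟩ := h.ex hb (he _ e.top_mem)
    exact ⟨q, mem_filter.2 ⟨mem_univ _, hq, e' ▸ e.top_mem⟩⟩
  · intro x hx y hy
    obtain ⟨-, h1, h2⟩ := mem_filter.1 hx
    obtain ⟨-, h3, h4⟩ := mem_filter.1 hy
    exact (e.cm h2 h4).imp (h.refl b hb _ _ h1 h3) (h.refl b hb _ _ h3 h1)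
  · rw [h.mem_im]
    refine ⟨fun ⟨q, hq, e'⟩ => e' ▸ (mem_filter.1 hq).2.2, fun hx => ?_⟩
    obtain ⟨q, hq, e'⟩ := h.ex hb (he _ hx)
    exact ⟨q, mem_filter.2 ⟨mem_univ _, hq, e' ▸ hx⟩, e'⟩

theorem cm_top {P : Type} [PartialOrder P] {β d : Ch P} (h : Cm β d) :
    ∀ q ∈ d.1, Cm β.top q := fun _ hq =>
  h.elim (fun h => d.cm (h β.top_mem) hq) fun h => Or.inr (Ch.le_top (h hq))

theorem sd (h : Lift s s' π) : Lift s.sd s'.sd h.im where
  mono c d hl := (h.im_mono hl.le).lt_of_ne fun e => hl.not_ge fun y hy => by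
    obtain ⟨x, hx, e'⟩ := h.mem_im.1 (e.ge (h.mem_im.2 ⟨y, hy, rfl⟩))
    exact h.inj_cm (Ch.cm d (hl.le hx) hy) e' ▸ hx
  bij := by
    refine ⟨fun d hd => ?_, fun d hd d' hd' e => ?_, fun e he => ?_⟩
    · exact (congrArg (· ∈ s.A) (h.top_im d)).mpr (h.mem hd)
    · have e1 : Ch.top d = Ch.top d' := h.bij.injOn hd hd'
        ((h.top_im d).symm.trans ((congrArg Ch.top e).trans (h.top_im d')))
      have h1 := cm_top (Cm.rfl (x := d))
      have h2 := cm_top (Cm.rfl (x := d'))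
      rw [← e1] at h2
      exact le_antisymm (h.le_of_im hd h1 h2 e.le) (h.le_of_im hd h2 h1 e.ge)
    · obtain ⟨b, hb, e1⟩ := h.exA he
      obtain ⟨d, e2, hd⟩ := h.ex_ch hb e fun x hx => e1 ▸ Or.inr (Ch.le_top hx)
      refine ⟨d, ?_, e2⟩
      show d.top ∈ s'.A
      rwa [h.inj hb (hd _ d.top_mem) Cm.rfl (by rw [← h.top_im, e2, e1])]
  star β hβ := by
    refine ⟨fun d hd => Cm.map h.im_mono hd, fun d hd d' hd' e => le_antisymm
      (h.le_of_im hβ (cm_top hd) (cm_top hd') e.le) (h.le_of_im hβ (cm_top hd') (cm_top hd) e.ge),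
      fun e he => ?_⟩
    obtain ⟨d, rfl, hd⟩ := h.ex_ch hβ e (h.top_im β ▸ cm_top he)
    exact ⟨d, Or.imp (h.le_of_im hβ (cm_top Cm.rfl) hd) (h.le_of_im hβ hd (cm_top Cm.rfl)) he, rfl⟩
  refl β hβ d d' hd hd' := h.le_of_im hβ (cm_top hd) (cm_top hd')

theorem comp {π' : s''.P → s'.P} (h : Lift s s' π) (h' : Lift s' s'' π') :
    Lift s s'' (π ∘ π') where
  mono := h.mono.comp h'.mono
  bij := h.bij.comp h'.bij
  star b hb := (h.star _ (h'.mem hb)).comp (h'.star b hb)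
  refl b hb q q' hq hq' e := h'.refl b hb q q' hq hq'
    (h.refl _ (h'.mem hb) _ _ (hq.map h'.mon) (hq'.map h'.mon) e)

theorem id (s : St) : Lift s s id :=
  ⟨strictMono_id, Set.bijOn_id _, fun _ _ => Set.bijOn_id _, fun _ _ _ _ _ _ e => e⟩

end Lift

namespace Cov

variable {s s' : St} {z : s.P → s.P → ℤ} {π : s'.P → s.P}

theorem sd (h : Cov s s' z π) : Cov s.sd s'.sd (pb Ch.top z) h.toLift.im where
  toLift := h.toLift.sd
  up β hβ d hd := by
    have := h.up _ hβ _ (Ch.top_mono hd)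
    erw [← h.toLift.top_im β, ← h.toLift.top_im d] at this
    exact this
  dn β hβ d hd := by
    have := h.dn _ hβ _ (Ch.top_mono hd)
    erw [← h.toLift.top_im β, ← h.toLift.top_im d] at this
    exact this

theorem top_im (h : Cov s s' z π) : Ch.top ∘ h.toLift.im = π ∘ Ch.top :=
  funext fun d => h.toLift.top_im d

/-- a subdivision of the cut is the cut of the subdivision -/
theorem lift (h : Cov s s' z π) {t' : St} {g : t'.P → s'.P} (hd : Desc s' t' g) :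
    ∃ (t : St) (f : t.P → s.P) (π' : t'.P → t.P), Desc s t f ∧ Cov t t' (pb f z) π' ∧
      f ∘ π' = π ∘ g := by
  induction hd with
  | refl => exact ⟨s, id, π, Desc.refl, h, rfl⟩
  | step _ ih =>
    obtain ⟨t, f, π', h1, h2, h3⟩ := ih
    refine ⟨t.sd, f ∘ Ch.top, _, h1.step, h2.sd, ?_⟩
    exact funext fun d => (congrArg f (h2.toLift.top_im d)).trans (congrFun h3 _)

/-- the cut of a subdivision -/
theorem desc (h : Cov s s' z π) {t : St} {f : t.P → s.P} (hd : Desc s t f) :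
    ∃ (t' : St) (g : t'.P → s'.P) (π' : t'.P → t.P), Desc s' t' g ∧ Cov t t' (pb f z) π' ∧
      f ∘ π' = π ∘ g := by
  induction hd with
  | refl => exact ⟨s', id, π, Desc.refl, h, rfl⟩
  | step _ ih =>
    obtain ⟨t', g, π', h1, h2, h3⟩ := ih
    refine ⟨t'.sd, g ∘ Ch.top, _, h1.step, h2.sd, ?_⟩
    exact funext fun d => (congrArg _ (h2.toLift.top_im d)).trans (congrFun h3 _)

end Cov

section cond

variable {P : Type} [PartialOrder P] {A : Set P} {z : P → P → ℤ}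

theorem Z0.symm {a a' : P} (h : Z0 z a a') : Z0 z a' a := Or.symm h

theorem Mv.symm {V : P → P → Prop} {p q : P × P} (h : Mv V z p q) : Mv V z q p :=
  ⟨h.2.1, h.1, h.2.2.imp (fun h => ⟨h.1.symm, h.2.symm⟩) fun h => ⟨h.1.symm, h.2.symm⟩⟩

theorem mv_symm {V : P → P → Prop} {p q : P × P} (h : Relation.ReflTransGen (Mv V z) p q) :
    Relation.ReflTransGen (Mv V z) q p := by
  induction h with
  | refl => exact .refl
  | tail _ h ih => exact .head h.symm ih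

/-- three points -/
def tri (x y w : P) (h : x ≤ y) (h' : y ≤ w) : Ch P :=
  (Ch.pr y w h').ins x fun q hq => by
    rcases mem_insert.1 hq with rfl | hq
    exacts [Or.inl h, Or.inl (mem_singleton.1 hq ▸ h.trans h')]

@[simp] theorem tri_val (x y w : P) (h : x ≤ y) (h' : y ≤ w) : (tri x y w h h').1 = {x, y, w} := rfl

@[simp] theorem top_tri (x y w : P) (h : x ≤ y) (h' : y ≤ w) : (tri x y w h h').top = w :=
  Ch.top_eq (by simp) (by simp [h', h.trans h'])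

@[simp] theorem bot_tri (x y w : P) (h : x ≤ y) (h' : y ≤ w) : (tri x y w h h').bot = x :=
  Ch.bot_eq (by simp) (by simp [h, h.trans h'])

/-- lifting a chain of moves -/
theorem mv_lift {V : P → P → Prop} {W : Ch P → Ch P → Prop}
    (same : ∀ c d c' d', W c d → W c' d' → c.top = c'.top → d.top = d'.top →
      Relation.ReflTransGen (Mv W (pb Ch.top z)) (c, d) (c', d'))
    (ex : ∀ p q, Mv V z p q → p.1 ≤ q.1 → (p.1 = q.1 → p.2 ≤ q.2) →
      ∃ u v, Mv W (pb Ch.top z) u v ∧ u.1.top = p.1 ∧ u.2.top = p.2 ∧ v.1.top = q.1 ∧ v.2.top = q.2)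
    {p q : P × P} (h : Relation.ReflTransGen (Mv V z) p q) {c d : Ch P} (hW : W c d)
    (e1 : c.top = p.1) (e2 : d.top = p.2) : ∀ c' d', W c' d' → c'.top = q.1 → d'.top = q.2 →
      Relation.ReflTransGen (Mv W (pb Ch.top z)) (c, d) (c', d') := by
  induction h with
  | refl => exact fun c' d' h' e3 e4 => same _ _ _ _ hW h' (e1.trans e3.symm) (e2.trans e4.symm)
  | @tail q r _ h ih =>
    intro c' d' h' e3 e4
    have : ∃ u v, Mv W (pb Ch.top z) u v ∧ u.1.top = q.1 ∧ u.2.top = q.2 ∧ v.1.top = r.1 ∧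
        v.2.top = r.2 := by
      by_cases hc : q.1 ≤ r.1 ∧ (q.1 = r.1 → q.2 ≤ r.2)
      · exact ex q r h hc.1 hc.2
      · have : r.1 ≤ q.1 ∧ (r.1 = q.1 → r.2 ≤ q.2) := by
          rcases h.2.2 with ⟨h1, h2⟩ | ⟨h1, h2⟩
          · refine ⟨?_, fun _ => h1.ge⟩
            rcases h2 with h2 | h2
            exacts [absurd ⟨h2.1, fun _ => h1.le⟩ hc, h2.1]
          · exact ⟨h1.ge, fun _ => h2.elim (fun h3 => absurd ⟨h1.le, fun _ => h3⟩ hc) id⟩
        obtain ⟨u, v, h1, h2, h3, h4, h5⟩ := ex r q h.symm this.1 this.2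
        exact ⟨v, u, h1.symm, h4, h5, h2, h3⟩
    obtain ⟨u, v, h1, h2, h3, h4, h5⟩ := this
    exact ((ih _ _ h1.1 h2 h3).tail h1).trans
      (same _ _ _ _ h1.2.1 h' (h4.trans e3.symm) (h5.trans e4.symm))

theorem CondU.sd (hz : Coc A z) (h : CondU A z) : CondU (Ch.top ⁻¹' A) (pb Ch.top z) := by
  have k : ∀ c d (hW : PU (Ch.top ⁻¹' A) c d), Relation.ReflTransGen
      (Mv (PU (Ch.top ⁻¹' A)) (pb Ch.top z)) (c, d)
      (Ch.pt c.top, Ch.pr c.top d.top (Ch.top_mono hW.2.2)) := fun c d hW => by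
    have h1 : PU (Ch.top ⁻¹' A) (Ch.pt c.top) d :=
      ⟨by simpa using hW.1, hW.2.1, Ch.pt_le.2 (hW.2.2 c.top_mem)⟩
    refine .tail (.single (b := (Ch.pt c.top, d)) ⟨hW, h1, Or.inl ⟨rfl, Or.inr
      ⟨Ch.pt_le.2 c.top_mem, ?_⟩⟩⟩) ⟨h1, ⟨h1.1, by simpa using hW.2.1, Ch.pt_le.2 (by simp)⟩,
      Or.inr ⟨rfl, Or.inr ?_⟩⟩
    · simpa [pb] using hz.self hW.1 Cm.rfl
    · intro x hx
      rcases mem_insert.1 hx with rfl | hx
      exacts [hW.2.2 c.top_mem, mem_singleton.1 hx ▸ d.top_mem]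
  intro c d hW
  obtain ⟨q, hq, x, hx, hx'⟩ := h c.top d.top ⟨hW.1, hW.2.1, Ch.top_mono hW.2.2⟩
  have hV : PU A q.1 q.2 := by
    rcases hq.cases_tail with rfl | ⟨_, -, h⟩
    exacts [⟨hW.1, hW.2.1, Ch.top_mono hW.2.2⟩, h.2.1]
  refine ⟨(Ch.pr x q.1 hx, tri x q.1 q.2 hx hV.2.2), mv_lift (fun c d c' d' h1 h2 e1 e2 => ?_)
    (fun p q h h1 h2 => ?_) hq hW rfl rfl _ _ ⟨by simpa using hV.1, by simpa using hV.2.1, ?_⟩
    (by simp) (by simp), Ch.pt x, Ch.pt_le.2 (by simp), by simpa [pb] using hx'⟩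
  · refine (k c d h1).trans (mv_symm ?_)
    simpa only [e1, e2] using k c' d' h2
  · rcases h.2.2 with ⟨e, h3⟩ | ⟨e, -⟩
    · have h4 : z p.1 q.1 = 0 := h3.elim (·.2) fun h3 => by
        rw [le_antisymm h1 h3.1]; exact hz.self h.2.1.1 Cm.rfl
      refine ⟨(Ch.pt p.1, tri p.1 q.1 q.2 h1 h.2.1.2.2), (Ch.pr p.1 q.1 h1,
        tri p.1 q.1 q.2 h1 h.2.1.2.2), ⟨⟨by simpa using h.1.1, by simpa using h.2.1.2.1,
        Ch.pt_le.2 (by simp)⟩, ⟨by simpa using h.2.1.1, by simpa using h.2.1.2.1, ?_⟩,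
        Or.inl ⟨rfl, Or.inl ⟨Ch.pt_le.2 (by simp), by simpa [pb] using h4⟩⟩⟩,
        by simp, by simp [e], by simp, by simp⟩
      simp [Ch.le_iff, insert_subset_iff]
    · refine ⟨(Ch.pt p.1, Ch.pr p.1 p.2 h.1.2.2), (Ch.pt p.1, tri p.1 p.2 q.2 h.1.2.2 (h2 e)),
        ⟨⟨by simpa using h.1.1, by simpa using h.1.2.1, Ch.pt_le.2 (by simp)⟩,
        ⟨by simpa using h.1.1, by simpa using h.2.1.2.1, Ch.pt_le.2 (by simp)⟩,
        Or.inr ⟨rfl, Or.inl ?_⟩⟩, by simp, by simp, by simp [e], by simp⟩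
      simp [Ch.le_iff, insert_subset_iff]
  · simp [Ch.le_iff, insert_subset_iff]

theorem CondD.sd (hz : Coc A z) (h : CondD A z) : CondD (Ch.top ⁻¹' A) (pb Ch.top z) := by
  have k : ∀ c d (hW : PD (Ch.top ⁻¹' A) c d), Relation.ReflTransGen
      (Mv (PD (Ch.top ⁻¹' A)) (pb Ch.top z)) (c, d)
      (Ch.pr d.top c.top (Ch.top_mono hW.2.2), Ch.pt d.top) := fun c d hW => by
    have h1 : PD (Ch.top ⁻¹' A) c (Ch.pt d.top) :=
      ⟨hW.1, by simpa using hW.2.1, Ch.pt_le.2 (hW.2.2 d.top_mem)⟩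
    refine .tail (.single (b := (c, Ch.pt d.top)) ⟨hW, h1, Or.inr ⟨rfl, Or.inr
      (Ch.pt_le.2 d.top_mem)⟩⟩) ⟨h1, ⟨by simpa using hW.1, h1.2.1, Ch.pt_le.2 (by simp)⟩,
      Or.inl ⟨rfl, Or.inr ⟨?_, ?_⟩⟩⟩
    · intro x hx
      rcases mem_insert.1 hx with rfl | hx
      exacts [hW.2.2 d.top_mem, mem_singleton.1 hx ▸ c.top_mem]
    · simpa [pb] using hz.self hW.1 Cm.rfl
  intro c d hW
  obtain ⟨q, hq, y, hy, hy'⟩ := h c.top d.top ⟨hW.1, hW.2.1, Ch.top_mono hW.2.2⟩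
  have hV : PD A q.1 q.2 := by
    rcases hq.cases_tail with rfl | ⟨_, -, h⟩
    exacts [⟨hW.1, hW.2.1, Ch.top_mono hW.2.2⟩, h.2.1]
  refine ⟨(Ch.pr q.2 q.1 hV.2.2, Ch.pt q.2), mv_lift (fun c d c' d' h1 h2 e1 e2 => ?_)
    (fun p q h h1 h2 => ?_) hq hW rfl rfl _ _ ⟨by simpa using hV.1, by simpa using hV.2.1,
    Ch.pt_le.2 (by simp)⟩ (by simp) (by simp), tri q.2 q.1 y hV.2.2 hy, ?_, by simpa [pb] using hy'⟩
  · refine (k c d h1).trans (mv_symm ?_)
    simpa only [e1, e2] using k c' d' h2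
  · rcases h.2.2 with ⟨e, h3⟩ | ⟨e, -⟩
    · have h4 : z p.1 q.1 = 0 := h3.elim (·.2) fun h3 => by
        rw [le_antisymm h1 h3.1]; exact hz.self h.2.1.1 Cm.rfl
      refine ⟨(Ch.pr p.2 p.1 h.1.2.2, Ch.pt p.2), (tri p.2 p.1 q.1 h.1.2.2 h1, Ch.pt p.2),
        ⟨⟨by simpa using h.1.1, by simpa using h.1.2.1, Ch.pt_le.2 (by simp)⟩,
        ⟨by simpa using h.2.1.1, by simpa using h.1.2.1, Ch.pt_le.2 (by simp)⟩,
        Or.inl ⟨rfl, Or.inl ⟨?_, by simpa [pb] using h4⟩⟩⟩, by simp, by simp, by simp, by simp [e]⟩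
      simp [Ch.le_iff, insert_subset_iff]
    · refine ⟨(tri p.2 q.2 q.1 (h2 e) h.2.1.2.2, Ch.pt p.2), (tri p.2 q.2 q.1 (h2 e) h.2.1.2.2,
        Ch.pr p.2 q.2 (h2 e)), ⟨⟨by simpa using h.2.1.1, by simpa using h.1.2.1,
        Ch.pt_le.2 (by simp)⟩, ⟨by simpa using h.2.1.1, by simpa using h.2.1.2.1, ?_⟩,
        Or.inr ⟨rfl, Or.inl (Ch.pt_le.2 (by simp))⟩⟩, by simp [e], by simp, by simp, by simp⟩
      simp [Ch.le_iff, insert_subset_iff]
  · simp [Ch.le_iff, insert_subset_iff]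

end cond

theorem Adm.sd {s : St} {z : s.P → s.P → ℤ} (h : Adm s z) : Adm s.sd (pb Ch.top z) :=
  ⟨(Desc.sd s).sf h.sf, fun _ ha _ ha' e => h.spr _ ha _ ha' (Ch.top_mono e),
    h.cu.sd h.sf.coc, h.cd.sd h.sf.coc⟩

theorem Adm.desc {s t : St} {f : t.P → s.P} {z : s.P → s.P → ℤ} (h : Adm s z) (hd : Desc s t f) :
    Adm t (pb f z) := by
  induction hd with
  | refl => exact h
  | step _ ih => exact ih.sd

theorem desc_of_sd {J : St → Prop} (h : ∀ s, J s → J s.sd) {s t : St} {f : t.P → s.P}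
    (hd : Desc s t f) (hs : J s) : J t := by
  induction hd with
  | refl => exact hs
  | step _ ih => exact h _ ih

/-- one step back -/
theorem back (hS : SdStmt) {s t s' : St} {f : t.P → s.P} {z : t.P → t.P → ℤ} {π : s'.P → t.P}
    (hs : Inv s) (hd : Desc s t f) (hz : Adm t z) (hc : Cov t s' z π)
    (h : ∃ t' g, Desc s' t' g ∧ Hier t') : ∃ t f, Desc s t f ∧ Hier t := by
  obtain ⟨t', g, h1, h2⟩ := h
  obtain ⟨u, f', π', h3, h4, -⟩ := hc.lift h1
  exact ⟨u, _, hd.trans h3, .step (desc_of_sd hS (hd.trans h3) hs) (hz.desc h3) h4 h2⟩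

/-- **the induction** -/
theorem hier {X : Par} (hS : SdStmt) (hJ : JStmt X) (hst : StepStmt X) (h1 : P1Stmt X)
    (h2 : P2Stmt X) (h0 : BaseStmt X) : HierStmt X := by
  have cut : ∀ s t (f : t.P → s.P) ζ, X.J s → Desc s t f → Coc t.A ζ →
      (∀ s', Cut X t ζ s' → X.J s' → ∃ t' g, Desc s' t' g ∧ Hier t') →
      ∃ t f, Desc s t f ∧ Hier t := fun s t f ζ hs hd hζ h => by
    obtain ⟨s', hc⟩ := hst t (desc_of_sd (fun s h => (hJ s h).2) hd hs) ζ hζ
    obtain ⟨u, g, z, π, a1, -, -, a2, -, a3, a4⟩ := id hc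
    exact back hS (hJ s hs).1 (hd.trans a1) a2 a3 (h s' hc a4)
  have hb : ∀ c s, X.J s → X.HB s c → ∃ t f, Desc s t f ∧ Hier t := by
    intro c
    induction c with
    | zero =>
      intro s hs h
      obtain ⟨t, f, z, s', π, a1, a2, a3, a4⟩ := h0 s hs h
      exact back hS (hJ s hs).1 a1 a2 a3 ⟨s', id, Desc.refl, .fin a4⟩
    | succ c ih =>
      intro s hs h
      rcases h2 s c hs h with h | ⟨t, f, ζ, a1, a2, a3⟩
      exacts [ih s hs h, cut s t f ζ hs a1 a2 fun s' a4 a5 => ih s' a5 (a3 s' a4)]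
  obtain ⟨m, hm⟩ := h1
  intro s
  induction hn : m s using Nat.strong_induction_on generalizing s with
  | _ n ih =>
    intro hs
    rcases hm s hs with ⟨c, h⟩ | ⟨t, f, ζ, a1, a2, a3⟩
    exacts [hb c s hs h, cut s t f ζ hs a1 a2 fun s' a4 a5 => ih _ (hn ▸ a3 s' a4) s' rfl a5]

/-- the hierarchy as a list -/
structure HierL (n : ℕ) (S : ℕ → St) (z : ∀ i, (S i).P → (S i).P → ℤ)
    (π : ∀ i, (S (i + 1)).P → (S i).P) : Prop where
  wk : ∀ i ≤ n, Wk (S i)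
  inv : ∀ i < n, Inv (S i)
  adm : ∀ i < n, Adm (S i) (z i)
  cov : ∀ i < n, Cov (S i) (S (i + 1)) (z i) (π i)
  fin : End (S n)

theorem Hier.list {s : St} (h : Hier s) : ∃ n S z π, HierL n S z π ∧ S 0 = s := by
  induction h with
  | @fin s h =>
    exact ⟨0, fun _ => s, fun _ => 0, fun _ => id, ⟨fun _ _ => h.toWk, fun _ h => absurd h (by simp),
      fun _ h => absurd h (by simp), fun _ h => absurd h (by simp), h⟩, rfl⟩
  | @step s s' z π h1 h2 h3 _ ih =>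
    obtain ⟨n, S, Z, p, h, rfl⟩ := ih
    refine ⟨n + 1, fun i => Nat.casesOn i s S, fun i => Nat.casesOn i z Z,
      fun i => Nat.casesOn i π p, ⟨?_, ?_, ?_, ?_, h.fin⟩, rfl⟩
    · rintro (_ | i) hi
      exacts [h1.wk, h.wk i (by omega)]
    · rintro (_ | i) hi
      exacts [h1, h.inv i (by omega)]
    · rintro (_ | i) hi
      exacts [h2, h.adm i (by omega)]
    · rintro (_ | i) hi
      exacts [h3, h.cov i (by omega)]

end Crest.Agent.X212.Ind26
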