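import Crest.Agent.X212.Kh11.Lev

/-!
# X212 / Ind26 (helper26): KH-BIRTH, a new member of a Haken family
-/

set_option autoImplicit false
set_option linter.unusedSectionVars false

open Finset Classical

noncomputable section

namespace Crest.Agent.X212.Bi26

open Hp13 Hk
open Alg36 (Om Esc mix)

variable {P R : Type} [PartialOrder P] [Fintype P] [PartialOrder R] {car : P → R}
  {X X' Y C U₀ G₀ V₀ U₁ G₁ V₁ : Set P} {k : ℕ} {U G V : Fin k → Set P} {ζ w : P → P → ℤ} {t : St}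
  {f : t.P → P}

/-! ### components -/

theorem cmp_cl (hX : Rg X) (hC : IsCmp X C) {y v : P} (hy : y ∈ cl C) (hv : v ∈ X) (l : y ≤ v) :
    v ∈ C :=
  let ⟨c, h1, h2⟩ := hy
  (Alg36.IsCmp.clo hC).rch h1 (((hX.ctr ⟨c, hC.sub h1, h2⟩).conn c ⟨hC.sub h1, h2⟩ v ⟨hv, l⟩).mono
    fun _ k => k.1)

theorem cl_cmp (hX : Rg X) (hC : IsCmp X C) {y v : P} (hy : y ∈ cl C) (hv : v ∈ cl X) (l : y ≤ v) :
    v ∈ cl C := let ⟨a, h1, h2⟩ := hv; ⟨a, cmp_cl hX hC hy h1 (l.trans h2), h2⟩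

theorem om_cmp (hX : Rg X) (hC : IsCmp X C) : Om C ⊆ Om X := fun _ hx =>
  ⟨fun k => hx.1 (cmp_cl hX hC hx.2 k le_rfl), cl_mono hC.sub hx.2⟩

theorem amb_cmp (h : Amb X) (hC : IsCmp X C) : Amb C :=
  have c := Alg36.IsCmp.clo hC
  ⟨⟨hC.upper h.up, h.mf.mono hC.sub, c.nice h.nice⟩, c.bnd h.nice h.bnd, c.bnd h.nice h.bnd2,
    fun a ha => let ⟨b, _, r, x, h1, h2⟩ := h.esc a (hC.sub ha)
      ⟨b, c.rch ha r, c.rch_in ha r, x, fun k => h1 (hC.sub k), h2⟩⟩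

theorem two_cmp (hX : Rg X) (hY : IsUpperSet Y) (h : Two car Y X (Om X) X') (hC : IsCmp X C) :
    Two car Y C (Om C) (Y \ cl C) := by
  refine ⟨h.mono, hC.upper hX.up, hY.inter cl_low.compl, hC.sub.trans h.sub, Set.sdiff_subset,
    fun y hy => ?_, Set.disjoint_left.2 fun _ a b => b.2 (sub_cl a),
    Set.disjoint_left.2 fun _ a b => a.2 b.2, bd_om (hC.upper hX.up), fun T hT x hx l => ?_,
    fun T hT x hx l => ?_⟩
  · rw [← or_assoc, ← Hk.mem_cl]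
    exact or_iff_not_imp_left.2 fun k => ⟨hy, k⟩
  · convert h.tv T hT x ⟨om_cmp hX hC hx.1, hx.2⟩ l using 3
    exact and_congr_left fun j => ⟨fun i => hC.sub i, fun i => cmp_cl hX hC hx.1.2 i j.1⟩
  · convert h.tv' T hT x ⟨om_cmp hX hC hx.1, hx.2⟩ l using 3
    refine and_congr_left fun j => ⟨fun i => ?_, fun i => ⟨h.sub' i, fun e => ?_⟩⟩
    · have n := fun e => i.2 (cl_cmp hX hC hx.1.2 e j.1)
      exact ((h.cov _ i.1).resolve_left fun e => n (sub_cl e)).resolve_left fun e => n e.2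
    · exact (Hk.mem_cl.1 (cl_mono hC.sub e)).elim (fun a => Set.disjoint_left.1 h.dj a i)
        (Set.disjoint_left.1 h.dg i)

theorem qq_cmp (hX : Rg X) (h : QQ Y X) (hC : IsCmp X C) : QQ Y C := by
  refine ⟨fun a ha => ?_, fun b hb e => exOn_mono (h.q2 b (cocOn_mono hb
    (Set.sdiff_subset_sdiff_right hC.sub)) e) (om_cmp hX hC)⟩
  have lo := om_low (hC.upper hX.up)
  obtain ⟨b, hb, g, hg⟩ := h.q1 (fun x y => if y ∈ Om C then a x y else 0)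
    fun x _ y _ v hv l l' => by
      by_cases j : v ∈ Om C
      · simp only [if_pos j, if_pos (lo l' j)]
        exact ha x (lo (l.trans l') j) y (lo l' j) v j l l'
      · simp only [if_neg j, if_neg fun i : y ∈ Om C =>
          j ⟨fun e => hv.1 (hC.sub e), cl_cmp hX hC i.2 hv.2 l'⟩, add_zero]
  refine ⟨fun x y => if y ∈ X then 0 else b x y - (g y - g x), fun x hx y hy v hv l l' => ?_,
    0, fun x hx y hy l => ?_⟩
  · by_cases j : v ∈ X
    · by_cases i : y ∈ X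
      · simp only [if_pos j, if_pos i, add_zero]
      · have := hg x ⟨fun e => i (hX.up l e), v, j, l.trans l'⟩ y ⟨i, v, j, l'⟩ l
        simp only [Pi.sub_apply, if_neg fun e : y ∈ Om C => hv.2 (cmp_cl hX hC e.2 j l'),
          sub_zero] at this
        simp only [if_pos j, if_neg i, this, sub_self, add_zero]
    · have i : y ∉ X := fun e => j (hX.up l' e)
      simp only [if_neg j, if_neg i, hb x ⟨hx.1, fun e => i (hX.up l e)⟩ y ⟨hy.1, i⟩ v ⟨hv.1, j⟩ l l']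
      abel
  · have := hg x (om_cmp hX hC hx) y (om_cmp hX hC hy) l
    simp only [Pi.sub_apply, if_pos hy] at this
    simp only [Pi.sub_apply, if_neg (om_cmp hX hC hy).1, ← this, Pi.zero_apply]
    abel

theorem pr_cmp (hX : Amb X) (hY : IsUpperSet Y) (h : Two car Y X (Om X) X') (q : QQ Y X)
    (hC : IsCmp X C) : PR car Y C :=
  ⟨amb_cmp hX hC, hC.conn, hC.ne, two_cmp hX.toRg hY h hC, qq_cmp hX.toRg q hC⟩

theorem two_self (hY : IsUpperSet Y) (hc : Monotone car) : Two car Y Y (Om Y) ∅ :=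
  ⟨hc, hY, isUpperSet_empty, subset_rfl, Set.empty_subset _, fun _ => Or.inl, Set.disjoint_empty _,
    Set.empty_disjoint _, bd_om hY, fun _ _ _ hx => absurd hx.2 hx.1.1,
    fun _ _ _ hx => absurd hx.2 hx.1.1⟩

theorem qq_self : QQ Y Y :=
  ⟨fun a ha => ⟨a, cocOn_mono ha fun _ k => ⟨k.2, k.1⟩, by rw [sub_self]; exact exOn_zero⟩,
    fun _ _ h => h⟩

/-! ### members -/

theorem mem_rg (hY : Amb Y) (h : Mem car Y U₀ G₀ V₀) : Rg U₀ :=
  rg_of h.two.up (hY.mf.mono h.two.sub) fun x hx => by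
    simpa using h.two.tv _ isLowerSet_univ x ⟨h.om hx, h.sub (h.om hx)⟩ trivial

theorem mem_mf (hN : NmStmt) (hY : Amb Y) (h : Mem car Y U₀ G₀ V₀) (A : Set P) : MfIn G₀ A :=
  (h.om.antisymm h.two.bd.sub ▸ ((hN P).1 U₀ (mem_rg hY h)).1).mono (Set.subset_univ _)

theorem nest (hY : Esc Y Y) (h : Mem car Y U₀ G₀ V₀) (h' : Mem car Y U₁ G₁ V₁) (d : Disjoint G₀ G₁)
    (k : G₁ ⊆ U₀) : G₀ ⊆ V₁ := fun x hx => by
  by_contra n
  have x1 := ((h'.two.cov x (h.sub hx)).resolve_right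
    (not_or.2 ⟨Set.disjoint_left.1 d hx, n⟩))
  have s : G₀ ⊆ U₁ := fun y hy => (h.conn x hx y hy).ind (p := (· ∈ U₁)) x1 fun a ha b _ l =>
    ⟨fun j => h'.two.up l j, fun j => (Hk.mem_cl.1 ⟨b, j, l⟩).resolve_right
      fun i => Set.disjoint_left.1 d ha (h'.om i)⟩
  have c : ∀ {a b}, a ≤ b → (a ∈ U₀ ∪ U₁ ↔ b ∈ U₀ ∪ U₁) := fun {a b} l =>
    ⟨fun j => j.imp (fun i => h.two.up l i) fun i => h'.two.up l i, fun j => j.elim
      (fun i => (Hk.mem_cl.1 ⟨b, i, l⟩).imp id fun e => s (h.om e))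
      fun i => ((Hk.mem_cl.1 ⟨b, i, l⟩).imp id fun e => k (h'.om e)).symm⟩
  obtain ⟨b, -, r, o, o1, o2⟩ := hY x (h.sub hx)
  have := r.ind (p := (· ∈ U₀ ∪ U₁)) (Or.inr x1) fun _ _ _ _ => c
  exact o1 ((o2.elim (fun l => (c l).1 this) fun l => (c l).2 this).elim (fun j => h.two.sub j)
    fun j => h'.two.sub j)

theorem fm_pre (hY : Amb Y) (h : Fm car Y k U G V) (ht : Tw P t f) :
    Fm (car ∘ f) (f ⁻¹' Y) k (fun j => f ⁻¹' U j) (fun j => f ⁻¹' G j) fun j => f ⁻¹' V j :=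
  ⟨fun i => (h.mem i).pre ht, fun i j n => (h.dj i j n).preimage f,
    fun i j n => (h.np i j n).pre (nest hY.esc (h.mem i) (h.mem j) (h.dj i j n)) ht⟩

theorem fm_cons (h : Fm car Y k U G V) (h0 : Mem car Y U₀ G₀ V₀) (d : ∀ j, Disjoint (G j) G₀)
    (hc : CocOn (cl Y) ζ) (e : ∀ j, ExOn (G j) ζ) (n : ¬ ExOn G₀ ζ) :
    Fm car Y (k + 1) (Fin.cons U₀ U) (Fin.cons G₀ G) (Fin.cons V₀ V) := by
  refine ⟨Fin.cases h0 h.mem, Fin.cases (Fin.cases (fun j => absurd rfl j) fun j _ => (d j).symm)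
    fun i => Fin.cases (fun _ => d i) fun j l => h.dj i j fun e => l (e ▸ rfl),
    Fin.cases (Fin.cases (fun j => absurd rfl j) fun j _ _ => ⟨ζ, cocOn_mono hc fun _ a => ?_,
      fun i => n (i.2 (e j))⟩) fun i => Fin.cases (fun _ _ => ⟨ζ, cocOn_mono hc fun _ a => ?_,
        fun l => n (l.1 (e i))⟩) fun j l => h.np i j fun e => l (e ▸ rfl)⟩
  · exact sub_cl (a.1.elim (fun b => h0.two.sub b) fun b => h0.sub b)
  · exact sub_cl (a.2.elim (fun b => h0.two.sub' b) fun b => h0.sub b)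

/-! ### the compression process -/

/-- the state -/
structure Sta (car : P → R) (Y : Set P) (k : ℕ) (U G V : Fin k → Set P) (ζ : P → P → ℤ)
    (C : Set P) : Prop where
  amb : Amb Y
  fm : Fm car Y k U G V
  coc : CocOn (cl Y) ζ
  ex : ∀ j, ExOn (G j) ζ
  pr : PR car Y C
  nd : ¬ DD C ζ
  dj : ∀ j, Disjoint (G j) (Om C)

/-- the goal -/
def Gl (car : P → R) (Y : Set P) (k : ℕ) : Prop :=
  ∃ t f, Tw P t f ∧ ∃ U' G' V', Fm (car ∘ f) (f ⁻¹' Y) (k + 1) U' G' V'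

theorem Gl.up (ht : Tw P t f) (h : Gl (car ∘ f) (f ⁻¹' Y) k) : Gl car Y k :=
  let ⟨t', g, h1, h2⟩ := h; ⟨t', f ∘ g, ht.trans h1, h2⟩

theorem Sta.pre (h : Sta car Y k U G V ζ C) (ht : Tw P t f) :
    Sta (car ∘ f) (f ⁻¹' Y) k (fun j => f ⁻¹' U j) (fun j => f ⁻¹' G j) (fun j => f ⁻¹' V j)
      (pb f ζ) (f ⁻¹' C) :=
  ⟨h.amb.pre ht, fm_pre h.amb h.fm ht, ht.cl Y ▸ cocOn_pb h.coc ht.mono,
    fun j => exOn_pb (h.ex j) ht.mono, h.pr.pre ht, fun j => h.nd (j.up ht),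
    fun j => ht.om C ▸ (h.dj j).preimage f⟩

theorem Sta.sub (h : Sta car Y k U G V ζ C) : Sub Y C := Sub.of h.amb h.pr.amb.toRg h.pr.two.sub

theorem conn_om (hN : NmStmt) (h : Amb C) (hc : Conn C) : Conn (Om C) :=
  ((hN P).1 C h.toRg).2.2.1.2 (Alg36.conn_mix h.nice h.bnd2 hc)

theorem Sta.fin (hN : NmStmt) (hP : PushStmt) (hO : OutStmt) (h : Sta car Y k U G V ζ C)
    (hi : INC C (Om C)) : Gl car Y k := by
  have a := h.pr.amb
  have c := cocOn_mono h.coc (cl_mono h.pr.two.sub)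
  obtain ⟨t, f, C', ht, p, i, s, s', d, n⟩ := hP P R car Y C (⋃ j, G j) ζ h.amb h.pr hi
    (isLowerSet_iUnion fun j => (h.fm.mem j).two.bd.low)
    (Set.iUnion_subset fun j => (h.fm.mem j).sub) (Set.disjoint_iUnion_left.2 h.dj) c
    fun ⟨g, hg⟩ => by
      obtain ⟨g', -, e⟩ := Alg36.Bnd.eqD_cb a.bnd ((coc_iff a.up).2 c) (g := g) fun x y hp hx hy =>
        have := ((dp_iff a.up).1 hp).2
        hg x ⟨hx, cl_low hp.1 this⟩ y ⟨hy, this⟩ hp.1
      exact h.nd (DD.of_ex (exOn_iff.2 ⟨g', (eqD_iff a.up).1 e⟩))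
  have h' := h.pre ht
  have a' := p.amb
  obtain ⟨o1, o2⟩ := hO _ R _ _ C' h'.amb p s (not_lt.1 fun j => by
    obtain ⟨g, e⟩ := Alg36.eqD_cb_of_eu a'.mf a'.nice a'.bnd2 a'.bnd p.conn j
      ((coc_iff a'.up).2 (cocOn_mono h'.coc (cl_mono p.two.sub)))
    exact n (exOn_mono (exOn_iff.2 ⟨g, (eqD_iff a'.up).1 e⟩) om_sub_cl))
  exact ⟨t, f, ht, _, _, _, fm_cons h'.fm ⟨p.two, s, conn_om hN a' p.conn,
    Set.nonempty_iff_ne_empty.2 fun e => n (e ▸ ⟨0, fun _ j => j.elim⟩), subset_rfl, i, o1, o2⟩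
    (fun j => d.mono_left (Set.preimage_mono (Set.subset_iUnion G j))) h'.coc h'.ex n⟩

theorem Sta.flat (hN : NmStmt) (hI : IcStmt) (hT : TraDStmt) (h : Sta car Y k U G V ζ C)
    (hw : TD C w) (hn : ¬ Ines (Om C) w) (s : Finset (Fin k)) :
    ∃ t f w', Tw P t f ∧ TD (f ⁻¹' C) w' ∧ ¬ Ines (f ⁻¹' Om C) w' ∧
      ∀ j ∈ s, Flat (f ⁻¹' (G j ∩ cl C)) w' := by
  induction s using Finset.induction_on with
  | empty => exact ⟨lv0 P, id, w, Tw.refl P, hw, hn, fun _ j => absurd j (notMem_empty _)⟩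
  | insert j s hj ih =>
  obtain ⟨t, f, u, ht, a1, a2, a3⟩ := ih
  have m := h.fm.mem j
  have lo := fun i => ht.lower (h.fm.mem i).two.bd.low
  have up := ht.upper h.pr.amb.up
  obtain ⟨t', g, u', tr, nc⟩ := hT _ _ _ _ _ u (h.sub.pre ht) up subset_rfl (lo j)
    ((mem_mf hN h.amb m C).pre m.two.bd.low ht) a1
  refine ⟨t', f ∘ g, u', ht.trans tr.tw, tr.td,
    fun e => a2 (ht.om C ▸ tr.ines _ (bd_om up) on_om ((ht.om C).symm ▸ e)), fun i hi => ?_⟩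
  rcases mem_insert.1 hi with rfl | hi
  · exact (hI P).2.2 Y C _ h.sub m.two.bd.low (mem_mf hN h.amb m Y)
      ((h.dj i).mono_left Set.inter_subset_left) ((hI P).1 R car Y _ _ _ h.amb m) _ _
      (ht.trans tr.tw) u' (Or.inl tr.td)
      (fun _ e => absurd e.2 (Set.disjoint_left.1 (h.dj i) e.1)) nc
  · have := tr.flat _ (lo i) (((h.fm.dj i j fun e => hj (e ▸ hi)).preimage f).mono_right
      Set.inter_subset_left) (by rw [ht.cl]; exact a3 i hi)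
    rwa [ht.cl] at this

theorem Sta.cut (hN : NmStmt) (m1 : Mv1Stmt) (m2 : Mv2Stmt) (c1 : Tc1Stmt) (c3 : Tc3Stmt)
    (hD : DdStmt) (h : Sta car Y k U G V ζ C) (hw : TD C w) (hn : ¬ Ines (Om C) w)
    (hf : ∀ j, Flat (G j ∩ cl C) w) : ∃ C', Sta (car ∘ t3) (t3 ⁻¹' Y) k (fun j => t3 ⁻¹' U j)
      (fun j => t3 ⁻¹' G j) (fun j => t3 ⁻¹' V j) (pb t3 ζ) C' ∧ eu C < eu C' := by
  have a := h.pr.amb
  have h3 := h.pre (Tw.three P)
  have p1 : PR (car ∘ Ch.top) (Ch.top ⁻¹' Y) (Ch.top ⁻¹' C) := h.pr.pre (Tw.one P)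
  obtain ⟨b1, b2, b3, b4, b5, -, b6, b7, b8, -⟩ := c1 P C w a.toRg hw
  have b3 := b3 a
  obtain ⟨-, -, -, e1, -, e2⟩ := m1 _ _ _ _ p1.amb.toRg (bd_om p1.amb.up) b1
  have tw := e2 R _ _ _ (h.amb.up.preimage Ch.top_mono) p1.two
  rw [Set.sdiff_self, Set.preimage_empty, Set.union_empty] at e1
  rw [← e1] at tw
  have qq := (m2 _ _ _ (Cv (cl C) w) p1.amb.toRg (bd_om p1.amb.up)).2 _ p1.two.sub b1 b5 p1.qq
  have sb : Sub (t3 ⁻¹' Y) (tcut C w) := Sub.of h3.amb b2 tw.sub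
  obtain ⟨C', hC, nd⟩ : ∃ C', IsCmp (tcut C w) C' ∧ ¬ DD C' (pb t3 ζ) := by
    by_contra n
    push Not at n
    exact h3.nd (((hD P Y C h.sub a).2 w hw).1 _
      (cocOn_pb (cocOn_mono h.coc (cl_mono h.pr.two.sub)) t3_mono)
      ((hD _ _ _ sb b3).1 _ (cocOn_mono h3.coc (cl_mono tw.sub)) n))
  refine ⟨C', ⟨h3.amb, h3.fm, h3.coc, h3.ex, pr_cmp b3 h3.amb.up tw qq hC, nd, fun j =>
    Set.disjoint_left.2 fun x i l => (b7 (om_cmp b2 hC l)).elim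
      (Set.disjoint_left.1 (h.dj j) i) fun e => Set.disjoint_left.1
        (b8 _ (h.fm.mem j).two.bd.low (hf j)).1 i (b6 ▸ e : x ∈ mvD _ _).1⟩, ?_⟩
  obtain ⟨d1, -, d3⟩ := c3 P C w a.toRg hw
  obtain ⟨C₀, C₁, k0, k1, k2, s0, s1⟩ := d1 h.pr.conn
  have cs : ∀ D, IsCmp (tcut C w) D → D = C₀ ∨ D = C₁ := fun D hD =>
    let ⟨x, hx⟩ := hD.ne
    (k2 ▸ hD.sub hx : x ∈ C₀ ∪ C₁).imp (fun j => (hD.eq hx).trans (k0.eq j).symm)
      fun j => (hD.eq hx).trans (k1.eq j).symm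
  by_cases e : C₀ = C₁
  · subst e
    rw [(cs C' hC).elim id id, show C₀ = tcut C w from (Set.union_self _).symm.trans k2]
    omega
  have sm := Sf30.sum_eu_cs (tcut C w)
  rw [show Sf30.cs (tcut C w) = {C₀, C₁} from Finset.ext fun D => by
    rw [Sf30.mem_cs, mem_insert, mem_singleton]
    exact ⟨cs D, fun j => j.elim (· ▸ k0) (· ▸ k1)⟩, sum_pair e] at sm
  have dj : Disjoint (Om C₀) (Om C₁) := Set.disjoint_left.2 fun x i ⟨_, y, j, l⟩ =>
    e ((k0.eq (cmp_cl b2 k0 i.2 (k1.sub j) l)).trans (k1.eq j).symm)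
  have co := conn_om hN a h.pr.conn
  have n0 : eu C₀ < 1 := not_le.1 fun j => hn (d3 _ C₀ 0 (Or.inl rfl) (bd_om a.up) co on_om k0 j s0
    (dj.symm.mono_left s1) fun x i => (b7 (om_cmp b2 k0 i)).imp id
      fun l => l.resolve_right fun l => Set.disjoint_left.1 dj i (s1 l))
  have n1 : eu C₁ < 1 := not_le.1 fun j => hn (d3 _ C₁ 1 (Or.inr rfl) (bd_om a.up) co on_om k1 j s1
    (dj.mono_left s0) fun x i => (b7 (om_cmp b2 k1 i)).imp id
      fun l => l.resolve_left fun l => Set.disjoint_left.1 dj (s0 l) i)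
  rcases cs C' hC with rfl | rfl <;> omega

theorem birthStmt (hN : NmStmt) (hI : IcStmt) (hT : TraDStmt) (m1 : Mv1Stmt) (m2 : Mv2Stmt)
    (c1 : Tc1Stmt) (c3 : Tc3Stmt) (hO : OutStmt) (hD : DdStmt) (hP : PushStmt) : BirthStmt := by
  intro P _ _ R _ car Y k U G V ζ hY hc hF hζ hn he
  have key : ∀ (n : ℕ) (P : Type) [PartialOrder P] [Fintype P] (car : P → R) (Y : Set P)
      (U G V : Fin k → Set P) (ζ : P → P → ℤ) (C : Set P), Sta car Y k U G V ζ C →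
      1 - eu C < n → Gl car Y k := by
    intro n
    induction n with
    | zero =>
      intro P _ _ car Y U G V ζ C h l
      have a := h.pr.amb
      have := Alg36.eu_le_one a.mf a.nice a.bnd2 h.pr.conn
      omega
    | succ n ih =>
      intro P _ _ car Y U G V ζ C h l
      by_cases hi : INC C (Om C)
      · exact h.fin hN hP hO hi
      simp only [INC, not_forall] at hi
      obtain ⟨t, f, ht, w, hw, -, i⟩ := hi
      obtain ⟨t', g, u, ht', a1, a2, a3⟩ := (h.pre ht).flat hN hI hT hw (ht.om C ▸ i) univ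
      obtain ⟨C', b1, b2⟩ := ((h.pre ht).pre ht').cut hN m1 m2 c1 c3 hD a1 (ht'.om _ ▸ a2)
        fun j => ht'.cl _ ▸ a3 j (mem_univ j)
      rw [ht'.eu, ht.eu] at b2
      exact ((Gl.up (Tw.three _) (ih _ _ _ _ _ _ _ _ b1
        ((sub_lt_sub_left b2 1).trans_le (by omega)))).up ht').up ht
  obtain ⟨C, hC, nd⟩ : ∃ C, IsCmp Y C ∧ ¬ DD C ζ := by
    by_contra n
    push Not at n
    exact hn ((hD P Y Y hY.sub hY).1 ζ hζ n)
  exact key ((1 - eu C).toNat + 1) P car Y U G V ζ C ⟨hY, hF, hζ, he,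
    pr_cmp hY hY.up (two_self hY.up hc) qq_self hC, nd, fun j => Set.disjoint_left.2 fun _ a b =>
      (om_cmp hY.toRg hC b).1 ((hF.mem j).sub a)⟩ (by omega)

end Crest.Agent.X212.Bi26
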