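import Crest.Agent.X212.Ind26.Drop
import Crest.Agent.X212.Iso33.Main
import Crest.Agent.X212.Cut21.Reg2
import Crest.Agent.X212.Sf30.P2All

/-!
# X212 / Ind26 (helper26): BASE and the hierarchy
-/

set_option autoImplicit false

namespace Crest.Agent.X212.Ind26

open Hp13 Cut21

/-- **BASE** -/
theorem baseStmt : BaseStmt par := fun _ h h0 =>
  base_of' Cut21.regStmt Iso33.isoStmt Iso33.trStmt h h0

/-- the hierarchy from P1 and P2 -/
theorem hH_of (h1 : P1Stmt (par' Pt30.HBo)) (h2 : P2Stmt (par' Pt30.HBo)) :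
    ∀ c, Stt c → ∃ t f, Desc c t f ∧ Hier t :=
  hier Alg36.sdStmt (ind_jStmt' _) (ind_stepStmt' _) h1 h2 (Pt30.base_cv baseStmt)

/-- the hierarchy from P1 and NEG₊ -/
theorem hH_np (h1 : P1Stmt (par' Pt30.HBo)) (h2 : Pt30.NegPStmt) :
    ∀ c, Stt c → ∃ t f, Desc c t f ∧ Hier t := hH_of h1 (Pt30.p2_np h2)

end Crest.Agent.X212.Ind26
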