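import Crest.Agent.X212.Ind26.Pot
import Crest.Agent.X212.Sf30.Le
import Crest.Agent.X212.Sf30.Tree
import Crest.Agent.X212.Hp13.Part

/-!
# X212 / Ind26 (helper26): a taut ball has one suture
-/

set_option autoImplicit false
set_option linter.unusedSectionVars false

open Finset Classical

noncomputable section

namespace Crest.Agent.X212.Ind26

open Hp13 Cut21
open Alg36 (Om Op Esc Fb Clo iMt)

section
variable {P : Type} [PartialOrder P] [Fintype P] {A C N : Set P}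

/-- the cells of a frontier -/
def Kp (A U : Set P) : Set (Ch P) := {c | Mt A c ∧ c.bot ∉ U ∧ c.top ∈ U}

/-- the cell of a chain -/
def kc {U : Set P} {c : Ch P} (hd : Dom A c) (h1 : c.bot ∉ U) (h2 : c.top ∈ U) :
    Lv A (cb (ind U)) := ⟨(c, 0), hd, le_rfl, by rw [cb_ind_one h1 h2]; exact one_pos⟩

instance (A U : Set P) : IsCoc A (cb (ind U)) := ⟨coc_cb _⟩

theorem mem_sd {s : St} (c : Ch s.P) : @Membership.mem s.sd.P _ _ s.sd.A c ↔ c.top ∈ s.A := Iff.rfl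

theorem lv_zero {U : Set P} (p : Lv A (cb (ind U))) : p.1.2 = 0 := by
  have := p.2.2
  have := cb_ind_le (U := U) p.1.1.bot p.1.1.top
  omega

theorem lv_pos {U : Set P} (p : Lv A (cb (ind U))) : p.1.1.bot ∉ U ∧ p.1.1.top ∈ U :=
  cb_ind_pos (p.2.2.1.trans_lt p.2.2.2)

theorem lv_le_pot {U : Set P} {p q : Lv A (cb (ind U))}
    (h : p.1.1 ≤ q.1.1) : p ≤ q := Lv.le_iff.2 ⟨h, by
  rw [lv_zero, lv_zero, cb_ind_zero (iff_of_false (lv_pos q).1 (lv_pos p).1)]; rfl⟩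

theorem conn_LA {U : Set P} (h : Conn (Kp A U)) :
    Conn (LA A (cb (ind U))) := fun p hp q hq => by
  refine rch_ind (h _ ⟨hp, lv_pos p⟩ _ ⟨hq, lv_pos q⟩)
    (p := fun c => ∀ q ∈ LA A (cb (ind U)), q.1.1 = c → Rch (LA A (cb (ind U))) p q)
    (fun q hq e => Rch.of_cm hp hq (Or.inl (lv_le_pot e.ge))) (fun c hc d _ k ih q hq e => ?_)
    q hq rfl
  subst e
  exact (ih (kc hc.1.dom hc.2.1 hc.2.2) hc.1 rfl).trans
    (Rch.of_cm hc.1 hq (k.imp (fun k => lv_le_pot k) fun k => lv_le_pot k))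

theorem pr_le {x y : P} {h : x ≤ y} {c : Ch P} (hx : x ∈ c.1) (hy : y ∈ c.1) : Ch.pr x y h ≤ c :=
  fun _ ht => by
    rcases mem_insert.1 ht with rfl | ht
    exacts [hx, mem_singleton.1 ht ▸ hy]

/-- the chains from `N ⊆ O₋` to `C` -/
def Lo (C N : Set P) : Set (Ch P) := {c | c.top ∈ C ∧ c.bot ∈ N}

theorem conn_Lo (hN : Nice C) (hA : C.OrdConnected) (h : N ⊆ Om C) (hc : Conn N) :
    Conn (Lo C N) := by
  have k1 : ∀ o ∈ N, ∀ a ∈ C, ∀ b ∈ C, ∀ (h1 : o ≤ a) (h2 : o ≤ b),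
      Rch (Lo C N) (Ch.pr o a h1) (Ch.pr o b h2) := fun o ho a ha b hb h1 h2 => by
    have l : ∀ b ∈ Fb C o o, o ≤ b := fun b hb => hb.2.1.resolve_left fun k =>
      Alg36.om_op hA (h ho) ⟨(h ho).1, b, hb.1, k⟩
    refine (nice_rch hN ha hb (Or.inr h1) (Or.inr h2)).ind
      (p := fun b => ∀ h2 : o ≤ b, Rch (Lo C N) (Ch.pr o a h1) (Ch.pr o b h2))
      (fun _ => Rch.rfl) (fun b hb d hd e => ?_) h2
    have m : ∀ t ∈ C, ∀ h : o ≤ t, Ch.pr o t h ∈ Lo C N := fun t ht _ =>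
      ⟨by simpa using ht, by simpa using ho⟩
    have m3 : tri o b d (l b hb) e ∈ Lo C N := ⟨by simpa using hd.1, by simpa using ho⟩
    have r : Rch (Lo C N) (Ch.pr o b (l b hb)) (Ch.pr o d (l d hd)) :=
      (Rch.of_cm (m b hb.1 _) m3 (Or.inl (pr_le (by simp) (by simp)))).trans
        (Rch.of_cm m3 (m d hd.1 _) (Or.inr (pr_le (by simp) (by simp))))
    exact ⟨fun H _ => (H _).trans r, fun H _ => (H _).trans r.symm⟩
  have k2 : ∀ c ∈ Lo C N, Rch (Lo C N) c (Ch.pr c.bot c.top c.bot_le_top) := fun c hc =>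
    Rch.of_cm hc ⟨by simpa using hc.1, by simpa using hc.2⟩ (Or.inr (pr_le c.bot_mem c.top_mem))
  intro c hc' d hd
  refine (k2 c hc').trans (Rch.trans ?_ (k2 d hd).symm)
  refine (hc _ hc'.2 _ hd.2).ind (p := fun o => o ∈ N → ∀ a ∈ C, ∀ h : o ≤ a,
    Rch (Lo C N) (Ch.pr c.bot c.top c.bot_le_top) (Ch.pr o a h))
    (fun ho a ha h => k1 _ ho _ hc'.1 a ha _ h) (fun o ho x hx e => ?_) hd.2 _ hd.1 _
  obtain ⟨-, b, hb, e'⟩ := h hx
  have m3 : tri o x b e e' ∈ Lo C N := ⟨by simpa using hb, by simpa using ho⟩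
  have r : Rch (Lo C N) (Ch.pr o b (e.trans e')) (Ch.pr x b e') :=
    (Rch.of_cm (show _ ∈ Lo C N from ⟨by simpa using hb, by simpa using ho⟩) m3
      (Or.inl (pr_le (by simp) (by simp)))).trans
      (Rch.of_cm m3 ⟨by simpa using hb, by simpa using hx⟩ (Or.inr (pr_le (by simp) (by simp))))
  exact ⟨fun H _ a ha _ => ((H ho b hb _).trans r).trans (k1 x hx b hb a ha _ _),
    fun H _ a ha _ => ((H hx b hb _).trans r.symm).trans (k1 o ho b hb a ha _ _)⟩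

/-- the sutures along a union of components of `O₋` have Euler characteristic zero -/
theorem sum_su (hM : Mf 3 C) (hA : C.OrdConnected) (h : Clo (Om C) N) :
    ∑ c ∈ univ.filter (fun c : Ch P => Mt C c ∧ c.bot ∈ N ∧ c.top ∉ C), c.sg = 0 := by
  set K : Set (Ch P) := {c | Mt C c ∧ c.bot ∈ N ∧ c.top ∉ C}
  have up : ∀ e ∈ K, ∀ c, e ≤ c → c ∈ K := fun e he c k => by
    obtain ⟨a, ha, ha'⟩ := he.1
    exact ⟨he.1.mono k, h.cl _ he.2.1 _ (om_dn hA (h.sub he.2.1) (Ch.bot_anti k))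
      (Or.inr (Ch.bot_anti k)), not_up hA ha' (Ch.le_top ha) he.2.2 (Ch.top_mono k)⟩
  have h1 := Alg36.Mf.dual_sum hM (ind K) fun e he => ind_of_not fun k => he k.1
  have h2 : ∀ c : Ch P, ∑ e ∈ univ.filter (· ≤ c), e.sg * ind K e = -ind K c := fun c => by
    by_cases hc : c ∈ K
    · have := Alg36.sum_faces_sut hA c
      rw [Alg36.iMt_of hc.1, Alg36.iMt_of ((Alg36.mt_om hA hc.1).2 (h.sub hc.2.1).1),
        Alg36.iMt_of ((Alg36.mt_op hA hc.1).2 hc.2.2)] at this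
      rw [ind_of_mem hc, ← (by norm_num : (1 : ℤ) * 1 * 1 = 1), ← this]
      refine sum_congr rfl fun e he => ?_
      have he := (mem_filter.1 he).2
      by_cases h0 : Mt C e
      swap
      · rw [ind_of_not fun k => h0 k.1, Alg36.iMt_not h0]; simp
      by_cases h1 : Mt (Om C) e
      swap
      · rw [ind_of_not fun k => h1 ((Alg36.mt_om hA h0).2 (h.sub k.2.1).1), Alg36.iMt_not h1]; simp
      by_cases h2 : Mt (Op C) e
      swap
      · rw [ind_of_not fun k => h2 ((Alg36.mt_op hA h0).2 k.2.2), Alg36.iMt_not h2]; simp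
      obtain ⟨a, ha, ha'⟩ := id h0
      rw [ind_of_mem (E := K) ⟨h0, h.cl _ hc.2.1 _ ⟨(Alg36.mt_om hA h0).1 h1, a, ha', Ch.bot_le ha⟩
        (Or.inl (Ch.bot_anti he)), (Alg36.mt_op hA h0).1 h2⟩, Alg36.iMt_of h0, Alg36.iMt_of h1,
        Alg36.iMt_of h2]
      simp
    · rw [ind_of_not hc, neg_zero]
      exact sum_eq_zero fun e he => by
        rw [ind_of_not fun k => hc (up e k c (mem_filter.1 he).2), mul_zero]
  simp only [h2, mul_neg, sum_neg_distrib] at h1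
  have h3 : ∑ c : Ch P, c.sg * ind K c = 0 := by
    norm_num at h1
    omega
  rw [← h3, sum_filter]
  refine sum_congr rfl fun c _ => ?_
  by_cases hc : c ∈ K
  · rw [ind_of_mem hc, mul_one]; exact if_pos hc
  · rw [ind_of_not hc, mul_zero]; exact if_neg hc

theorem ee_Lo (hM : Mf 3 C) (hA : C.OrdConnected) (h : Clo (Om C) N) :
    ee (Lo C N) = -∑ c ∈ univ.filter (fun c : Ch P => Mt C c ∧ c.bot ∈ N), c.sg := by
  rw [ee_ch, ← sum_filter_add_sum_filter_not (univ.filter fun c : Ch P => Mt C c ∧ c.bot ∈ N)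
    (fun c => c.top ∈ C), filter_filter, filter_filter]
  have := sum_su hM hA h
  simp only [← and_assoc] at this
  rw [this, add_zero]
  exact congrArg _ (sum_congr (filter_congr fun c _ => ⟨fun k => ⟨⟨⟨_, c.top_mem, k.1⟩, k.2⟩, k.1⟩,
    fun k => ⟨k.2, k.1.2⟩⟩) fun _ _ => rfl)

/-- some component of `R₋` has positive Euler characteristic -/
theorem exists_pos (hA : C.OrdConnected) (h : 0 < chi C (Rm C)) : ∃ N, IsCmp (Om C) N ∧
    0 < ∑ c ∈ univ.filter (fun c : Ch P => Mt C c ∧ c.bot ∈ N), c.sg := by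
  by_contra hn
  push Not at hn
  have e1 : chi C (Rm C) = ∑ c ∈ univ.filter (fun c : Ch P => Mt C c ∧ c.bot ∈ Om C), c.sg := by
    rw [chi, ← filter_filter, sum_filter (fun c : Ch P => c.bot ∈ Om C)]
    refine sum_congr rfl fun c hc => ?_
    have hc := (mem_filter.1 hc).2
    rw [Alg36.Rm_bt hA hc]
    split_ifs with h1
    · rw [Alg36.iMt_of ⟨_, c.bot_mem, h1⟩, mul_one]
    · obtain ⟨a, ha, ha'⟩ := id hc
      rw [Alg36.iMt_not fun k => h1 ⟨(Alg36.mt_om hA hc).1 k, a, ha', Ch.bot_le ha⟩, mul_zero]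
  rw [e1, ← sum_fiberwise_of_maps_to (t := Sf30.cs (Om C)) (g := fun c => cmp (Om C) c.bot)
    fun c hc => Sf30.mem_cs.2 (isCmp_cmp (mem_filter.1 hc).2.2)] at h
  refine h.not_ge (sum_nonpos fun N hN => le_of_eq_of_le ?_ (hn N (Sf30.mem_cs.1 hN)))
  have hN := Sf30.mem_cs.1 hN
  rw [filter_filter]
  exact sum_congr (filter_congr fun c _ => ⟨fun k => ⟨k.1.1, k.2 ▸ mem_cmp_self k.1.2⟩,
    fun k => ⟨⟨k.1, hN.sub k.2⟩, (hN.eq k.2).symm⟩⟩) fun _ _ => rfl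

theorem om_sub (hC : Clo A C) : Om C ⊆ Om A := fun _ ⟨h1, a, ha, k⟩ =>
  ⟨fun j => h1 (hC.cl a ha _ j (Or.inr k)), a, hC.sub ha, k⟩

theorem op_sub (hC : Clo A C) : Op C ⊆ Op A := fun _ ⟨h1, a, ha, k⟩ =>
  ⟨fun j => h1 (hC.cl a ha _ j (Or.inl k)), a, hC.sub ha, k⟩

theorem clo_om (hC : Clo A C) (hN : Nice A) : Clo (Om A) (Om C) :=
  ⟨om_sub hC, fun _ ⟨_, a, ha, k⟩ _ ⟨h1, b, hb, j⟩ e => ⟨fun i => h1 (hC.sub i), e.elim
    (fun e => ⟨b, hC.mem_of_dp hN (dp_hi ha le_rfl k) hb (Or.inr (e.trans j)) (Or.inr (e.trans j)), j⟩)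
    fun e => ⟨a, ha, e.trans k⟩⟩⟩

theorem clo_op (hC : Clo A C) (hN : Nice A) : Clo (Op A) (Op C) :=
  ⟨op_sub hC, fun _ ⟨_, a, ha, k⟩ _ ⟨h1, b, hb, j⟩ e => ⟨fun i => h1 (hC.sub i), e.elim
    (fun e => ⟨a, ha, k.trans e⟩) fun e =>
    ⟨b, hC.mem_of_dp hN (dp_lo ha k le_rfl) hb (Or.inl (j.trans e)) (Or.inl (j.trans e)), j⟩⟩⟩

/-- the sutures -/
def Sg (C : Set P) : Set (Ch P) := {c | Mt C c ∧ c.bot ∉ C ∧ c.top ∉ C}

theorem conn_Sg (hM : Mf 3 C) (hA : C.OrdConnected) (hc : Conn (LA C (Rm C)))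
    (h1 : chi C (Rm C) = 1) : Conn (Sg C) := by
  have h2 := Sf30.conn_mix2 (Sf30.mf_LA hM mono_Rm) hc (by
    rw [← Sf30.chiC_eq_eu hM mono_Rm subset_rfl Sf30.la_upper, ← chi_eq_chiC mono_Rm, h1])
  have m : ∀ κ ∈ Alg36.mix (LA C (Rm C)), κ.top.1.1 ∈ Sg C := fun κ ⟨⟨p, hp, hp'⟩, q, hq, hq'⟩ => by
    have a1 : Mt C κ.top.1.1 := Mt.mono hp' (Lv.ch_le (Ch.le_top hp))
    have a2 := Lv.ch_le (Ch.le_top hq)
    obtain ⟨b, hb, k⟩ := (lv_pos (U := {x | ∃ a ∈ C, a ≤ x}) q).2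
    exact ⟨a1, fun j => (lv_pos (U := {x | ∃ a ∈ C, a ≤ x}) κ.top).1 ⟨_, j, le_rfl⟩,
      not_up hA hb k (fun j => hq' ⟨_, q.1.1.top_mem, j⟩) (Ch.top_mono a2)⟩
  have s : ∀ c ∈ Sg C, ∃ κ ∈ Alg36.mix (LA C (Rm C)), κ.top.1.1 = c := fun c hc => by
    obtain ⟨a, ha, ha'⟩ := id hc.1
    have b1 : c.bot ∉ {x | ∃ a ∈ C, a ≤ x} := fun ⟨b, hb, k⟩ =>
      hc.2.1 (hA.out hb ha' ⟨k, Ch.bot_le ha⟩)
    have b2 : c.top ∈ {x | ∃ a ∈ C, a ≤ x} := ⟨a, ha', Ch.le_top ha⟩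
    have l : Ch.pr c.bot c.top c.bot_le_top ≤ c := pr_le c.bot_mem c.top_mem
    let p : Lv C (Rm C) := kc hc.1.dom b1 b2
    let q : Lv C (Rm C) := kc (hc.1.dom.mono l) (by simpa using b1) (by simpa using b2)
    have l' : q ≤ p := lv_le_pot (U := {x | ∃ a ∈ C, a ≤ x}) l
    refine ⟨Ch.pr q p l', ⟨⟨p, by simp, hc.1⟩, q, by simp, fun ⟨t, ht, k⟩ => ?_⟩, by
      rw [Ch.top_pr]; rfl⟩
    rcases mem_insert.1 ht with rfl | ht
    exacts [hc.2.1 k, hc.2.2 (mem_singleton.1 ht ▸ k)]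
  intro c hc d hd
  obtain ⟨κ, h3, rfl⟩ := s c hc
  obtain ⟨κ', h4, rfl⟩ := s d hd
  exact (h2 κ h3 κ' h4).map (f := fun κ => κ.top.1.1) fun x hx y hy e =>
    Rch.of_cm (m x hx) (m y hy) (Or.inl (Lv.ch_le (Ch.top_mono e)))

theorem conn_Kp (hN : Nice C) (hA : C.OrdConnected) (hc : Conn (Sg C))
    (h : ∀ o ∈ Op C, ∃ x a y, Rch (Op C) o y ∧ Su C x a y) : Conn (Kp C (Op C)) := by
  have m : ∀ c : Ch P, Mt C c → c.top ∉ C → c ∈ Kp C (Op C) := fun c ⟨a, ha, ha'⟩ k =>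
    ⟨⟨a, ha, ha'⟩, fun j => j.1 (let ⟨_, hb, i⟩ := j.2; hA.out hb ha' ⟨i, Ch.bot_le ha⟩),
      k, a, ha', Ch.le_top ha⟩
  have m2 : ∀ a ∈ C, ∀ o, o ∉ C → ∀ h : a ≤ o, Ch.pr a o h ∈ Kp C (Op C) := fun a ha o ho _ =>
    m _ ⟨a, by simp, ha⟩ (by simpa using ho)
  have k1 : ∀ o ∈ Op C, ∀ a ∈ C, ∀ b ∈ C, ∀ (h1 : a ≤ o) (h2 : b ≤ o),
      Rch (Kp C (Op C)) (Ch.pr a o h1) (Ch.pr b o h2) := fun o ho a ha b hb h1 h2 => by
    have l : ∀ b ∈ Fb C o o, b ≤ o := fun b hb => hb.2.1.resolve_right fun k =>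
      Alg36.om_op hA ⟨ho.1, b, hb.1, k⟩ ho
    refine (nice_rch hN ha hb (Or.inl h1) (Or.inl h2)).ind
      (p := fun b => ∀ h2 : b ≤ o, Rch (Kp C (Op C)) (Ch.pr a o h1) (Ch.pr b o h2))
      (fun _ => Rch.rfl) (fun b hb d hd e => ?_) h2
    have m3 := m (tri b d o e (l d hd)) ⟨b, by simp, hb.1⟩ (by simpa using ho.1)
    have r : Rch (Kp C (Op C)) (Ch.pr b o (l b hb)) (Ch.pr d o (l d hd)) :=
      (Rch.of_cm (m2 b hb.1 o ho.1 _) m3 (Or.inl (pr_le (by simp) (by simp)))).trans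
        (Rch.of_cm m3 (m2 d hd.1 o ho.1 _) (Or.inr (pr_le (by simp) (by simp))))
    exact ⟨fun H _ => (H _).trans r, fun H _ => (H _).trans r.symm⟩
  have k : ∀ c ∈ Kp C (Op C), ∃ d ∈ Sg C, Rch (Kp C (Op C)) c d := fun c hc => by
    obtain ⟨a, ha, ha'⟩ := id hc.1
    obtain ⟨x, b, y, h1, h2, h3, h4, h5, h6⟩ := h _ hc.2.2
    refine ⟨tri x b y h5 h6, ⟨⟨b, by simp, h3⟩, by simpa using h2, by simpa using h4⟩, ?_⟩
    refine Rch.trans ?_ (Rch.of_cm (m2 b h3 y h4 h6) (m _ ⟨b, by simp, h3⟩ (by simpa using h4))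
      (Or.inl (pr_le (by simp) (by simp))))
    refine h1.ind (p := fun o => o ∈ Op C → ∀ b ∈ C, ∀ h : b ≤ o,
      Rch (Kp C (Op C)) c (Ch.pr b o h)) (fun ho b hb _ => (Rch.of_cm hc (m2 a ha' _ ho.1
      (Ch.le_top ha)) (Or.inr (pr_le ha c.top_mem))).trans (k1 _ ho a ha' b hb _ _))
      (fun o ho t ht e => ?_) (h1.mem hc.2.2) b h3 h6
    obtain ⟨-, d, hd, e'⟩ := id ho
    have m3 := m (tri d o t e' e) ⟨d, by simp, hd⟩ (by simpa using ht.1)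
    have r : Rch (Kp C (Op C)) (Ch.pr d o e') (Ch.pr d t (e'.trans e)) :=
      (Rch.of_cm (m2 d hd o ho.1 _) m3 (Or.inl (pr_le (by simp) (by simp)))).trans
        (Rch.of_cm m3 (m2 d hd t ht.1 _) (Or.inr (pr_le (by simp) (by simp))))
    exact ⟨fun H _ b hb _ => ((H ho d hd _).trans r).trans (k1 t ht d hd b hb _ _),
      fun H _ b hb _ => ((H ht d hd _).trans r.symm).trans (k1 o ho d hd b hb _ _)⟩
  intro c hc' d hd
  obtain ⟨c', h1, h2⟩ := k c hc'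
  obtain ⟨d', h3, h4⟩ := k d hd
  exact (h2.trans ((hc c' h1 d' h3).mono fun e he => m e he.1 he.2.2)).trans h4.symm

end

/-- in a taut ball `O₋` is connected -/
theorem conn_om {s : St} (h : Wk s) (hq : Pot s.sd) {C : Set s.P} (hC : IsCmp s.A C)
    (h1 : 0 < chi C (Rm C)) : Conn (Om C) := by
  have hc := Alg36.IsCmp.clo hC
  have hA := hc.ordConnected h.conv
  obtain ⟨N, hN, hp⟩ := exists_pos hA h1
  have hN' := Alg36.IsCmp.clo hN
  suffices N = Om C from this ▸ hN.conn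
  by_contra hne
  obtain ⟨o, ho, ho'⟩ : ∃ o ∈ Om C, o ∉ N := by
    by_contra k
    push Not at k
    exact hne (Set.Subset.antisymm hN.sub k)
  have := hq (Lo C N) (fun c k => hc.sub k.1)
    (fun c k d hd e => ⟨hc.cl _ k.1 _ hd (Or.inl (Ch.top_mono e)), hN'.cl _ k.2 _
      (om_dn hA (hN.sub k.2) (Ch.bot_anti e)) (Or.inr (Ch.bot_anti e))⟩) (fun c k => ?_)
    fun c k => ?_
  · erw [ee_Lo (h.mf.mono hc.sub) hA hN'] at this
    omega
  · obtain ⟨x, a, y, r, h2, h3, h4, h5, h6⟩ := om_su h.conv h.sfm.nc (om_sub hc (hN.sub k.2))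
    have hx : x ∈ N := hN'.rch k.2 ((clo_om hc h.nice).rch_in (hN.sub k.2) r)
    obtain ⟨-, b, hb, e⟩ := hN.sub hx
    have ha : a ∈ C := hc.mem_of_dp h.nice (dp_hi hb le_rfl e) h3 (Or.inr h5) (Or.inr h5)
    refine ⟨Ch.pr x a h5, conn_Lo (hc.nice h.nice) hA hN.sub hN.conn c k _
      ⟨by simpa using ha, by simpa using hx⟩, tri x a y h5 h6, fun j => h4 ?_,
      pr_le (by simp) (by simp)⟩
    simpa using (mem_sd _).1 j
  · by_cases hb : Ch.bot c ∈ s.A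
    swap
    · exact ⟨c, Rch.rfl, Ch.pt (Ch.bot c), fun j => hb (by simpa using (mem_sd _).1 j),
        Ch.pt_le.2 (Ch.bot_mem c)⟩
    have m : ∀ d : Ch s.P, d.top ∈ s.A → d.bot ∈ s.A → d ∈ s.sd.A \ Lo C N := fun d h1 h2 =>
      ⟨h1, fun j => (om_sub hc (hN.sub j.2)).1 h2⟩
    have m1 : ∀ a ∈ s.A, Ch.pt a ∈ s.sd.A \ Lo C N := fun a ha =>
      m _ (by simpa using ha) (by simpa using ha)
    obtain ⟨a, x, r, hx, e, hl⟩ : ∃ a x, Rch s.A (Ch.top c) a ∧ x ∉ s.A ∧ x ≤ a ∧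
        ¬ (a ∈ C ∧ x ∈ N) := by
      by_cases ht : Ch.top c ∈ C
      · obtain ⟨-, a, ha, e⟩ := id ho
        exact ⟨a, o, (hC.conn _ ht a ha).mono hC.sub, (om_sub hc ho).1, e, fun j => ho' j.2⟩
      · obtain ⟨x, a, y, r, h2, -, -, h5, -⟩ := h.su (a := Ch.top c) k.1
        exact ⟨a, x, r, h2, h5, fun j => ht (hc.rch j.1 r.symm)⟩
    have ha := r.mem k.1
    have r' : Rch (s.sd.A \ Lo C N) (Ch.pt (Ch.top c)) (Ch.pt a) :=
      r.map (f := Ch.pt) fun u hu v hv e =>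
        have m3 := m (Ch.pr u v e) (by simpa using hv) (by simpa using hu)
        (Rch.of_cm (m1 u hu) m3 (Or.inl (Ch.pt_le.2 (by simp)))).trans
          (Rch.of_cm m3 (m1 v hv) (Or.inr (Ch.pt_le.2 (by simp))))
    refine ⟨Ch.pr x a e, ((Rch.of_cm k (m1 _ k.1) (Or.inr (Ch.pt_le.2 (Ch.top_mem c)))).trans
      r').trans (Rch.of_cm (m1 a ha) ⟨show (Ch.pr x a e).top ∈ s.A by simpa using ha,
      fun j => hl ⟨by simpa using j.1, by simpa using j.2⟩⟩ (Or.inl (Ch.pt_le.2 (by simp)))), Ch.pt x,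
      fun j => hx (by simpa using (mem_sd _).1 j), Ch.pt_le.2 (by simp)⟩

/-- **a taut ball has one suture** -/
theorem Wk.box {s : St} (h : Wk s) (hb : ee s.A = 0) (hp : Pot s) (hq : Pot s.sd) {C : Set s.P}
    (hC : IsCmp s.A C) (h1 : 0 < eu C) : Box C := by
  have hc := Alg36.IsCmp.clo hC
  have hG := hc.good h.toGood
  have hA : C.OrdConnected := hG.conv
  have hM : Mf 3 C := hG.mf
  have e0 := h.ee_clo hb hp hc
  have e1 : eu C ≤ 1 := Alg36.eu_le_one hM hG.nice hG.bnd2 hC.conn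
  have em : chi C (Rm C) = 1 := by rw [Alg36.Mf.chi_Rm_eq hM hA]; omega
  have ep : chi C (Rp C) = 1 := by rw [Alg36.Mf.chi_Rp_eq hM hA]; omega
  have hN : Nice C := hG.nice
  have k := conn_Lo hN hA subset_rfl (conn_om h hq hC (by omega))
  have cm : Conn (LA C (Rm C)) := by
    refine conn_LA (U := {x | ∃ a ∈ C, a ≤ x}) fun c hc d hd => ?_
    have sub : Lo C (Om C) ⊆ Kp C {x | ∃ a ∈ C, a ≤ x} := fun e he =>
      ⟨⟨_, e.top_mem, he.1⟩, fun ⟨_, hb, j⟩ => he.2.1 (hA.out hb he.1 ⟨j, e.bot_le_top⟩),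
        _, he.1, le_rfl⟩
    have tt : ∀ c ∈ Kp C {x | ∃ a ∈ C, a ≤ x}, ∃ e ∈ Lo C (Om C),
        Rch (Kp C {x | ∃ a ∈ C, a ≤ x}) c e := fun c hc => by
      obtain ⟨a, ha, ha'⟩ := id hc.1
      have m : Ch.pr c.bot a (Ch.bot_le ha) ∈ Lo C (Om C) := ⟨by simpa using ha', by
        simpa using ⟨fun j => hc.2.1 ⟨_, j, le_rfl⟩, a, ha', Ch.bot_le ha⟩⟩
      exact ⟨_, m, Rch.of_cm hc (sub m) (Or.inr (pr_le c.bot_mem ha))⟩
    obtain ⟨e, h1, h2⟩ := tt c hc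
    obtain ⟨e', h3, h4⟩ := tt d hd
    exact (h2.trans ((k e h1 e' h3).mono sub)).trans h4.symm
  refine ⟨cm, conn_LA (U := Op C) (conn_Kp hN hA (conn_Sg hM hA cm em) fun o ho => ?_), em, ep⟩
  obtain ⟨x, a, y, r, h2, h3, h4, h5, h6⟩ := op_su h.conv h.sfp.nc (op_sub hc ho)
  have r' := (clo_op hc h.nice).rch_in ho r
  obtain ⟨-, b, hb, e⟩ := r'.mem ho
  exact ⟨x, a, y, r', fun j => h2 (hc.sub j), hc.mem_of_dp h.nice (dp_lo hb e le_rfl) h3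
    (Or.inl h6) (Or.inl h6), fun j => h4 (hc.sub j), h5, h6⟩

theorem Wk.end_of {s : St} (h : Wk s) (hb : ee s.A = 0) (hp : Pot s) (hq : Pot s.sd)
    (h1 : ∀ C, IsCmp s.A C → 0 < eu C) : End s :=
  ⟨h, fun C hC => h.box hb hp hq hC (h1 C hC)⟩

theorem Inv.end_of {s : St} (h : Inv s) (h1 : ∀ C, IsCmp s.A C → 0 < eu C) : End s :=
  h.wk.end_of h.bal (pot_of_taut h.toTaut)
    (pot_of_taut (Alg36.Taut.desc h.toTaut (Desc.sd s))) h1

end Crest.Agent.X212.Ind26
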