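import Crest.Agent.X212.Ind26.Hb

/-!
# X212 / Ind26 (helper26): competitors with bad regions; a planar inequality
-/

set_option autoImplicit false
set_option linter.unusedSectionVars false

open Finset Classical

noncomputable section

namespace Crest.Agent.X212.Ind26

open Hp13 Cut21
open Alg36 (Om Op Esc Fb Clo)

section
variable {P : Type} [PartialOrder P] [Fintype P] {A : Set P} {z : P → P → ℤ}

theorem cnt_ne {T : Set (Lv A z)} {x y : P} (h : x ≤ y) (k : cnt T x y ≠ 0) :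
    ∃ q ∈ T, q.1.1 = Ch.pr x y h := by
  have := cnt_nonneg (T := T) x y
  rw [cnt, dif_pos h] at k this
  obtain ⟨_, -, -, ⟨q, h1, h2, -⟩, -⟩ := exists_nlev (T := T) (Ch.pr x y h) le_rfl
    (lt_of_le_of_ne this k.symm)
  exact ⟨q, h1, h2⟩

theorem cnt_pos [IsCoc A z] {T : Set (Lv A z)} (h : Sat T) (hm : Mono A z) {q : Lv A z}
    (hq : q ∈ T) : 0 < cnt T q.1.1.bot q.1.1.top := by
  rw [h.cnt_bt hm q.2.1]
  exact (nlev_nonneg _ _ _).trans_lt (nlev_lt _ q.2.2.1 q.2.2.2 (lev_self.2 hq))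

/-- joined on one side of `V` -/
def Sd (A V : Set P) : P → P → Prop :=
  Relation.ReflTransGen fun x y => x ∈ A ∧ y ∈ A ∧ Cm x y ∧ (x ∈ V ↔ y ∈ V)

theorem Sd.symm {V : Set P} {x y : P} (h : Sd A V x y) : Sd A V y x := by
  induction h with
  | refl => exact .refl
  | tail _ k ih => exact .head ⟨k.2.1, k.1, k.2.2.1.symm, k.2.2.2.symm⟩ ih

theorem sd_in {V : Set P} (hV : V ⊆ A) {x y : P} (h : Rch V x y) : Sd A V x y := by
  induction h with
  | refl => exact .refl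
  | tail _ k ih => exact ih.tail ⟨hV k.1, hV k.2.1, k.2.2, iff_of_true k.1 k.2.1⟩

theorem sd_out {V : Set P} {x y : P} (h : Rch (A \ V) x y) : Sd A V x y := by
  induction h with
  | refl => exact .refl
  | tail _ k ih => exact ih.tail ⟨k.1.1, k.2.1.1, k.2.2, iff_of_false k.1.2 k.2.1.2⟩

theorem Sd.eq {V : Set P} {g : P → ℤ}
    (hg : ∀ x ∈ A, ∀ y ∈ A, x ≤ y → (x ∈ V ↔ y ∈ V) → g x = g y) {x y : P} (h : Sd A V x y) :
    g x = g y := by
  induction h with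
  | refl => rfl
  | tail _ k ih =>
    exact ih.trans (k.2.2.1.elim (fun l => hg _ k.1 _ k.2.1 l k.2.2.2)
      fun l => (hg _ k.2.1 _ k.1 l k.2.2.2.symm).symm)

end

/-- **competitors with bad regions**: every region that does not reach the boundary costs one -/
theorem brg {s : St} (h : Inv s) {V : Set s.P} (hV : V ⊆ s.A)
    (up : ∀ x ∈ V, ∀ y ∈ s.A, x ≤ y → y ∈ V) {ι : Type} (J : Finset ι) (T : ι → Set s.P)
    (hT : ∀ i ∈ J, ∀ a ∈ T i, a ∈ s.A ∧ ∀ b ∈ T i, Sd s.A V a b)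
    (R1 : ∀ a ∈ V, ∃ b, Rch V a b ∧ ((∃ o, o ∉ s.A ∧ b ≤ o) ∨ ∃ i ∈ J, b ∈ T i))
    (R0 : ∀ a ∈ s.A \ V, ∃ b, Rch (s.A \ V) a b ∧ ((∃ o, o ∉ s.A ∧ o ≤ b) ∨ ∃ i ∈ J, b ∈ T i)) :
    0 ≤ ee V + J.card := by
  set U := Op s.A ∪ V with hU0
  have e3 : cb (ind U) = Rp s.A + cb (ind V) := by
    rw [Rp_eq, ← cb_add]
    congr 1
    funext x
    by_cases h1 : x ∈ V
    · have : x ∉ Op s.A := fun k => k.1 (hV h1)
      simp [ind, h1, this, U]
    · simp [ind, h1, U]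
  have hU : ∀ x y, Dp s.A x y → x ∈ U → y ∈ U := fun x y hp k => by
    rcases k with k | k
    · exact Or.inl (op_up h.conv k hp.1)
    · by_cases hy : y ∈ s.A
      exacts [Or.inr (up x k y hy hp.1), Or.inl ⟨hy, x, hV k, hp.1⟩]
  have uv : ∀ x ∈ s.A, x ∈ U ↔ x ∈ V := fun x hx =>
    ⟨fun k => k.resolve_left fun j => j.1 hx, Or.inr⟩
  have hm : Mono s.A (cb (ind U)) := mono_ind hU
  have : IsCoc s.A (cb (ind U)) := ⟨coc_cb _⟩
  obtain ⟨d1, d2, d3, -⟩ := drop h.bnd hm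
  have k1 := h.maxp s id Desc.refl _ d1
    ((e3 ▸ eqv_add_cb fun x hx => ind_of_not fun k => hx (hV k) :
      Eqv s.A (Rp s.A) (cb (ind U))).trans d2)
  have k2 : chi s.A (cb (ind U)) = chi s.A (Rp s.A) - 2 * ee V := by
    rw [e3, chi_add, chi_cb_ind h.mf hV]; ring
  set S := (univ.filter (· ∈ Cls s.A (cb (ind U)))).image (Hp13.cmp (LA s.A (cb (ind U))))
  have hS : ∀ C ∈ S, IsCmp (LA s.A (cb (ind U))) C ∧ ¬ Tch s.A _ C := fun C hC => by
    obtain ⟨p, hp, rfl⟩ := mem_image.1 hC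
    exact ⟨isCmp_cmp (mem_filter.1 hp).2.1, (mem_filter.1 hp).2.2⟩
  have k3 : chiC (Cls s.A (cb (ind U))) ≤ 2 * S.card := by
    rw [chiC_eq_sum (T := LA s.A (cb (ind U))) (fun _ k => k.1)
      fun p hp q hq k => Cls.clopen hp (Rch.of_cm hp.1 hq k)]
    refine (sum_le_card_nsmul _ _ 2 fun C hC => cmp_le_two h.mf hm (hS C hC).1).trans ?_
    rw [nsmul_eq_mul, mul_comm]
  suffices S.card ≤ J.card by omega
  have fl : ∀ {C : Set (Lv s.A (cb (ind U)))} {g : s.P → ℤ}, EqD s.A (cnt C) (cb g) → ∀ x y,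
      Dp s.A x y → (x ∈ U ↔ y ∈ U) → g x = g y := fun {C g} hg x y hp e => by
    have a1 := cnt_le (T := C) hm hp
    have a2 := cnt_nonneg (T := C) x y
    rw [cb_ind_zero e] at a1
    have a3 : cnt C x y = g y - g x := hg x y hp
    omega
  have fs : ∀ {C : Set (Lv s.A (cb (ind U)))} {g : s.P → ℤ}, EqD s.A (cnt C) (cb g) → ∀ {x y},
      Sd s.A V x y → g x = g y := fun hg _ _ r => r.eq fun x hx y hy l e =>
    fl hg x y (Dp.of_left hx l) ((uv x hx).trans (e.trans (uv y hy).symm))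
  refine card_le_card_of_forall_subsingleton (fun C i => ∃ g : s.P → ℤ, (∀ x, x ∉ s.A → g x = 0) ∧
    EqD s.A (cnt C) (cb g) ∧ ∃ b ∈ T i, g b ≠ 0 ∧ ∀ q ∈ C, Sd s.A V b q.1.1.bot ∨
      Sd s.A V b q.1.1.top) (fun C hC => ?_) fun i hi C₁ h1 C₂ h2 => ?_
  · obtain ⟨c1, c2⟩ := hS C hC
    have sat := sat_closed c1.sub (fun p hp q hq k => c1.clopen hp hq k) c2
    obtain ⟨g, g0, hg⟩ := h.bnd _ (sat.coc hm) (cl0_cnt c1.sub)
    rw [zero_add] at hg
    obtain ⟨p, hp⟩ := c1.ne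
    have p1 : 0 < g p.1.1.top - g p.1.1.bot := (cnt_pos sat hm hp).trans_eq (hg _ _ p.2.1.bt)
    have inA : ∀ x, g x ≠ 0 → x ∈ s.A := fun x k => by_contra fun j => k (g0 x j)
    by_cases hb : g p.1.1.bot = 0
    · have e : ∀ q ∈ C, ∀ r ∈ C, q ≤ r → g q.1.1.top = g r.1.1.top := fun q _ r _ l =>
        fl hg _ _ (r.2.1.dp (Lv.ch_le l q.1.1.top_mem) r.1.1.top_mem (Ch.top_mono (Lv.ch_le l)))
          (iff_of_true (lv_pos q).2 (lv_pos r).2)
      have m : ∀ q ∈ C, q.1.1.top ∈ V := fun q hq => (uv _ (inA _ (by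
        rw [← (c1.conn p hp q hq).eq (g := fun q => g q.1.1.top) e]; omega))).1 (lv_pos q).2
      obtain ⟨b, r, k⟩ := R1 _ (m p hp)
      have gb : g b ≠ 0 := by rw [← fs hg (sd_in hV r)]; omega
      rcases k with ⟨o, o1, o2⟩ | ⟨i, hi, k⟩
      · have hb := r.mem (m p hp)
        exact absurd ((fl hg b o (Dp.of_left (hV hb) o2) (iff_of_true (Or.inr hb)
          (Or.inl ⟨o1, b, hV hb, o2⟩))).trans (g0 o o1)) gb
      · exact ⟨i, hi, g, g0, hg, b, k, gb, fun q hq => Or.inr (sd_in hV (r.symm.trans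
          ((c1.conn p hp q hq).map (f := fun q => q.1.1.top) fun q hq r hr l =>
            Rch.of_cm (m q hq) (m r hr) (Or.inl (Ch.top_mono (Lv.ch_le l))))))⟩
    · have e : ∀ q ∈ C, ∀ r ∈ C, q ≤ r → g q.1.1.bot = g r.1.1.bot := fun q _ r _ l =>
        (fl hg _ _ (r.2.1.dp r.1.1.bot_mem (Lv.ch_le l q.1.1.bot_mem) (Ch.bot_anti (Lv.ch_le l)))
          (iff_of_false (lv_pos r).1 (lv_pos q).1)).symm
      have m : ∀ q ∈ C, q.1.1.bot ∈ s.A \ V := fun q hq => ⟨inA _ (by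
        rw [← (c1.conn p hp q hq).eq (g := fun q => g q.1.1.bot) e]; exact hb),
        fun k => (lv_pos q).1 (Or.inr k)⟩
      obtain ⟨b, r, k⟩ := R0 _ (m p hp)
      have gb : g b ≠ 0 := by rw [← fs hg (sd_out r)]; exact hb
      rcases k with ⟨o, o1, o2⟩ | ⟨i, hi, k⟩
      · have hb := r.mem (m p hp)
        exact absurd ((fl hg o b (Dp.of_right hb.1 o2) (iff_of_false
          (fun k => k.elim (Alg36.om_op h.conv ⟨o1, b, hb.1, o2⟩) fun k => o1 (hV k))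
          fun k => hb.2 ((uv b hb.1).1 k))).symm.trans (g0 o o1)) gb
      · exact ⟨i, hi, g, g0, hg, b, k, gb, fun q hq => Or.inl (sd_out (r.symm.trans
          ((c1.conn p hp q hq).map (f := fun q => q.1.1.bot) fun q hq r hr l =>
            Rch.of_cm (m q hq) (m r hr) (Or.inr (Ch.bot_anti (Lv.ch_le l))))))⟩
  · obtain ⟨s1, g₁, a0, a1, b₁, a2, a3, a4⟩ := h1
    obtain ⟨s2, g₂, c0, c1, b₂, c2, c3, c4⟩ := h2
    by_contra hne
    have bb := (hT i hi b₁ a2).2 b₂ c2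
    have key : ∀ {C₁ C₂ : Set (Lv s.A (cb (ind U)))} {g₂ : s.P → ℤ} {b b' : s.P} {x y : s.P},
        C₁ ∈ S → C₂ ∈ S → C₁ ≠ C₂ → EqD s.A (cnt C₂) (cb g₂) → Sd s.A V b b' →
        (∀ q ∈ C₁, Sd s.A V b q.1.1.bot ∨ Sd s.A V b q.1.1.top) → Dp s.A x y →
        cnt C₁ x y ≠ 0 → g₂ x = g₂ b' ∧ g₂ y = g₂ b' := by
      intro C₁ C₂ g₂ b b' x y s1 s2 hne c1 bb a4 hp hn
      obtain ⟨q, q1, q2⟩ := cnt_ne hp.1 hn
      have e : g₂ y - g₂ x = 0 := by
        refine (c1 x y hp).symm.trans (by_contra fun k => hne ?_)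
        obtain ⟨r, r1, r2⟩ := cnt_ne hp.1 k
        obtain rfl : q = r := Lv.ext (q2.trans r2.symm) ((lv_zero q).trans (lv_zero r).symm)
        rw [(hS _ s1).1.eq q1, (hS _ s2).1.eq r1]
      have := fs c1 bb
      rcases a4 q q1 with k | k <;> have := fs c1 k <;> rw [q2] at this <;>
        simp only [Ch.bot_pr, Ch.top_pr] at this <;> omega
    have st : ∀ x y, Dp s.A x y → ((g₁ x = g₁ b₁ ∨ g₂ x = g₂ b₂) ↔
        (g₁ y = g₁ b₁ ∨ g₂ y = g₂ b₂)) := fun x y hp => by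
      by_cases n1 : cnt C₁ x y = 0
      · by_cases n2 : cnt C₂ x y = 0
        · have e1 : cnt C₁ x y = g₁ y - g₁ x := a1 x y hp
          have e2 : cnt C₂ x y = g₂ y - g₂ x := c1 x y hp
          omega
        · have := key s2 s1 (Ne.symm hne) a1 bb.symm c4 hp n2
          exact iff_of_true (Or.inl this.1) (Or.inl this.2)
      · have := key s1 s2 hne c1 bb a4 hp n1
        exact iff_of_true (Or.inr this.1) (Or.inr this.2)
    obtain ⟨c, hc, r, o, ho, k⟩ := h.esc b₁ (hT i hi b₁ a2).1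
    have pc := r.ind (p := fun x => g₁ x = g₁ b₁ ∨ g₂ x = g₂ b₂) (Or.inl rfl)
      fun x hx y _ l => st x y (Dp.of_left hx l)
    have po := k.elim (fun l => (st _ _ (Dp.of_left hc l)).1 pc)
      fun l => (st _ _ (Dp.of_right hc l)).2 pc
    rw [a0 o ho, c0 o ho] at po
    omega

section planar

variable {P : Type} [PartialOrder P] [Fintype P] {B G H : Set P}

open Sf30 in
/-- a connected part `G` of a surface with boundary loses one for every inner region -/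
theorem planar (hB : Mf 2 B) (h : Col B G H) (hc : Conn B) (hm : ∃ b ∈ B, ∃ x, x ∉ B ∧ Cm b x)
    (hG : Conn G) (hn : G.Nonempty) :
    eu G + ((cs H).filter (Inn B)).card ≤ 1 := by
  let β : Ch P → Option (Set P) := fun c =>
    if k : ∃ Y, IsCmp H Y ∧ Inn B Y ∧ Mt Y c then some k.choose else none
  have β1 : ∀ c Y, IsCmp H Y → Inn B Y → Mt Y c → β c = some Y := fun c Y h1 h2 h3 => by
    have k : ∃ Y, IsCmp H Y ∧ Inn B Y ∧ Mt Y c := ⟨Y, h1, h2, h3⟩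
    simp only [β, dif_pos k]
    rw [cmp_uniq k.choose_spec.1 h1 k.choose_spec.2.2 h3]
  have := eu_add_le (hB.mono h.l) hG β (fun c hc e l => ?_)
    (insert none (((cs H).filter (Inn B)).image some)) fun i hi => ?_
  · rw [card_insert_of_notMem (by simp), card_image_of_injective _ (Option.some_injective _)]
      at this
    push_cast at this
    omega
  · by_cases k : ∃ Y, IsCmp H Y ∧ Inn B Y ∧ Mt Y e
    · obtain ⟨Y, h1, h2, y, h3, h4⟩ := k
      obtain ⟨x, x1, x2⟩ := hc.2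
      have := h1.clopen h4 ((h.cases (h2 y h4 x (e.cm h3 (l x1)))).resolve_left x2) (e.cm h3 (l x1))
      rw [β1 c Y h1 h2 ⟨x, x1, this⟩, β1 e Y h1 h2 ⟨y, h3, h4⟩]
    · simp only [β]
      rw [dif_neg k, dif_neg fun ⟨Y, h1, h2, h3⟩ => k ⟨Y, h1, h2, h3.mono l⟩]
  · rcases mem_insert.1 hi with rfl | hi
    · obtain ⟨b, hb, x, hx, k⟩ := hm
      rcases h.cases hb with j | j
      · refine ⟨Alg36.pr k, Alg36.pr_mix j (fun i => hx (h.l i)) k, dif_neg ?_⟩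
        rintro ⟨Y, h1, -, y, h3, h4⟩
        rcases (Alg36.mem_pr k).1 h3 with rfl | rfl
        exacts [h.not j (h1.sub h4), hx (h.r (h1.sub h4))]
      · obtain ⟨c, c1, c2⟩ := cmp_if h.symm hc hn (isCmp_cmp j)
        refine ⟨c, ⟨c1.2, let ⟨y, y1, y2⟩ := c1.1; ⟨y, y1, h.symm.not y2⟩⟩, dif_neg ?_⟩
        rintro ⟨Y, h1, h2, h3⟩
        exact hx (h2 b (cmp_uniq (isCmp_cmp j) h1 c2 h3 ▸ mem_cmp_self j) x k)
    · obtain ⟨Y, hY, rfl⟩ := mem_image.1 hi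
      obtain ⟨h1, h2⟩ := mem_filter.1 hY
      obtain ⟨c, c1, c2⟩ := cmp_if h.symm hc hn (mem_cs.1 h1)
      exact ⟨c, ⟨c1.2, let ⟨y, y1, y2⟩ := c1.1; ⟨y, y1, h.symm.not y2⟩⟩,
        β1 c Y (mem_cs.1 h1) h2 c2⟩

end planar

end Crest.Agent.X212.Ind26
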