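import Crest.Agent.X212.Ind26.Glue

/-!
# X212 / Ind26 (helper26): the boundary is a surface, the boundary of a disc is a circle
-/

set_option autoImplicit false
set_option linter.unusedSectionVars false

open Finset Classical

noncomputable section

namespace Crest.Agent.X212.Ind26

open Hp13 Cut21
open Alg36 (Om Op Esc Fb Clo iIn iMt)

variable {P : Type} [PartialOrder P] [Fintype P] {A : Set P} {z : P → P → ℤ}

/-- the part of a chain off `A` -/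
def offA (A : Set P) (c : Ch P) (h : ∃ x ∈ c.1, x ∉ A) : Ch P :=
  c.sub (c.1.filter (· ∉ A)) (let ⟨x, h1, h2⟩ := h; ⟨x, mem_filter.2 ⟨h1, h2⟩⟩) (filter_subset _ _)

theorem mem_offA {c : Ch P} {h : ∃ x ∈ c.1, x ∉ A} {x : P} :
    x ∈ (offA A c h).1 ↔ x ∈ c.1 ∧ x ∉ A := mem_filter

theorem not_mt {c : Ch P} : ¬ Mt A c ↔ ∀ x ∈ c.1, x ∉ A := by simp [Mt]

theorem offA_le {c : Ch P} {h : ∃ x ∈ c.1, x ∉ A} : offA A c h ≤ c := filter_subset _ _

theorem le_offA {c n : Ch P} (hn : ¬ Mt A n) (l : n ≤ c) {h : ∃ x ∈ c.1, x ∉ A} :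
    n ≤ offA A c h := fun x hx => mem_offA.2 ⟨l hx, not_mt.1 hn x hx⟩

theorem offA_not {c : Ch P} {h : ∃ x ∈ c.1, x ∉ A} : ¬ Mt A (offA A c h) :=
  not_mt.2 fun _ hx => (mem_offA.1 hx).2

/-- the extensions of a boundary chain by points of `A` -/
def Xt (A : Set P) (n e : Ch P) : Prop := n ≤ e ∧ Mt A e ∧ ∀ x ∈ e.1, x ∉ A → x ∈ n.1

theorem sum_xt (hN : Nice A) {n : Ch P} (hd : Dom A n) (hn : ¬ Mt A n) :
    ∑ e ∈ univ.filter (Xt A n), e.sg = -n.sg := by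
  have h1 := (hN n hd hn).eu
  generalize hF : {a | a ∈ A ∧ ∀ x ∈ n.1, Cm a x} = F at h1
  have mF : ∀ {d : Ch P}, d ∈ univ.filter (fun c : Ch P => ∀ x ∈ c.1, x ∈ F) ↔
      ∀ x ∈ d.1, x ∈ A ∧ ∀ y ∈ n.1, Cm x y := by simp [← hF]
  rw [eu, neg_eq_iff_eq_neg] at h1
  rw [← mul_neg_one, ← h1, mul_sum]
  symm
  refine sum_bij (fun d hd => Ch.mk' (n.1 ∪ d.1) (n.2.1.mono subset_union_left) fun x hx y hy => ?_)
    (fun d hd => ?_) (fun d hd d' hd' e => ?_) (fun e he => ?_) fun d hd => ?_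
  · have := mF.1 hd
    rcases mem_union.1 hx with hx | hx <;> rcases mem_union.1 hy with hy | hy
    exacts [n.cm hx hy, ((this y hy).2 x hx).symm, (this x hx).2 y hy, d.cm hx hy]
  · have := mF.1 hd
    exact mem_filter.2 ⟨mem_univ _, subset_union_left,
      ⟨_, mem_union_right _ d.top_mem, (this _ d.top_mem).1⟩,
      fun x hx k => (mem_union.1 hx).resolve_right fun j => k (this x j).1⟩
  · have k : ∀ d d' : Ch P, (∀ x ∈ d.1, x ∈ A) → n.1 ∪ d.1 = n.1 ∪ d'.1 → d ≤ d' :=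
      fun d d' h e x hx => (mem_union.1 (e ▸ mem_union_right _ hx)).resolve_left
        fun j => not_mt.1 hn x j (h x hx)
    have e' := congrArg Subtype.val e
    exact le_antisymm (k _ _ (fun x hx => (mF.1 hd x hx).1) e')
      (k _ _ (fun x hx => (mF.1 hd' x hx).1) e'.symm)
  · obtain ⟨h1, ⟨a, a1, a2⟩, h3⟩ := (mem_filter.1 he).2
    refine ⟨e.sub (e.1.filter (· ∈ A)) ⟨a, mem_filter.2 ⟨a1, a2⟩⟩ (filter_subset _ _),
      mF.2 fun x hx => ⟨(mem_filter.1 hx).2,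
        fun y hy => e.cm (mem_filter.1 hx).1 (h1 hy)⟩, Ch.ext (Finset.ext fun x => ?_)⟩
    exact ⟨fun k => (mem_union.1 k).elim (fun j => h1 j) fun j => (mem_filter.1 j).1,
      fun k => mem_union.2 (or_iff_not_imp_right.2 fun j => h3 x k fun i => j (mem_filter.2 ⟨k, i⟩))⟩
  · have : Disjoint n.1 d.1 := disjoint_left.2 fun x hx j =>
      not_mt.1 hn x hx (mF.1 hd x j).1
    show _ = (-1 : ℤ) ^ (n.1 ∪ d.1).card
    rw [card_union_of_disjoint this, pow_add]; rfl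

/-- the cells of `M` over a boundary chain -/
theorem sum_lam (hM : Mf 3 A) (hN : Nice A) {n : Ch P} (hd : Dom A n) (hn : ¬ Mt A n) :
    ∑ c ∈ univ.filter (fun c => n ≤ c ∧ Mt A c), c.sg = 1 := by
  have h1 := Alg36.Mf.dual_sum hM (fun e => if Xt A n e then 1 else 0)
    fun e he => if_neg fun k => he k.2.1
  have h2 : ∀ c : Ch P, ∑ e ∈ univ.filter (· ≤ c), e.sg * (if Xt A n e then 1 else 0) =
      if n ≤ c ∧ Mt A c then -n.sg else 0 := fun c => by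
    simp only [mul_ite, mul_one, mul_zero, ← sum_filter, filter_filter]
    split_ifs with k
    swap
    · exact sum_eq_zero fun e he => absurd ⟨(mem_filter.1 he).2.2.1.trans (mem_filter.1 he).2.1,
        (mem_filter.1 he).2.2.2.1.mono (mem_filter.1 he).2.1⟩ k
    let t : Ch P := c.sub (c.1.filter fun x => x ∈ A ∨ x ∈ n.1)
      ⟨_, mem_filter.2 ⟨k.1 n.top_mem, Or.inr n.top_mem⟩⟩ (filter_subset _ _)
    have l : n ≤ t := fun x hx => mem_filter.2 ⟨k.1 hx, Or.inr hx⟩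
    obtain ⟨a, a1, a2⟩ := k.2
    have l' : n < t := l.lt_of_ne fun e => hn ⟨a, e ▸ mem_filter.2 ⟨a1, Or.inl a2⟩, a2⟩
    have := Alg36.sum_Icc l'
    rw [show univ.filter (fun e => n ≤ e ∧ e ≤ t) =
      insert n (univ.filter fun e => e ≤ c ∧ Xt A n e) from Finset.ext fun e => ?_,
      sum_insert fun j => hn (mem_filter.1 j).2.2.2.1] at this
    · linear_combination this
    simp only [mem_filter, mem_univ, true_and, mem_insert]
    refine ⟨fun ⟨j1, j2⟩ => or_iff_not_imp_right.2 fun j => le_antisymm (fun x hx => ?_) j1, ?_⟩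
    · refine (mem_filter.1 (j2 hx)).2.resolve_left fun i => j ⟨fun y hy => (mem_filter.1 (j2 hy)).1,
        j1, ⟨x, hx, i⟩, fun y hy i => (mem_filter.1 (j2 hy)).2.resolve_left i⟩
    · rintro (rfl | ⟨j1, j2, -, j3⟩)
      exacts [⟨le_rfl, l⟩, ⟨j2, fun x hx => mem_filter.2 ⟨j1 hx, or_iff_not_imp_left.2 (j3 x hx)⟩⟩]
  simp only [h2] at h1
  simp only [mul_ite, mul_one, mul_zero, ← sum_filter] at h1
  rw [sum_xt hN hd hn, ← sum_mul] at h1
  linear_combination (-n.sg) * h1 - (∑ c ∈ univ.filter (fun c => n ≤ c ∧ Mt A c), c.sg - 1) * n.sg_sq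

/-- the boundary is a closed surface -/
theorem sum_bd (hM : Mf 3 A) (hN : Nice A) {n : Ch P} (hd : Dom A n) (hn : ¬ Mt A n) :
    ∑ c ∈ univ.filter (fun c => n ≤ c ∧ Dom A c ∧ ¬ Mt A c), c.sg = -1 := by
  have ne : ∀ c, n ≤ c → ∃ x ∈ c.1, x ∉ A := fun c l =>
    ⟨_, l n.top_mem, not_mt.1 hn _ n.top_mem⟩
  rw [← neg_inj, neg_neg, ← sum_lam hM hN hd hn, ← sum_neg_distrib,
    ← sum_fiberwise_of_maps_to (s := univ.filter fun c => n ≤ c ∧ Mt A c)
      (t := univ.filter fun c => n ≤ c ∧ Dom A c ∧ ¬ Mt A c)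
      (g := fun c => if h : n ≤ c then offA A c (ne c h) else c) fun c hc => ?_]
  · refine sum_congr rfl fun m hm => ?_
    obtain ⟨m1, m2, m3⟩ := (mem_filter.1 hm).2
    rw [← sum_xt hN m2 m3]
    refine sum_congr (Finset.ext fun c => ?_) fun _ _ => rfl
    simp only [mem_filter, mem_univ, true_and]
    refine ⟨fun ⟨j1, j2, j3⟩ => ⟨⟨m1.trans j1, j2⟩, ?_⟩, fun ⟨⟨j1, j2⟩, j3⟩ => ?_⟩
    · rw [dif_pos (m1.trans j1)]
      exact le_antisymm (fun x hx => j3 x (mem_offA.1 hx).1 (mem_offA.1 hx).2) (le_offA m3 j1)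
    · rw [dif_pos j1] at j3
      exact j3 ▸ ⟨offA_le, j2, fun x hx k => mem_offA.2 ⟨hx, k⟩⟩
  · obtain ⟨j1, j2⟩ := (mem_filter.1 hc).2
    rw [dif_pos j1]
    exact mem_filter.2 ⟨mem_univ _, le_offA hn j1, j2.dom.mono offA_le, offA_not⟩

theorem card_bd (hM : Mf 3 A) {n : Ch P} (hd : Dom A n) (hn : ¬ Mt A n) : n.1.card ≤ 3 := by
  obtain ⟨a, ha, k⟩ := hd
  have := hM.card_le (n.ins a k) ⟨a, mem_insert_self _ _, ha⟩
  rw [Ch.ins_val, card_insert_of_notMem fun j => hn ⟨a, j, ha⟩] at this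
  omega

variable [hz : IsCoc A z]

/-- the boundary of a surface is a closed curve; `K` is an open part of it -/
theorem two_chiC (hM : Mf 3 A) (hN : Nice A) (hm : Mono A z) {K : Set (Lv A z)}
    (hK : ∀ q ∈ K, q ∉ LA A z) (up : ∀ q ∈ K, ∀ r, r ∉ LA A z → q ≤ r → r ∈ K) :
    2 * chiC K = -∑ r ∈ univ.filter (· ∈ K), ((univ.filter fun q => q ≤ r ∧ q ∉ K).card : ℤ) := by
  have h1 : ∀ q ∈ univ.filter (· ∈ K),
      ∑ r ∈ univ.filter (fun r => r ∈ K ∧ q ≤ r), r.1.1.sg = -1 := fun q hq => by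
    have hq := (mem_filter.1 hq).2
    rw [← sum_bd hM hN q.2.1 (hK q hq)]
    refine sum_bij (fun r _ => r.1.1) (fun r hr => mem_filter.2 ⟨mem_univ _,
      Lv.ch_le (mem_filter.1 hr).2.2, r.2.1, hK r (mem_filter.1 hr).2.1⟩)
      (fun r hr r' hr' e => Sf30.lv_eq_of_ge (mem_filter.1 hr).2.2 (mem_filter.1 hr').2.2 e)
      (fun c hc => ?_) fun _ _ => rfl
    obtain ⟨j1, j2, j3⟩ := (mem_filter.1 hc).2
    obtain ⟨r, r1, r2⟩ := Lv.exists_ge hm q j2 j1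
    exact ⟨r, mem_filter.2 ⟨mem_univ _, up q hq r (r1 ▸ j3 :) r2, r2⟩, r1⟩
  have h2 := sum_congr rfl h1
  rw [sum_comm' (t' := univ.filter (· ∈ K)) (s' := fun r => univ.filter fun q => q ≤ r ∧ q ∈ K)
    (by simp only [mem_filter, mem_univ, true_and]; tauto)] at h2
  rw [chiC, mul_sum, ← sum_neg_distrib, ← sub_eq_zero, ← sum_sub_distrib]
  refine Eq.trans ?_ (sub_eq_zero.2 h2)
  rw [← sum_sub_distrib]
  refine sum_congr rfl fun r hr => ?_
  have hr := (mem_filter.1 hr).2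
  have c1 := card_filter_add_card_filter_not (s := univ.filter (· ≤ r)) (· ∈ K)
  have c2 : univ.filter (· ≤ r) = insert r (univ.filter (· < r)) := Finset.ext fun q => by
    simp [le_iff_eq_or_lt]
  have c3 : 0 < (univ.filter fun q => q ≤ r ∧ q ∈ K).card := card_pos.2 ⟨r, by simp [hr]⟩
  rw [filter_filter, filter_filter, c2, card_insert_of_notMem (by simp)] at c1
  have c4 := card_bd hM r.2.1 (hK r hr)
  have c5 := Sf30.lv_two_le r
  rw [sum_const, nsmul_eq_mul, Ch.sg]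
  generalize (univ.filter fun q => q ≤ r ∧ q ∈ K).card = m at c1 c3 ⊢
  generalize (univ.filter fun q => q ≤ r ∧ q ∉ K).card = n at c1 ⊢
  by_cases k : r.1.1.1.card = 3
  · rw [Sf30.card_dn hm k] at c1
    rw [k]; norm_num; omega
  · rw [filter_false_of_mem (p := (· < r)) fun q _ l => by
      have := Sf30.lv_card_lt l
      have := Sf30.lv_two_le q
      omega, card_empty] at c1
    rw [show r.1.1.1.card = 2 by omega]; norm_num; omega

/-- the boundary cells of `D` -/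
def Bd (D : Set (Lv A z)) : Set (Lv A z) := {q | q ∉ LA A z ∧ q ∈ dn D}

theorem conn_bd (hM : Mf 3 A) (hm : Mono A z) {D : Set (Lv A z)} (hD : IsCmp (LA A z) D)
    (h1 : chiC D = 1) : Conn (Bd D) := by
  have hU := hD.upper Sf30.la_upper
  have h2 := Sf30.conn_mix2 ((Sf30.mf_LA hM hm).mono hD.sub) hD.conn
    (by rw [← Sf30.chiC_eq_eu hM hm hD.sub hU, h1])
  have m : ∀ κ ∈ Alg36.mix D, κ.bot ∈ Bd D := fun κ ⟨⟨p, p1, p2⟩, q, q1, q2⟩ =>
    ⟨fun k => q2 (hU (Ch.bot_le q1) (hD.clopen p2 k (Or.inr (Ch.bot_le p1)))), p, p2, Ch.bot_le p1⟩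
  rintro q ⟨q1, p, p1, p2⟩ q' ⟨r1, p', r2, r3⟩
  have := (h2 (Ch.pr q p p2) ⟨⟨p, by simp, p1⟩, q, by simp, fun k => q1 (hD.sub k)⟩
    (Ch.pr q' p' r3) ⟨⟨p', by simp, r2⟩, q', by simp, fun k => r1 (hD.sub k)⟩).map (f := Ch.bot)
    fun κ h1 κ' h2 l => Rch.of_cm (m κ h1) (m κ' h2) (Or.inr (Ch.bot_anti l))
  simpa using this

theorem sat_cmp (hN : Nice A) (hm : Mono A z) {D : Set (Lv A z)} (hD : IsCmp (LA A z) D) :
    Sat (dn D) := hN.sat hm hD.sub fun _ hp _ hq k => hD.clopen hp hq k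

theorem om_off (hA : A.OrdConnected) {c : Ch P} (h : c.top ∈ Om A) : ¬ Mt A c :=
  not_mt.2 fun _ hx => (om_dn hA h (Ch.le_top hx)).1

theorem nm_cnt (hm : Mono A z) {T : Set (Lv A z)} (hT : Sat T) :
    nm A (cnt T) = chiC {q | q ∈ T ∧ q.1.1.top ∈ Om A} := by
  generalize hF : {q | q ∈ T ∧ q.1.1.top ∈ Om A} = F
  have mF : ∀ {q}, q ∈ univ.filter (· ∈ F) ↔ q ∈ T ∧ q.1.1.top ∈ Om A := by simp [← hF]
  rw [nm, chiC, ← sum_fiberwise_of_maps_to (s := univ.filter (· ∈ F))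
    (t := univ.filter fun c : Ch P => c.top ∈ Om A)
    (g := fun p : Lv A z => p.1.1) fun p hp => mem_filter.2 ⟨mem_univ _, (mF.1 hp).2⟩]
  refine sum_congr rfl fun c hc => ?_
  have hc := (mem_filter.1 hc).2
  have hd : Dom A c := let ⟨_, a, ha, l⟩ := hc; ⟨a, ha, fun x hx => Or.inr ((Ch.le_top hx).trans l)⟩
  rw [sum_congr rfl (g := fun _ => c.sg) fun p hp => by rw [(mem_filter.1 hp).2], sum_const,
    nsmul_eq_mul, mul_comm, hT.cnt_bt hm hd, nlev]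
  congr 2
  symm
  refine card_bij (fun p _ => p.1.2) (fun p hp => ?_) (fun p hp q hq e => ?_) fun k hk => ?_
  · obtain ⟨h1, h2⟩ := mem_filter.1 hp
    exact mem_filter.2 ⟨h2 ▸ mem_Ico.2 p.2.2, p, (mF.1 h1).1, h2, rfl⟩
  · exact Lv.ext ((mem_filter.1 hp).2.trans (mem_filter.1 hq).2.symm) e
  · obtain ⟨-, q, q1, q2, q3⟩ := mem_filter.1 hk
    exact ⟨q, mem_filter.2 ⟨mF.2 ⟨q1, q2 ▸ hc⟩, q2⟩, q3⟩

/-- **circle**: with at most one arc on `R₋` the rest of the boundary of a disc is connected -/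
theorem conn_bp (hA : A.OrdConnected) (hM : Mf 3 A) (hN : Nice A) (hm : Mono A z)
    {D : Set (Lv A z)} (hD : IsCmp (LA A z) D) (h1 : chiC D = 1) (h2 : nm A (cnt (dn D)) ≤ 1) :
    Conn {q | q ∈ Bd D ∧ q.1.1.top ∉ Om A} := by
  set B := {q | q ∈ Bd D ∧ q.1.1.top ∉ Om A}
  have sat := sat_cmp hN hm hD
  have e0 : chiC (Bd D) = 0 := by
    have := two_chiC hM hN hm (K := Bd D) (fun _ k => k.1)
      fun q hq r hr l => ⟨hr, (sat q r l).1 hq.2⟩
    rw [sum_eq_zero fun r hr => by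
      rw [filter_false_of_mem fun q _ k => k.2 ⟨fun j => (mem_filter.1 hr).2.1 (LA.upper j k.1),
        (sat q r k.1).2 (mem_filter.1 hr).2.2⟩]; rfl] at this
    omega
  have e1 := chiC_split (Bd D) B
  rw [Set.inter_eq_right.2 fun _ k => k.1, show Bd D \ B = {q | q ∈ dn D ∧ q.1.1.top ∈ Om A} from
    Set.ext fun q => ⟨fun k => ⟨k.1.2, by_contra fun j => k.2 ⟨k.1, j⟩⟩,
      fun k => ⟨⟨om_off hA k.2, k.1⟩, fun j => j.2 k.2⟩⟩, ← nm_cnt hm sat] at e1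
  have upB : ∀ q ∈ B, ∀ r, r ∉ LA A z → q ≤ r → r ∈ B := fun q hq r hr l =>
    ⟨⟨hr, (sat q r l).1 hq.1.2⟩, fun j => hq.2 (om_dn hA j (Ch.top_mono (Lv.ch_le l)))⟩
  have key : ∀ K ⊆ B, (∀ q ∈ K, ∀ r ∈ B, Cm q r → r ∈ K) → ∀ p ∈ K, ∀ q ∈ Bd D, q ∉ K →
      chiC K ≤ -1 := fun K hK cl p hp q hq hq' => by
    have := two_chiC hM hN hm (K := K) (fun _ k => (hK k).1.1)
      fun q hq r hr l => cl q hq r (upB q (hK hq) r hr l) (Or.inl l)
    obtain ⟨r, r1, x, x1, x2⟩ : ∃ r ∈ K, ∃ x, x ≤ r ∧ x ∉ K := by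
      by_contra hn
      push Not at hn
      exact hq' ((conn_bd hM hm hD h1 p (hK hp).1 q hq).ind (p := (· ∈ K)) hp fun a _ b hb l =>
        ⟨fun k => cl a k b (upB a (hK k) b hb.1 l) (Or.inl l), fun k => hn b k a l⟩)
    have a1 := single_le_sum (s := univ.filter (· ∈ K))
      (f := fun r => ((univ.filter fun q => q ≤ r ∧ q ∉ K).card : ℤ))
      (fun _ _ => Int.natCast_nonneg _) (mem_filter.2 ⟨mem_univ _, r1⟩)
    have a2 : 0 < (univ.filter fun q => q ≤ r ∧ q ∉ K).card := card_pos.2 ⟨x, by simp [x1, x2]⟩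
    omega
  intro p hp q hq
  by_contra hn
  have c := isCmp_cmp hp
  have a1 := key _ c.sub (fun _ a _ b k => c.clopen a b k) p (mem_cmp_self hp) q hq.1
    fun k => hn k.2
  have a2 := key (B \ Hp13.cmp B p) Set.sdiff_subset
    (fun a ha b hb k => ⟨hb, fun j => ha.2 (c.clopen j ha.1 k.symm)⟩) q ⟨hq, fun k => hn k.2⟩ p hp.1
    fun k => k.2 (mem_cmp_self hp)
  have a3 := chiC_split B (Hp13.cmp B p)
  rw [Set.inter_eq_right.2 c.sub] at a3
  omega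

end Crest.Agent.X212.Ind26
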