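import Crest.Agent.X212.Ind26.Disc

/-!
# X212 / Ind26 (helper26): the cut along a complete disc system consists of balls
-/

set_option autoImplicit false
set_option linter.unusedSectionVars false

open Finset Classical

noncomputable section

namespace Crest.Agent.X212.Ind26

open Hp13 Cut21
open Alg36 (Om Op Esc)

section

variable {P : Type} [PartialOrder P] [Fintype P] {A : Set P} {z : P → P → ℤ}

theorem exOn_cs {E : Set P} {u : P → P → ℤ} (h : ∀ C, IsCmp E C → ExOn C u) : ExOn E u := by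
  choose! g hg using h
  refine ⟨fun x => g (Hp13.cmp E x) x, fun x hx y hy l => ?_⟩
  have r := Rch.of_cm hx hy (Or.inl l)
  simp only [← cmp_eq r]
  exact hg _ (isCmp_cmp hx) x (mem_cmp_self hx) y ⟨hy, r⟩ l

/-- the cells inside `A` -/
def Zc (A : Set P) (z : P → P → ℤ) : Set (Lv A z) := {p | ∀ x ∈ p.1.1.1, x ∈ A}

theorem zc_la {p : Lv A z} (h : p ∈ Zc A z) : p ∈ LA A z := ⟨_, p.1.1.top_mem, h _ p.1.1.top_mem⟩

theorem Spn.flat (hm : Mono A z) {u : P → P → ℤ} (h : Spn A z u) :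
    ∃ g : P → ℤ, ∀ x ∈ A, ∀ y, x ≤ y → z x y = 0 → u x y = g y - g x := by
  induction h with
  | @part T _ =>
    exact ⟨0, fun x hx y l e => le_antisymm ((cnt_le hm (Dp.of_left hx l)).trans (by simp [e]))
      (by simpa using cnt_nonneg x y)⟩
  | cb g => exact ⟨g, fun _ _ _ _ _ => rfl⟩
  | add _ _ i j =>
    obtain ⟨g, hg⟩ := i
    obtain ⟨g', hg'⟩ := j
    exact ⟨g + g', fun x hx y l e => by
      simp only [Pi.add_apply, hg x hx y l e, hg' x hx y l e]; ring⟩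
  | neg _ i =>
    obtain ⟨g, hg⟩ := i
    exact ⟨-g, fun x hx y l e => by simp only [Pi.neg_apply, hg x hx y l e]; ring⟩
  | congr _ e' i =>
    obtain ⟨g, hg⟩ := i
    exact ⟨g, fun x hx y l e => (e' x y (Dp.of_left hx l)).trans (hg x hx y l e)⟩

variable [hz : IsCoc A z]

theorem zc_lower : IsLowerSet (Zc A z) := fun _ _ l h x hx => h x (Lv.ch_le l hx)

/-- the collar of the boundary of a disc is connected -/
theorem conn_col (hA : A.OrdConnected) (hM : Mf 3 A) (hN : Nice A) (nf : NF P A z)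
    {D : Set (Lv A z)} (hD : IsCmp (LA A z) D) (h1 : chiC D = 1) :
    Conn (D ∩ (LA A z \ Zc A z)) := by
  have hm := nf.sf.mono
  have k : ∀ p ∈ D ∩ (LA A z \ Zc A z), ∃ r, Rch (D ∩ (LA A z \ Zc A z)) p r ∧ r ∈ LA A z ∧
      ∃ q ∈ Bd D, q ≤ r := fun p hp => by
    have : Rb (LA A z \ Zc A z) p := by
      by_cases ht : p.1.1.top ∈ A
      · obtain ⟨r, r1, r2⟩ := rb_xm hm nf.jk nf.cm ⟨hp.2.1, fun k => hp.2.2 fun x hx =>
          hA.out k ht ⟨Ch.bot_le hx, Ch.le_top hx⟩⟩ ht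
        exact ⟨r, r1, r2.mono fun q k => ⟨k.1, fun j => k.2 (j _ q.1.1.bot_mem)⟩⟩
      · obtain ⟨r, r1, r2⟩ := rb_xp hm nf.cp ⟨hp.2.1, ht⟩
        exact ⟨r, r1, r2.mono fun q k => ⟨k.1, fun j => k.2 (j _ q.1.1.top_mem)⟩⟩
    obtain ⟨r, r1, ⟨r2, q, q1, q2⟩, r3⟩ := this.cmp Set.sdiff_subset hD hp
    exact ⟨r, r3, r2, q, ⟨q1, r, r1.1, q2⟩, q2⟩
  intro p hp p' hp'
  obtain ⟨r, r1, r2, q, q1, q2⟩ := k p hp
  obtain ⟨r', s1, s2, q', s3, s4⟩ := k p' hp'
  exact (r1.trans (rch_cof hN hm (S := D ∩ (LA A z \ Zc A z)) (fun a ha u hu l =>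
    ⟨(mem_dn (fun _ i _ j => hD.clopen i j) hu).1 ((sat_cmp hN hm hD a u l).1 ha.2), hu,
      fun j => ha.1 (zc_la (zc_lower l j))⟩) q1
    (conn_bd hM hm hD h1 q q1 q' s3) r2 q2 r' s2 s4)).trans s1.symm

/-- the inner parts of the discs are discs -/
theorem ctr_zc (hA : A.OrdConnected) (hM : Mf 3 A) (hN : Nice A) (nf : NF P A z)
    (h : ∀ D, IsCmp (LA A z) D → chiC D = 1) {E : Set (Lv A z)} (hE : IsCmp (Zc A z) E) :
    Ctr E := by
  have hm := nf.sf.mono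
  have h2 := Sf30.mf_LA hM hm
  obtain ⟨p, hp⟩ := hE.ne
  have hD := isCmp_cmp (zc_la (hE.sub hp))
  set D := Hp13.cmp (LA A z) p
  have hT := nf.sf.noCl D hD
  have k : E ⊆ D := fun q hq =>
    ⟨zc_la (hE.sub hq), (hE.conn p hp q hq).mono fun _ j => zc_la (hE.sub j)⟩
  have esc : ∀ Y ⊆ D, Esc (LA A z) Y := fun Y hY a ha =>
    let ⟨b, b1, q, q1, q2⟩ := hT
    ⟨b, hD.sub b1, (hD.conn a (hY ha) b b1).mono hD.sub, q, fun j => q1 (hD.sub (hY j)), Or.inr q2⟩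
  have a1 := disc_planar hM hm (G := D ∩ (LA A z \ Zc A z)) (H := D ∩ Zc A z) hD hT (h D hD)
    ⟨Set.ext fun p => ⟨fun k => k.elim (·.1) (·.1), fun k => or_iff_not_imp_right.2 fun j =>
      ⟨k, hD.sub k, fun i => j ⟨k, i⟩⟩⟩, Set.disjoint_left.2 fun _ i j => i.2.2 j.2⟩
    ((hD.upper Sf30.la_upper).inter (Sf30.la_upper.inter zc_lower.compl))
    (conn_col hA hM hN nf hD (h D hD))
    (let ⟨b, b1, _, q1, q2⟩ := hT; ⟨b, b1, hD.sub b1, fun j => q1 (zc_la (zc_lower q2 j))⟩)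
  rw [filter_true_of_mem fun Y hY a ha x l => by
      have := (Sf30.mem_cs.1 hY).sub ha
      exact hD.clopen this.1 (l.elim (LA.upper (hD.sub this.1)) fun j => zc_la (zc_lower j this.2)) l,
    ← eu_lower (E := D ∩ Zc A z) hM hm (fun _ j => hD.sub j.1) (fun a b l j => ⟨hD.clopen j.1
      (zc_la (zc_lower l j.2)) (Or.inr l), zc_lower l j.2⟩), ← Sf30.sum_eu_cs,
    card_eq_sum_ones, Nat.cast_sum] at a1
  have le : ∀ Y ∈ Sf30.cs (D ∩ Zc A z), eu Y ≤ ((1 : ℕ) : ℤ) := fun Y hY =>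
    have j : Y ⊆ D := fun _ i => ((Sf30.mem_cs.1 hY).sub i).1
    Alg36.Mf.eu_le_one h2 (j.trans hD.sub) (Sf30.mem_cs.1 hY).conn (esc Y j)
  exact Alg36.Mf.ctr_of_eu h2 (k.trans hD.sub) hE.conn (esc E k)
    ((sum_eq_sum_iff_of_le le).1 (le_antisymm (sum_le_sum le) a1) E
      (Sf30.mem_cs.2 (isCmp_inter hE k))).ge

/-- a cocycle of the cut manifold extends across the discs -/
theorem exists_ext (hm : Mono A z) (hj : JK A z) (h : ∀ E, IsCmp (Zc A z) E → Ctr E)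
    {w : P → P → ℤ} (hw : ∀ x ∈ A, ∀ y ∈ A, ∀ v ∈ A, x ≤ y → y ≤ v → z x y = 0 → z y v = 0 →
      w x v = w x y + w y v) :
    ∃ W, CocOn A W ∧ ∀ x y, z x y = 0 → W x y = w x y := by
  have fl : ∀ p q : Lv A z, q ∈ Zc A z → p ≤ q →
      z q.1.1.bot p.1.1.bot = 0 ∧ z p.1.1.top q.1.1.top = 0 := fun p q hq l => by
    have l := Lv.ch_le l
    have ht := hq _ q.1.1.top_mem
    have := hj _ _ (Or.inl ht) q.1.1.bot_le_top
    have := add3 (z := z) ht (Ch.bot_anti l) (Ch.le_top (l p.1.1.bot_mem))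
    have := add3 (z := z) ht p.1.1.bot_le_top (Ch.top_mono l)
    have := hm _ _ (Dp.of_left (hq _ q.1.1.bot_mem) (Ch.bot_anti l))
    have := hm _ _ (Dp.of_right ht (Ch.top_mono l))
    have := lv_pos' p
    omega
  obtain ⟨G, hG⟩ := exOn_cs (E := Zc A z)
    (u := fun p q => w p.1.1.top q.1.1.top + w q.1.1.bot p.1.1.bot) fun E hE =>
      (h E hE).ex _ _ fun p hp q hq r hr l l' => by
        have hp := hE.sub hp
        have hq := hE.sub hq
        have hr := hE.sub hr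
        have := hw _ (hp _ p.1.1.top_mem) _ (hq _ q.1.1.top_mem) _ (hr _ r.1.1.top_mem)
          (Ch.top_mono (Lv.ch_le l)) (Ch.top_mono (Lv.ch_le l')) (fl p q hq l).2 (fl q r hr l').2
        have := hw _ (hr _ r.1.1.bot_mem) _ (hq _ q.1.1.bot_mem) _ (hp _ p.1.1.bot_mem)
          (Ch.bot_anti (Lv.ch_le l')) (Ch.bot_anti (Lv.ch_le l)) (fl q r hr l').1 (fl p q hq l).1
        omega
  have w0 : ∀ x ∈ A, w x x = 0 := fun x hx => by
    have := hw x hx x hx x hx le_rfl le_rfl (self0 hz.coc hx) (self0 hz.coc hx)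
    omega
  refine ⟨fun x y => if k : Dp A x y ∧ 0 < z x y then G (ec k.1 le_rfl k.2) else w x y,
    fun x hx y hy v hv l l' => ?_, fun x y e => dif_neg fun k => k.2.ne' e⟩
  have t := tri1 hx l l'
  have := t.add hz.coc
  have := hm _ _ t.d12
  have := hm _ _ t.d23
  have := hj _ _ (Or.inl hv) (l.trans l')
  have := w0 x hx
  have := w0 v hv
  have m : ∀ k : 0 < z x v, tc t le_rfl k ∈ Zc A z := fun k => by simp [Zc, hx, hy, hv]
  have m' : ∀ k : 0 < z x v, G (tc t le_rfl k) = G (ec t.d13 le_rfl k) := fun k => by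
    have := hG _ (by simp [Zc, hx, hv]) _ (m k) (ec13 (hp := t.d13))
    simp only [ec_ch, tc_ch, Ch.top_pr, Ch.bot_pr, top_tri, bot_tri] at this
    omega
  simp only
  by_cases a : 0 < z x y
  · have k : 0 < z x v := by omega
    have := hG _ (by simp [Zc, hx, hy]) _ (m k) (ec12 (hp := t.d12) (h1 := a))
    simp only [ec_ch, tc_ch, Ch.top_pr, Ch.bot_pr, top_tri, bot_tri] at this
    rw [dif_pos ⟨t.d13, k⟩, dif_pos ⟨t.d12, a⟩, dif_neg fun j => by omega, ← m' k]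
    omega
  by_cases b : 0 < z y v
  · have k : 0 < z x v := by omega
    have := hG _ (by simp [Zc, hy, hv]) _ (m k) (ec23 (hp := t.d23) (h0 := le_rfl) (h1 := b)
      (by omega))
    simp only [ec_ch, tc_ch, Ch.top_pr, Ch.bot_pr, top_tri, bot_tri] at this
    rw [dif_pos ⟨t.d13, k⟩, dif_neg fun j => a j.2, dif_pos ⟨t.d23, b⟩, ← m' k]
    omega
  · rw [dif_neg fun j => by omega, dif_neg fun j => a j.2, dif_neg fun j => b j.2]
    exact hw x hx y hy v hv l l' (by omega) (by omega)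

end

theorem countStmt : CountStmt := fun s c z _ π hs nf h hc gc esc C hC => by
  by_contra hn
  have clo := Alg36.IsCmp.clo hC
  obtain ⟨w, w1, w2, -⟩ := Alg36.Mf.exists_cocOn gc.mf hC.sub hC.ne (esc.mono hC.sub) (not_lt.1 hn)
  obtain ⟨u, u1, u2, -⟩ := clo.exists_coc gc.nice w1
  have : Nonempty c.P := let ⟨b, _⟩ := hC.ne; ⟨b⟩
  have L := hc.toLift
  choose! σ σ1 σ2 using fun a (ha : a ∈ s.A) => L.exA ha
  have le : ∀ x ∈ s.A, ∀ y ∈ s.A, x ≤ y → z x y = 0 → σ x ≤ σ y := fun x hx y hy l e =>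
    (hc.le_iff (σ1 x hx) (σ1 y hy)).2 (by rw [σ2 x hx, σ2 y hy]; exact ⟨l, e⟩)
  obtain ⟨W, W1, W2⟩ := exists_ext nf.sf.mono nf.jk
    (fun _ => ctr_zc hs.conv hs.mf hs.nice nf h.disc) (w := pb σ u)
    fun x hx y hy v hv l l' e e' => Alg36.Coc.cocOn u1 _ (σ1 x hx) _ (σ1 y hy) _ (σ1 v hv)
      (le x hx y hy l e) (le y hy v hv l' e')
  obtain ⟨V, V1, V2⟩ := Alg36.Nice.exists_coc hs.nice W1
  obtain ⟨g, hg⟩ := (h.span V V1).flat nf.sf.mono
  refine w2 ⟨g ∘ π, fun b hb b' hb' l => ?_⟩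
  have k := hC.sub hb
  have k' := hC.sub hb'
  have e := hc.zero k k' l
  have i : ∀ b ∈ c.A, σ (π b) = b := fun b hb => L.bij.injOn (σ1 _ (L.mem hb)) hb (σ2 _ (L.mem hb))
  have := hg _ (L.mem k) _ (L.mon l) e
  rw [V2 _ (L.mem k) _ (L.mem k') (L.mon l), W2 _ _ e, pb, i b k, i b' k', u2 b hb b' hb' l] at this
  exact this

end Crest.Agent.X212.Ind26
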