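import Crest.Agent.X212.Ind26.Leaf
import Crest.Agent.X212.Sf30.Tree2

/-!
# X212 / Ind26 (helper26): the collars of a conditioned disc, PHI
-/

set_option autoImplicit false
set_option linter.unusedSectionVars false

open Finset Classical

noncomputable section

namespace Crest.Agent.X212.Ind26

open Hp13 Cut21
open Alg36 (Om Op Esc)

variable {P : Type} [PartialOrder P] [Fintype P] {A : Set P} {z : P → P → ℤ}

/-- the cell of a triangle -/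
def tc {x y w : P} {k : ℤ} (t : Tri A x y w) (h0 : 0 ≤ k) (h1 : k < z x w) : Lv A z :=
  ⟨(tri x y w t.1 t.2.1, k), let ⟨_, _, a, ha, c⟩ := t; ⟨a, ha, by simpa using c⟩, h0,
    by simpa using h1⟩

@[simp] theorem tc_ch {x y w : P} {k : ℤ} (t : Tri A x y w) (h0 : 0 ≤ k) (h1 : k < z x w) :
    (tc t h0 h1).1.1 = tri x y w t.1 t.2.1 := rfl

@[simp] theorem ec_ch {x y : P} {k : ℤ} (hp : Dp A x y) (h0 : 0 ≤ k) (h1 : k < z x y) :
    (ec hp h0 h1).1.1 = Ch.pr x y hp.1 := rfl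

theorem mem_la {p : Lv A z} : p ∈ LA A z ↔ ∃ a ∈ p.1.1.1, a ∈ A := Iff.rfl

/-- the cells that meet `O₊` -/
def Xp (A : Set P) (z : P → P → ℤ) : Set (Lv A z) := {p | p ∈ LA A z ∧ p.1.1.top ∉ A}

/-- the cells that meet `O₋` -/
def Xm (A : Set P) (z : P → P → ℤ) : Set (Lv A z) := {p | p ∈ LA A z ∧ p.1.1.bot ∉ A}

theorem mem_xp {p : Lv A z} : p ∈ Xp A z ↔ (∃ a ∈ p.1.1.1, a ∈ A) ∧ p.1.1.top ∉ A := Iff.rfl

theorem mem_xm {p : Lv A z} : p ∈ Xm A z ↔ (∃ a ∈ p.1.1.1, a ∈ A) ∧ p.1.1.bot ∉ A := Iff.rfl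

variable [hz : IsCoc A z]

theorem ec_le {x y : P} {k : ℤ} {hp : Dp A x y} {h0 : 0 ≤ k} {h1 : k < z x y} {p : Lv A z}
    (hx : x ∈ p.1.1.1) (hy : y ∈ p.1.1.1) (e : p.1.2 = k + z p.1.1.bot x) : ec hp h0 h1 ≤ p :=
  Lv.le_iff.2 ⟨pr_le (h := hp.1) hx hy, by simpa [ec] using e⟩

theorem tri0 {x y w : P} (t : Tri A x y w) : z x x = 0 :=
  let ⟨_, _, _, ha, c, _⟩ := t; hz.coc.self ha c

theorem ec12 {x y w : P} {k : ℤ} {t : Tri A x y w} {hp : Dp A x y} {h0 : 0 ≤ k} {h1 : k < z x y}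
    {h2 : k < z x w} : ec hp h0 h1 ≤ tc t h0 h2 :=
  ec_le (by simp) (by simp) (by simp [tc, tri0 (z := z) t])

theorem ec13 {x y w : P} {k : ℤ} {t : Tri A x y w} {hp : Dp A x w} {h0 : 0 ≤ k}
    {h1 : k < z x w} : ec hp h0 h1 ≤ tc t h0 h1 :=
  ec_le (by simp) (by simp) (by simp [tc, tri0 (z := z) t])

theorem ec23 {x y w : P} {k k' : ℤ} {t : Tri A x y w} {hp : Dp A y w} {h0 : 0 ≤ k}
    {h1 : k < z y w} {h2 : 0 ≤ k'} {h3 : k' < z x w} (e : k' = k + z x y) :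
    ec hp h0 h1 ≤ tc t h2 h3 :=
  ec_le (by simp) (by simp) (by simpa [tc] using e)

/-- the interior cofaces of a cell are connected -/
theorem conn_cof (hN : Nice A) (hm : Mono A z) (q : Lv A z) : Conn {p | p ∈ LA A z ∧ q ≤ p} := by
  by_cases hq : q ∈ LA A z
  · exact conn_cone (m := q) ⟨hq, le_rfl⟩ fun _ k => Or.inr k.2
  set S := {p | p ∈ LA A z ∧ q ≤ p}
  have key : ∀ {a : P}, a ∈ A → ∀ {r s : Lv A z}, q ≤ r → q ≤ s →
      a ∈ r.1.1.1 → a ∈ s.1.1.1 → Rch S r s := fun {a} ha r s h1 h2 h3 h4 => by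
    have k : ∀ x ∈ q.1.1.1, Cm a x := fun x hx => r.1.1.cm h3 (Lv.ch_le h1 hx)
    have m : Mt A (q.1.1.ins a k) := ⟨a, mem_insert_self _ _, ha⟩
    obtain ⟨t, t3, t2⟩ := Lv.exists_ge hm q m.dom (q.1.1.le_ins a k)
    have t1 : t ∈ S := ⟨show Mt A t.1.1 from t3 ▸ m, t2⟩
    exact (Rch.of_cm (E := S) ⟨⟨a, h3, ha⟩, h1⟩ t1 (Or.inr (Sf30.lv_le_of_ge t2 h1
      (t3 ▸ insert_subset h3 (Lv.ch_le h1))))).trans (Rch.of_cm t1 ⟨⟨a, h4, ha⟩, h2⟩
        (Or.inl (Sf30.lv_le_of_ge t2 h2 (t3 ▸ insert_subset h4 (Lv.ch_le h2)))))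
  rintro p ⟨⟨a, a1, a2⟩, h⟩ p' ⟨⟨b, b1, b2⟩, h'⟩
  refine ((hN q.1.1 q.2.1 hq).conn a ⟨a2, fun x hx => p.1.1.cm a1 (Lv.ch_le h hx)⟩ b
    ⟨b2, fun x hx => p'.1.1.cm b1 (Lv.ch_le h' hx)⟩).ind
    (p := fun t => ∀ s, q ≤ s → t ∈ s.1.1.1 → Rch S p s)
    (fun s k1 k2 => key a2 h k1 a1 k2) ?_ p' h' b1
  intro u hu v hv huv
  let c := (q.1.1.ins u hu.2).ins v fun x hx =>
    (mem_insert.1 hx).elim (fun e => e ▸ Or.inr huv) (hv.2 x)
  have m : Mt A c := ⟨v, mem_insert_self _ _, hv.1⟩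
  obtain ⟨r, r1, r2⟩ := Lv.exists_ge hm q m.dom ((q.1.1.le_ins _ _).trans (Ch.le_ins _ _ _))
  have ru : u ∈ r.1.1.1 := r1 ▸ mem_insert_of_mem (mem_insert_self _ _)
  have rv : v ∈ r.1.1.1 := r1 ▸ mem_insert_self _ _
  exact ⟨fun k s k1 k2 => (k r r2 ru).trans (key hv.1 r2 k1 rv k2),
    fun k s k1 k2 => (k r r2 rv).trans (key hu.1 r2 k1 ru k2)⟩

/-- the cofaces of a connected set of cells -/
theorem rch_cof (hN : Nice A) (hm : Mono A z) {B S : Set (Lv A z)}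
    (hS : ∀ q ∈ B, ∀ p ∈ LA A z, q ≤ p → p ∈ S) {q q' : Lv A z} (hq : q ∈ B) (r : Rch B q q')
    {p : Lv A z} (hp : p ∈ LA A z) (l : q ≤ p) : ∀ p' ∈ LA A z, q' ≤ p' → Rch S p p' := by
  have k : ∀ a ∈ B, ∀ {u v}, u ∈ LA A z → v ∈ LA A z → a ≤ u → a ≤ v → Rch S u v :=
    fun a ha _ _ h1 h2 h3 h4 =>
      (conn_cof hN hm a _ ⟨h1, h3⟩ _ ⟨h2, h4⟩).mono fun x hx => hS a ha x hx.1 hx.2
  refine r.ind (p := fun t => ∀ p' ∈ LA A z, t ≤ p' → Rch S p p')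
    (fun p' h1 h2 => k q hq hp h1 l h2) fun a ha b hb j =>
      ⟨fun i u h1 h2 => i u h1 (j.trans h2), fun i u h1 h2 => ?_⟩
  obtain ⟨v, v1, v2⟩ := Lv.exists_la hm b
  exact (i v v1 v2).trans (k a ha v1 h1 (j.trans v2) h2)

/-- `p` reaches the boundary inside `S` -/
def Rb (S : Set (Lv A z)) (p : Lv A z) : Prop := ∃ r ∈ LB A z, Rch S p r

theorem Rb.via {S : Set (Lv A z)} {p q r : Lv A z} (h : Rb S q) (hp : p ∈ S) (hq : q ∈ S)
    (hr : r ∈ S) (h1 : p ≤ r) (h2 : q ≤ r) : Rb S p :=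
  let ⟨b, b1, b2⟩ := h
  ⟨b, b1, ((Rch.of_cm hp hr (Or.inl h1)).trans (Rch.of_cm hr hq (Or.inr h2))).trans b2⟩

theorem rb_of {S : Set (Lv A z)} {p q r : Lv A z} (hp : p ∈ S) (hq : q ∉ LA A z)
    (hr : r ∈ S) (hr' : r ∈ LA A z) (h1 : p ≤ r) (h2 : q ≤ r) : Rb S p :=
  ⟨r, ⟨hr', q, hq, h2⟩, Rch.of_cm hp hr (Or.inl h1)⟩

theorem rb_pp (hm : Mono A z) (hc : CondP A z) {a o : P} {k : ℤ}
    (ha : a ∈ A) (ho : o ∉ A) (hp : Dp A a o) (h0 : 0 ≤ k) (h1 : k < z a o) :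
    Rb (Xp A z) (ec hp h0 h1) := by
  obtain ⟨N, hN⟩ := (Set.finite_range fun p : P × P => z p.1 p.2).bddAbove
  obtain ⟨n, hn⟩ : ∃ n : ℕ, N - k ≤ n := ⟨(N - k).toNat, Int.self_le_toNat _⟩
  induction n generalizing a o k with
  | zero => have := hN ⟨(a, o), rfl⟩; simp only at this; omega
  | succ n ih =>
  have m : ∀ {a o : P} {k : ℤ} {hp : Dp A a o} {h0 : 0 ≤ k} {h1 : k < z a o}, a ∈ A → o ∉ A →
      ec hp h0 h1 ∈ Xp A z := fun ha ho => by simp [mem_xp, ha, ho]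
  have pp := hc a ha o ho hp.1
  induction pp with
  | @sut x a o hx l =>
    have t := tri2 ha l hp.1
    have := t.add hz.coc
    have := hm _ _ t.d12
    exact rb_of (q := ec t.d13 (k := k + z x a) (by omega) (by omega)) (r := tc t _ _) (m ha ho)
      (by simp [mem_la, hx, ho]) (by simp [mem_xp, ha, ho]) (by simp [mem_la, ha]) (ec23 rfl) ec13
  | @low x a o hx l j =>
    have t := tri2 ha l hp.1
    have := t.add hz.coc
    exact (ih hx ho t.d13 (k := k + z x a) (by omega) (by omega) (by omega)).via (r := tc t _ _)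
      (m ha ho) (m hx ho) (by simp [mem_xp, ha, ho]) (ec23 rfl) ec13
  | @up a b o hb l l' j _ i =>
    have t := tri1 ha l l'
    have := t.add hz.coc
    exact (i hb ho t.d23 (by omega)).via (r := tc t _ _) (m ha ho) (m hb ho)
      (by simp [mem_xp, ha, ho]) ec13 (ec23 (by omega))
  | @dn a b o hb l j _ i =>
    have t := tri1 hb l hp.1
    have := t.add hz.coc
    exact (i hb ho t.d13 (by omega)).via (r := tc t _ _) (m ha ho) (m hb ho)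
      (by simp [mem_xp, ha, ho]) (ec23 (by omega)) ec13
  | @mv a o p hp' l j _ i =>
    rcases j with j | j
    · have t := tri1 ha hp.1 j
      have := t.add hz.coc
      have := hm _ _ t.d23
      exact (i ha hp' t.d13 (by omega)).via (r := tc t _ _) (m ha ho) (m ha hp')
        (by simp [mem_xp, ha, hp']) ec12 ec13
    have t := tri1 ha l j
    have := t.add hz.coc
    by_cases e : k < z a p
    · exact (i ha hp' t.d12 e).via (r := tc t _ _) (m ha ho) (m ha hp')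
        (by simp [mem_xp, ha, ho]) ec13 ec12
    · exact rb_of (q := ec t.d23 (k := k - z a p) (by omega) (by omega)) (r := tc t _ _) (m ha ho)
        (by simp [mem_la, hp', ho]) (by simp [mem_xp, ha, ho]) (by simp [mem_la, ha]) ec13
        (ec23 (by omega))

theorem rb_pm (hm : Mono A z) (hj : JK A z) {a o : P} (pp : PM A z a o)
    (ha : a ∈ A) (ho : o ∉ A) (hp : Dp A o a) (h1 : 0 < z o a) :
    Rb (Xm A z) (ec hp le_rfl h1) := by
  have m : ∀ {a o : P} {hp : Dp A o a} {h1 : 0 < z o a}, a ∈ A → o ∉ A →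
      ec hp le_rfl h1 ∈ Xm A z := fun ha ho => by simp [mem_xm, ha, ho]
  induction pp with
  | @sut x a o hx l =>
    have t := tri2 ha hp.1 l
    have := t.add hz.coc
    have := hm _ _ t.d23
    exact rb_of (q := ec t.d13 le_rfl (by omega)) (r := tc t _ _) (m ha ho)
      (by simp [mem_la, hx, ho]) (by simp [mem_xm, ha, ho]) (by simp [mem_la, ha]) ec12 ec13
  | @hi x a o hx l j =>
    have := (tri2 ha hp.1 l).add hz.coc
    have := hj o x (Or.inl hx) (hp.1.trans l)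
    omega
  | @dn a b o hb l l' j _ i =>
    have t := tri2 hb l' l
    have := t.add hz.coc
    exact (i hb ho t.d12 (by omega)).via (r := tc t _ _) (m ha ho) (m hb ho)
      (by simp [mem_xm, ha, ho]) ec13 ec12
  | @up a b o hb l j _ i =>
    have t := tri2 ha hp.1 l
    have := t.add hz.coc
    exact (i hb ho t.d13 (by omega)).via (r := tc t _ _) (m ha ho) (m hb ho)
      (by simp [mem_xm, ha, ho]) ec12 ec13
  | @mv a o p hp' l j _ i =>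
    rcases j with j | j
    · have t := tri3 ha j l
      have := t.add hz.coc
      by_cases e : 0 < z o p
      · exact rb_of (q := ec t.d12 le_rfl e) (r := tc t _ _) (m ha ho)
          (by simp [mem_la, hp', ho]) (by simp [mem_xm, ha, ho]) (by simp [mem_la, ha]) ec13 ec12
      · have := hm _ _ t.d12
        exact (i ha hp' t.d23 (by omega)).via (r := tc t _ _) (m ha ho) (m ha hp')
          (by simp [mem_xm, ha, ho]) ec13 (ec23 (by omega))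
    have t := tri3 ha j hp.1
    have := t.add hz.coc
    have := hm _ _ t.d12
    have := hj p a (Or.inl ha) l
    exact (i ha hp' t.d13 (by omega)).via (r := tc t _ _) (m ha ho) (m ha hp')
      (by simp [mem_xm, ha, hp']) (ec23 (by omega)) ec13

theorem rb_face {S : Set (Lv A z)} {p q : Lv A z} (h : Rb S q) (hp : p ∈ S) (hq : q ∈ S)
    (l : q ≤ p) : Rb S p := h.via hp hq hp le_rfl l

theorem rb_xp (hm : Mono A z) (hc : CondP A z) {p : Lv A z} (hp : p ∈ Xp A z) :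
    Rb (Xp A z) p := by
  have d : ∀ x ∈ p.1.1.1, Dp A x p.1.1.top := fun x hx => p.2.1.dp hx p.1.1.top_mem (Ch.le_top hx)
  have e : ∀ x ∈ p.1.1.1, z p.1.1.bot p.1.1.top = z p.1.1.bot x + z x p.1.1.top := fun x hx =>
    hz.coc.add' p.2.1 p.1.1.bot_mem hx p.1.1.top_mem (Ch.bot_le hx) (Ch.le_top hx)
  have := p.2.2.2
  by_cases k : ∃ a ∈ p.1.1.1, a ∈ A ∧ z p.1.1.bot a ≤ p.1.2
  · obtain ⟨a, a1, a2, a3⟩ := k
    have := e a a1
    exact rb_face (rb_pp hm hc a2 hp.2 (d a a1) (k := p.1.2 - z p.1.1.bot a) (by omega) (by omega))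
      hp (by simp [mem_xp, a2, hp.2]) (ec_le a1 p.1.1.top_mem (by omega))
  · have b0 := dom_zero (z := z) p.2.1 p.1.1.bot_mem
    have hb : p.1.1.bot ∉ A := fun j => k ⟨_, p.1.1.bot_mem, j, b0.trans_le p.2.2.1⟩
    exact rb_of (q := ec (d _ p.1.1.bot_mem) p.2.2.1 this) hp (by simp [mem_la, hb, hp.2]) hp hp.1
      le_rfl (ec_le p.1.1.bot_mem p.1.1.top_mem (by omega))

theorem rb_xm (hm : Mono A z) (hj : JK A z) (hc : CondM A z) {p : Lv A z} (hp : p ∈ Xm A z)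
    (ht : p.1.1.top ∈ A) : Rb (Xm A z) p := by
  have := p.2.2.1
  have := p.2.2.2
  have := hj _ _ (Or.inl ht) p.1.1.bot_le_top
  have b0 := dom_zero (z := z) p.2.1 p.1.1.bot_mem
  exact rb_face (rb_pm hm hj (hc _ ht _ hp.2 p.1.1.bot_le_top) ht hp.2 p.2.1.bt (by omega)) hp
    (by simp [mem_xm, ht, hp.2]) (ec_le p.1.1.bot_mem p.1.1.top_mem (by omega))

theorem Rb.cmp {S D : Set (Lv A z)} (hS : S ⊆ LA A z) (hD : IsCmp (LA A z) D) {p : Lv A z}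
    (hp : p ∈ D ∩ S) (h : Rb S p) : ∃ r ∈ D ∩ S, r ∈ LB A z ∧ Rch (D ∩ S) p r :=
  let ⟨r, r1, r2⟩ := h
  have k := Rch.in_clopen (C := D ∩ S) (fun _ hx _ hy l => ⟨hD.clopen hx.1 (hS hy) l, hy⟩) hp r2
  ⟨r, k.mem hp, r1, k⟩

/-- a boundary cell under `p` with the same top -/
theorem exists_off (hm : Mono A z) {p : Lv A z} (hp : p ∈ LB A z) (ht : p.1.1.top ∉ A) :
    ∃ q, q ∉ LA A z ∧ q ≤ p ∧ q.1.1.top = p.1.1.top := by
  obtain ⟨-, q, q1, q2⟩ := hp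
  have ne : ∃ x ∈ p.1.1.1, x ∉ A := ⟨_, p.1.1.top_mem, ht⟩
  have l := le_offA (h := ne) q1 (Lv.ch_le q2)
  obtain ⟨r, r1, r2⟩ := Lv.exists_ge hm q (p.2.1.mono offA_le) l
  refine ⟨r, show ¬ Mt A r.1.1 from r1 ▸ offA_not,
    Sf30.lv_le_of_ge r2 q2 (r1 ▸ offA_le), r1 ▸ Ch.top_eq (mem_offA.2 ⟨p.1.1.top_mem, ht⟩)
      fun x hx => Ch.le_top (mem_offA.1 hx).1⟩

theorem top_op {p : Lv A z} (hp : p ∈ Xp A z) : p.1.1.top ∈ Op A :=
  let ⟨⟨a, a1, a2⟩, h⟩ := hp; ⟨h, a, a2, Ch.le_top a1⟩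

/-- the collar of `R₊` in a disc of index zero is connected -/
theorem conn_xp (hA : A.OrdConnected) (hM : Mf 3 A) (hN : Nice A) (hm : Mono A z) (hc : CondP A z)
    {D : Set (Lv A z)} (hD : IsCmp (LA A z) D) (h1 : chiC D = 1) (h2 : nm A (cnt (dn D)) ≤ 1) :
    Conn (D ∩ Xp A z) := by
  have k : ∀ p ∈ D ∩ Xp A z, ∃ r, Rch (D ∩ Xp A z) p r ∧ r ∈ LA A z ∧
      ∃ q ∈ {q | q ∈ Bd D ∧ q.1.1.top ∉ Om A}, q ≤ r := fun p hp => by
    obtain ⟨r, r1, r2, r3⟩ := (rb_xp hm hc hp.2).cmp (fun _ j => j.1) hD hp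
    obtain ⟨q, q1, q2, q3⟩ := exists_off hm r2 r1.2.2
    exact ⟨r, r3, r1.2.1, q, ⟨⟨q1, r, r1.1, q2⟩, fun j => Alg36.om_op hA j (q3 ▸ top_op r1.2)⟩, q2⟩
  intro p hp p' hp'
  obtain ⟨r, r1, r2, q, q1, q2⟩ := k p hp
  obtain ⟨r', s1, s2, q', s3, s4⟩ := k p' hp'
  refine (r1.trans (rch_cof hN hm (S := D ∩ Xp A z) (fun a ha u hu l => ⟨?_, hu, ?_⟩) q1
    (conn_bp hA hM hN hm hD h1 h2 q q1 q' s3) r2 q2 r' s2 s4)).trans s1.symm
  · exact (mem_dn (fun _ i _ j => hD.clopen i j) hu).1 ((sat_cmp hN hm hD a u l).1 ha.1.2)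
  · exact (op_up hA ((Alg36.cases_of_mt hu (Lv.ch_le l a.1.1.top_mem) (off_bt ha.1.1).2).resolve_left
      ha.2) (Ch.top_mono (Lv.ch_le l))).1

theorem nm_le (h0 : idx A z = 0) {D : Set (Lv A z)} (hD : IsCmp (LA A z) D) :
    nm A (cnt (dn D)) ≤ 1 := by
  have := sum_eq_zero_iff.1 h0 D (Sf30.mem_cs.2 hD)
  omega

theorem yc_dn (hA : A.OrdConnected) {p q : Lv A z} (hp : p ∈ Yc A z) (hq : q ∈ LA A z)
    (l : q ≤ p) : q ∈ Yc A z :=
  let ⟨_, a1, a2⟩ := hq; hA.out a2 hp ⟨Ch.le_top a1, Ch.top_mono (Lv.ch_le l)⟩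

theorem xp_upper (hA : A.OrdConnected) : IsUpperSet (Xp A z) := fun _ _ l hp =>
  ⟨LA.upper hp.1 l, fun k => hp.2 (yc_dn hA k hp.1 l)⟩

theorem isCmp_inter {Q : Type} [PartialOrder Q] [Fintype Q] {Y D C : Set Q}
    (hC : IsCmp Y C) (k : C ⊆ D) : IsCmp (D ∩ Y) C :=
  Sf30.isCmp_of (fun _ j => ⟨k j, hC.sub j⟩) hC.ne hC.conn fun _ i _ j l => hC.clopen i j.2 l

theorem chiC_cs {Y : Set (Lv A z)} (hY : Y ⊆ LA A z) :
    chiC Y = ∑ D ∈ Sf30.cs (LA A z), chiC (D ∩ Y) := by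
  have := Sf30.sum_cs (LA A z) fun p => if p ∈ Y then p.1.1.sg else 0
  simp only [← sum_filter, filter_filter] at this
  rw [chiC, show univ.filter (· ∈ Y) = univ.filter fun p => p ∈ LA A z ∧ p ∈ Y from
    filter_congr fun p _ => ⟨fun k => ⟨hY k, k⟩, fun k => k.2⟩, ← this]
  exact sum_congr rfl fun D _ => sum_congr (Finset.ext fun _ => by simp) fun _ _ => rfl

theorem card_cs {Y : Set (Lv A z)} (hY : Y ⊆ LA A z) {J : Finset (Set (Lv A z))}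
    (hJ : J ⊆ Sf30.cs Y) : J.card ≤ ∑ D ∈ Sf30.cs (LA A z), (J.filter (· ⊆ D)).card := by
  refine le_trans (card_le_card fun C hC => ?_) card_biUnion_le
  have k := Sf30.mem_cs.1 (hJ hC)
  obtain ⟨p, hp⟩ := k.ne
  exact mem_biUnion.2 ⟨_, Sf30.mem_cs.2 (isCmp_cmp (hY (k.sub hp))), mem_filter.2 ⟨hC, fun q hq =>
    ⟨hY (k.sub hq), (k.conn p hp q hq).mono (k.sub.trans hY)⟩⟩⟩

/-- the planar inequality in a disc; `G` is a connected open part -/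
theorem disc_planar (hM : Mf 3 A) (hm : Mono A z) {D G H : Set (Lv A z)} (hD : IsCmp (LA A z) D)
    (hT : Tch A z D) (h1 : chiC D = 1) (hc : Sf30.Col D G H) (hU : IsUpperSet G) (hG : Conn G)
    (hn : G.Nonempty) : (((Sf30.cs H).filter (Sf30.Inn D)).card : ℤ) ≤ chiC H := by
  obtain ⟨p, p1, q, q1, q2⟩ := hT
  have := planar ((Sf30.mf_LA hM hm).mono hD.sub) hc hD.conn
    ⟨p, p1, q, fun k => q1 (hD.sub k), Or.inr q2⟩ hG hn
  have e := chiC_union hc.dj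
  rw [hc.un, h1, ← eu_upper hM hm (hc.l.trans hD.sub) hU] at e
  omega

theorem phi_one (hA : A.OrdConnected) (hM : Mf 3 A) (hN : Nice A) (hm : Mono A z) (hc : CondP A z)
    {D : Set (Lv A z)} (hD : IsCmp (LA A z) D) (hT : Tch A z D) (h1 : chiC D = 1)
    (h2 : nm A (cnt (dn D)) ≤ 1) : (((J1 A z).filter (· ⊆ D)).card : ℤ) +
      ((J2 A z).filter (· ⊆ D)).card ≤ chiC (D ∩ Yc A z) := by
  have all : ∀ Y, IsCmp (Yc A z) Y → Y ⊆ D → (∀ p ∈ Y, ∀ q ∈ D, p ≤ q → q ∈ Yc A z) → D ⊆ Y :=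
    fun Y hY k j q hq => by
      obtain ⟨p, hp⟩ := hY.ne
      exact (hD.conn p (k hp) q hq).ind (p := (· ∈ Y)) hp fun a ha b hb l =>
        ⟨fun i => hY.clopen i (j a i b hb l) (Or.inl l),
          fun i => hY.clopen i (yc_dn hA (hY.sub i) (hD.sub ha) l) (Or.inr l)⟩
  by_cases hn : (D ∩ Xp A z).Nonempty
  · have := disc_planar hM hm (G := D ∩ Xp A z) (H := D ∩ Yc A z) hD hT h1
      ⟨Set.ext fun p => ⟨fun k => k.elim (·.1) (·.1), fun k => or_iff_not_imp_right.2 fun j =>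
        ⟨k, hD.sub k, fun i => j ⟨k, i⟩⟩⟩, Set.disjoint_left.2 fun _ i j => i.2.2 j.2⟩
      ((hD.upper Sf30.la_upper).inter (xp_upper hA)) (conn_xp hA hM hN hm hc hD h1 h2) hn
    have a1 : ((J1 A z).filter (· ⊆ D)).card ≤
        ((Sf30.cs (D ∩ Yc A z)).filter (Sf30.Inn D)).card := card_le_card fun Y hY => by
      obtain ⟨k1, k2⟩ := mem_filter.1 hY
      obtain ⟨k3, k4⟩ := mem_filter.1 k1
      exact mem_filter.2 ⟨Sf30.mem_cs.2 (isCmp_inter (Sf30.mem_cs.1 k3) k2), fun p hp q l =>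
        hD.clopen (k2 hp) (l.elim (LA.upper (hD.sub (k2 hp))) (k4 p hp q)) l⟩
    rw [filter_false_of_mem (s := J2 A z) fun Y hY k => ?_, card_empty]
    · omega
    obtain ⟨k3, k4⟩ := mem_filter.1 hY
    obtain ⟨p, p1, p2⟩ := hn
    exact p2.2 ((Sf30.mem_cs.1 k3).sub (all Y (Sf30.mem_cs.1 k3) k (fun a ha b _ => k4 a ha b) p1))
  · have sub : D ⊆ Yc A z := fun p hp => by_contra fun k => hn ⟨p, hp, hD.sub hp, k⟩
    have a2 : ((J2 A z).filter (· ⊆ D)).card ≤ 1 := card_le_one.2 fun Y hY Y' hY' => by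
      have k : ∀ Y ∈ (J2 A z).filter (· ⊆ D), Y = D := fun Y hY =>
        (mem_filter.1 hY).2.antisymm (all Y (Sf30.mem_cs.1 (mem_filter.1 (mem_filter.1 hY).1).1)
          (mem_filter.1 hY).2 fun _ _ _ i _ => sub i)
      rw [k Y hY, k Y' hY']
    rw [filter_false_of_mem (s := J1 A z) fun Y hY k => ?_, card_empty, Set.inter_eq_left.2 sub, h1]
    · omega
    obtain ⟨k3, k4⟩ := mem_filter.1 hY
    obtain ⟨p, p1, q, q1, q2⟩ := hT
    exact q1 (k4 p (all Y (Sf30.mem_cs.1 k3) k (fun _ _ _ i _ => sub i) p1) q q2)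

theorem phiStmt : PhiStmt := fun s z _ hs nf h h0 => by
  have a1 := card_cs (J := J1 s.A z) (fun _ => yc_la) (filter_subset _ _)
  have a2 := card_cs (J := J2 s.A z) (fun _ => yc_la) (filter_subset _ _)
  have a3 := sum_le_sum fun D hD => phi_one hs.conv hs.mf hs.nice h.sf.mono nf.cp
    (Sf30.mem_cs.1 hD) (h.sf.noCl D (Sf30.mem_cs.1 hD)) (h.disc D (Sf30.mem_cs.1 hD))
    (nm_le h0 (Sf30.mem_cs.1 hD))
  rw [sum_add_distrib, ← chiC_cs fun _ => yc_la, ← Nat.cast_sum, ← Nat.cast_sum] at a3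
  omega

end Crest.Agent.X212.Ind26
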