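import Crest.Agent.X212.Ind26.Count

/-!
# X212 / Ind26 (helper26): dropping the discs that cut off a source or a sink
-/

set_option autoImplicit false
set_option linter.unusedSectionVars false

open Finset Classical

noncomputable section

namespace Crest.Agent.X212.Ind26

open Hp13 Cut21
open Alg36 (Om Op Esc)

section

variable {P : Type} [PartialOrder P] [Fintype P] {A : Set P} {z : P → P → ℤ}
  {T U : Set (Lv A z)}

theorem cnt_congr {x y : P} (l : x ≤ y)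
    (h : ∀ q : Lv A z, q.1.1 = Ch.pr x y l → (q ∈ T ↔ q ∈ U)) : cnt T x y = cnt U x y := by
  rw [cnt, cnt, dif_pos l, dif_pos l, nlev, nlev, filter_congr (p := lev T _) (q := lev U _)
    fun k _ => exists_congr fun q => ⟨fun j => ⟨(h q j.2.1).1 j.1, j.2⟩, fun j => ⟨(h q j.2.1).2 j.1, j.2⟩⟩]

theorem cnt_split (T U : Set (Lv A z)) : cnt T = cnt (T ∩ U) + cnt (T \ U) := by
  funext x y
  simp only [Pi.add_apply, cnt]
  split_ifs with l
  swap
  · rfl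
  rw [nlev, nlev, nlev, ← card_filter_add_card_filter_not (lev U (Ch.pr x y l)), filter_filter,
    filter_filter, Nat.cast_add]
  refine congrArg₂ _ (congrArg _ (congrArg _ (filter_congr fun k _ => ?_)))
    (congrArg _ (congrArg _ (filter_congr fun k _ => ?_)))
  · exact ⟨fun ⟨⟨q, a, b, c⟩, q', a', b', c'⟩ =>
      ⟨q, ⟨a, Lv.ext (b'.trans b.symm) (c'.trans c.symm) ▸ a'⟩, b, c⟩,
      fun ⟨q, a, b⟩ => ⟨⟨q, a.1, b⟩, q, a.2, b⟩⟩
  · exact ⟨fun ⟨⟨q, a, b⟩, j⟩ => ⟨q, ⟨a, fun i => j ⟨q, i, b⟩⟩, b⟩,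
      fun ⟨q, a, b, c⟩ => ⟨⟨q, a.1, b, c⟩, fun ⟨q', a', b', c'⟩ =>
        a.2 (Lv.ext (b'.trans b.symm) (c'.trans c.symm) ▸ a')⟩⟩

theorem cnt_empty : cnt (∅ : Set (Lv A z)) = 0 := by
  funext x y
  simp [cnt, nlev, lev]

theorem cnt_one {x y : P} (hp : Dp A x y) (h : 0 < z x y) (h1 : ec hp le_rfl h ∈ T)
    (h2 : ∀ q ∈ T, q.1.1 = Ch.pr x y hp.1 → q.1.2 = 0) : cnt T x y = 1 := by
  rw [cnt, dif_pos hp.1, nlev, show (Ico 0 (z x y)).filter (lev T (Ch.pr x y hp.1)) = {0} from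
    eq_singleton_iff_unique_mem.2 ⟨mem_filter.2 ⟨mem_Ico.2 ⟨le_rfl, h⟩, _, h1, rfl, rfl⟩,
      fun k hk => let ⟨q, a, b, c⟩ := (mem_filter.1 hk).2; c ▸ h2 q a b⟩]
  rfl

theorem spn_zero : Spn A z 0 := cb_zero (G := ℤ) (P := P) ▸ Spn.cb 0

theorem sat_inter (h : Sat T) (h' : Sat U) : Sat (T ∩ U) := fun p q k =>
  and_congr (h p q k) (h' p q k)

theorem nm_congr {u v : P → P → ℤ} (h : EqD A u v) : nm A u = nm A v :=
  sum_congr rfl fun c hc => by rw [h _ _ (dp_om (mem_filter.1 hc).2 c.bot_le_top)]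

variable [hz : IsCoc A z]

/-- the cells of `T` as cells of `cnt U` -/
def prI (U T : Set (Lv A z)) : Set (Lv A (cnt U)) := {p | ∃ q ∈ T, PR U q p}

section
variable (hU : Sat U) (hm : Mono A z) [IsCoc A (cnt U)]
include hU hm

theorem mem_prI {q : Lv A z} {p : Lv A (cnt U)} (k : PR U q p) : p ∈ prI U T ↔ q ∈ T :=
  ⟨fun ⟨_, h1, h2⟩ => (hU.lr hm).symm.uniq h2 k ▸ h1, fun h => ⟨q, h, k⟩⟩

theorem sat_prI (hT : Sat T) : Sat (prI U T) := fun p p' l => by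
  obtain ⟨q, k⟩ := hU.exists_pr' hm p
  obtain ⟨q', k'⟩ := hU.exists_pr' hm p'
  rw [mem_prI hU hm k, mem_prI hU hm k']
  exact hT q q' (((hU.lr hm).le_iff k k').2 l)

theorem cnt_prI (hT : T ⊆ U) : EqD A (cnt (prI U T)) (cnt T) := fun x y hp => by
  show (if h : x ≤ y then nlev _ (Ch.pr x y h) 0 (cnt U x y) else 0) =
    if h : x ≤ y then nlev T (Ch.pr x y h) 0 (z x y) else 0
  rw [dif_pos hp.1, dif_pos hp.1, nlev, nlev]
  congr 1
  symm
  refine card_bij (fun k _ => nlev U (Ch.pr x y hp.1) 0 k) (fun k hk => ?_)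
    (fun k hk k' hk' e => ?_) fun j hj => ?_
  · obtain ⟨q, a, b, rfl⟩ := (mem_filter.1 hk).2
    obtain ⟨p, k⟩ := hU.exists_pr hm (hT a)
    have := p.2.2
    rw [k.2.1, k.2.2, b, Ch.top_pr, Ch.bot_pr] at this
    exact mem_filter.2 ⟨mem_Ico.2 this, p, ⟨q, a, k⟩, k.2.1.trans b, b ▸ k.2.2⟩
  · obtain ⟨q, a, b, rfl⟩ := (mem_filter.1 hk).2
    obtain ⟨q', a', b', rfl⟩ := (mem_filter.1 hk').2
    rcases lt_trichotomy q.1.2 q'.1.2 with l | l | l
    · exact absurd e (nlev_lt _ q.2.2.1 l ⟨q, hT a, b, rfl⟩).ne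
    · exact l
    · exact absurd e (nlev_lt _ q'.2.2.1 l ⟨q', hT a', b', rfl⟩).ne'
  · obtain ⟨p, ⟨q, a, k⟩, b, rfl⟩ := (mem_filter.1 hj).2
    have e := k.2.1.symm.trans b
    have := q.2.2
    rw [e, Ch.top_pr, Ch.bot_pr] at this
    exact ⟨q.1.2, mem_filter.2 ⟨mem_Ico.2 this, q, a, e, rfl⟩, e ▸ k.2.2.symm⟩

theorem spn_sub (hT : Sat T) (k : T ⊆ U) : Spn A (cnt U) (cnt T) :=
  (Spn.part (sat_prI hU hm hT)).congr (cnt_prI hU hm k).symm

/-- the components of a subsystem -/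
theorem cmp_sub' (hN : Nice A) {D' : Set (Lv A (cnt U))} (h : IsCmp (LA A (cnt U)) D') :
    ∃ D, IsCmp (LA A z) D ∧ EqD A (cnt (dn D')) (cnt (dn D)) := by
  have L := hU.lr hm
  obtain ⟨p, hp, rfl⟩ := h
  obtain ⟨q, k⟩ := hU.exists_pr' hm p
  have hq := (L.la k).2 hp
  have hD := isCmp_cmp hq
  have sub : dn (Hp13.cmp (LA A z) q) ⊆ U := fun a ⟨b, b1, b2⟩ =>
    (hU a b b2).2 ((hU.rch k.1 b1.2).mem ⟨hq, k.1⟩).2
  refine ⟨_, hD, EqD.trans (fun x y j => cnt_congr j.1 fun r _ => ?_) (cnt_prI hU hm sub)⟩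
  obtain ⟨r', r1, r2⟩ := Lv.exists_la mono_cnt r
  obtain ⟨t, kt⟩ := hU.exists_pr' hm r'
  rw [sat_cmp hN mono_cnt (isCmp_cmp hp) r r' r2, sat_prI hU hm (sat_cmp hN hm hD) r r' r2,
    mem_prI hU hm kt, mem_dn (fun _ i _ j => (isCmp_cmp hp).clopen i j) r1,
    mem_dn (fun _ i _ j => hD.clopen i j) ((L.la kt).2 r1)]
  exact and_congr (L.la kt).symm (hU.rch_iff hm k kt).symm

end

theorem chi_dn (hN : Nice A) (hm : Mono A z) {D : Set (Lv A z)} (hD : IsCmp (LA A z) D) :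
    chi A (cnt (dn D)) = chiC D := by
  rw [(sat_cmp hN hm hD).chi hm, show LA A z ∩ dn D = D from Set.ext fun p =>
    ⟨fun k => (mem_dn (fun _ i _ j => hD.clopen i j) k.1).1 k.2,
      fun k => ⟨hD.sub k, p, k, Or.inl rfl⟩⟩]

theorem DS.chi_nonneg (h : DS A z) : 0 ≤ chi A z := by
  rw [chi_eq_chiC h.sf.mono, chiC_cs subset_rfl]
  refine sum_nonneg fun D hD => ?_
  rw [Set.inter_eq_left.2 (Sf30.mem_cs.1 hD).sub, h.disc D (Sf30.mem_cs.1 hD)]
  exact zero_le_one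

theorem br_sub (hU : Sat U) (hm : Mono A z) (hj : JO A z) (h : BR A z) : BR A (cnt U) := by
  intro o ho y hy l k
  have le := fun y (hy : y ∈ Om A) (l : o ≤ y) => cnt_le (T := U) hm (dp_om hy l)
  have c := h o ho y hy l (k.trans_le (le y hy l))
  rwa [show {y | y ∈ Om A ∧ o ≤ y ∧ 0 < cnt U o y} = {y | y ∈ Om A ∧ o ≤ y ∧ 0 < z o y} from
    Set.ext fun v => ⟨fun j => ⟨j.1, j.2.1, j.2.2.trans_le (le v j.1 j.2.1)⟩, fun j =>
      ⟨j.1, j.2.1, (c.conn y ⟨hy, l, k.trans_le (le y hy l)⟩ v j).ind (p := fun t => 0 < cnt U o t)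
        k fun a ha b hb l' => ?_⟩⟩]
  obtain ⟨-, e, he, i⟩ := id hb.1
  have t := tri_hi he ha.2.1 l' i
  have := t.add (hU.coc hm)
  have := t.add hz.coc
  have := cnt_nonneg (T := U) a b
  have := cnt_le (T := U) hm t.d23
  have := hj o b hb.1 hb.2.1
  have := ha.2.2
  omega

/-- drop one disc of a null-cohomologous part -/
theorem drop1 (hM : Mf 3 A) (hN : Nice A) (hB : Bnd ℤ A) (h : DS A z)
    (h0 : idx A z = 0) (hj : JO A z) (hb : BR A z) {K : Set (Lv A z)}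
    (hK : ∀ p q, p ∉ LA A z → q ∉ LA A z → p ≤ q → (p ∈ K ↔ q ∈ K)) {q₀ : Lv A z}
    (h1 : q₀ ∉ LA A z) (h2 : q₀ ∈ K) {g : P → ℤ}
    (hg : ∀ x y, Dp A x y → x ∉ A → y ∉ A → cnt K x y = g y - g x) :
    ∃ (w : P → P → ℤ) (_ : IsCoc A w), DS A w ∧ idx A w = 0 ∧ JO A w ∧ BR A w ∧
      chi A w < chi A z := by
  have hm := h.sf.mono
  let C := {p | p ∈ LA A z ∧ ∃ q ∈ K, q ∈ Bd (Hp13.cmp (LA A z) p)}
  have cl : ∀ p ∈ C, ∀ q ∈ LA A z, Cm p q → q ∈ C := fun p hp q hq l =>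
    ⟨hq, cmp_eq (Rch.of_cm hp.1 hq l) ▸ hp.2⟩
  have sC : Sat (dn C) := hN.sat hm (fun _ k => k.1) cl
  have eK : ∀ q, q ∉ LA A z → (q ∈ dn C ↔ q ∈ K) := fun q hq => by
    refine ⟨fun ⟨p, ⟨p1, r, r1, r2⟩, l⟩ => ?_, fun k => ?_⟩
    · have hD := isCmp_cmp p1
      exact (conn_bd hM hm hD (h.disc _ hD) r r2 q ⟨hq, p, mem_cmp_self p1, l⟩).ind
        (p := (· ∈ K)) r1 fun a ha b hb => hK a b ha.1 hb.1
    · obtain ⟨p, p1, p2⟩ := Lv.exists_la hm q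
      exact ⟨p, ⟨p1, q, k, hq, p, mem_cmp_self p1, p2⟩, p2⟩
  obtain ⟨g', -, e⟩ := Alg36.Bnd.eqD_cb hB (sC.coc hm) (g := g) fun x y hp hx hy =>
    (cnt_congr hp.1 fun q k => eK q (by simp [mem_la, k, hx, hy])).trans (hg x y hp hx hy)
  obtain ⟨p, p1, p2⟩ := Lv.exists_la hm q₀
  have hD := isCmp_cmp p1
  set D := Hp13.cmp (LA A z) p
  have sD := sat_cmp hN hm hD
  have hU := sD.compl
  have : IsCoc A (cnt (dn D)ᶜ) := ⟨hU.coc hm⟩
  have all : ∀ T, Sat T → p ∈ T → dn D ⊆ T := fun T hT k a ⟨b, b1, b2⟩ =>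
    (hT a b b2).2 ((hT.rch k b1.2).mem ⟨p1, k⟩).2
  have out : ∀ T, Sat T → Spn A (cnt (dn D)ᶜ) (cnt (T \ dn D)) := fun T hT =>
    spn_sub hU hm (sat_inter hT hU) fun _ k => k.2
  have sp : Spn A (cnt (dn D)ᶜ) (cnt (dn D)) := by
    have := cnt_split (dn C) (dn D)
    rw [Set.inter_eq_right.2 (all _ sC ((sC q₀ p p2).1 ((eK q₀ h1).2 h2)))] at this
    exact ((Spn.cb g').add (out _ sC).neg).congr fun x y j => by
      have := congrFun₂ this x y
      have := e x y j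
      simp only [Pi.add_apply, Pi.neg_apply] at *
      omega
  refine ⟨_, this, ⟨hU.sf hm (by simp [Hp13.noCl_iff.1 h.sf.noCl]), fun D' k => ?_, fun u hu => ?_⟩,
    sum_eq_zero fun D' k => ?_, fun x y hy l => (cnt_le hm (dp_om hy l)).trans (hj x y hy l),
    br_sub hU hm hj hb, ?_⟩
  · obtain ⟨E, k1, k2⟩ := cmp_sub' hU hm hN k
    rw [← chi_dn hN mono_cnt k, chi_congr k2, chi_dn hN hm k1, h.disc E k1]
  · have sp' := h.span u hu
    clear hu
    induction sp' with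
    | @part T hT =>
      rw [cnt_split T (dn D)]
      refine Spn.add ?_ (out T hT)
      by_cases k : p ∈ T
      · rwa [Set.inter_eq_right.2 (all T hT k)]
      · rw [show T ∩ dn D = ∅ from Set.eq_empty_of_forall_notMem fun a j =>
          all _ hT.compl k j.2 j.1, cnt_empty]
        exact spn_zero
    | cb g => exact .cb g
    | add _ _ i j => exact i.add j
    | neg _ i => exact i.neg
    | congr _ e i => exact i.congr e
  · obtain ⟨E, k1, k2⟩ := cmp_sub' hU hm hN (Sf30.mem_cs.1 k)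
    have := nm_le h0 k1
    rw [nm_congr k2]
    omega
  · have := chi_congr (cnt_add_compl (T := dn D) hm)
    rw [chi_add, chi_dn hN hm hD, h.disc D hD] at this
    omega

theorem cnt_zero {x y : P} (hm : Mono A z) (hp : Dp A x y) (e : z x y = 0) : cnt T x y = 0 :=
  le_antisymm (e ▸ cnt_le hm hp) (cnt_nonneg x y)

/-- the boundary cells around a source or a sink -/
def Nul (A : Set P) (z : P → P → ℤ) [IsCoc A z] : Prop := ∃ K : Set (Lv A z),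
  (∀ p q, p ∉ LA A z → q ∉ LA A z → p ≤ q → (p ∈ K ↔ q ∈ K)) ∧ (∃ q, q ∉ LA A z ∧ q ∈ K) ∧
    ∃ g : P → ℤ, ∀ x y, Dp A x y → x ∉ A → y ∉ A → cnt K x y = g y - g x

theorem nul_src (hA : A.OrdConnected) (hm : Mono A z) (hn : NC A (Rp A)) (h : ¬ CP A z) :
    Nul A z := by
  let V := {o | o ∈ Op A ∧ ¬ RP A z o}
  have dn : ∀ {x o}, o ∈ V → Dp A x o → x ∉ A → x ∈ V ∧ z x o = 0 := fun {x o} ho hp hx => by
    obtain ⟨l, a, ha, c1, c2⟩ := id hp
    have k : x ∈ Op A := ⟨hx, a, ha, c1.resolve_right fun j => ho.2 (.sut hx ha j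
      (c2.resolve_right fun i => Alg36.om_op hA ⟨ho.1.1, a, ha, i⟩ ho.1))⟩
    have e := le_antisymm (not_lt.1 fun j => ho.2 (.low k l j)) (hm _ _ hp)
    exact ⟨⟨k, fun j => ho.2 (.dn k l e j)⟩, e⟩
  have up : ∀ {o p}, o ∈ V → o ≤ p → z o p = 0 → p ∈ V := fun ho l e =>
    ⟨op_up hA ho.1 l, fun j => ho.2 (.up l e j)⟩
  have pos : ∀ {o p}, o ∈ V → o ≤ p → p ∉ V → 0 < z o p := fun ho l k =>
    lt_of_le_of_ne (hm _ _ (dp_op ho.1 l)) fun e => k (up ho l e.symm)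
  refine ⟨{q | q.1.1.bot ∈ V ∧ q.1.2 = 0}, fun p q _ hq l => ?_, ?_, -ind V, fun x y hp hx hy => ?_⟩
  · obtain ⟨l, e⟩ := Lv.le_iff.1 l
    have d := q.2.1.dp q.1.1.bot_mem (l p.1.1.bot_mem) (Ch.bot_anti l)
    have := hm _ _ d
    have := p.2.2.1
    exact ⟨fun k => have := dn k.1 d (off_bt hq).1; ⟨this.1, by have := k.2; omega⟩,
      fun k => have := k.2; ⟨up k.1 d.1 (by omega), by omega⟩⟩
  · simp only [CP, not_forall] at h
    obtain ⟨o, ho, h⟩ := h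
    obtain ⟨x, a, y, r, su⟩ := op_su hA hn ho
    by_contra k
    refine (r.ind (p := (· ∈ V)) ⟨ho, h⟩ fun u hu v hv l =>
      ⟨fun j => by_contra fun i => k ⟨ec (dp_op hu l) le_rfl (pos j l i),
        by simp [mem_la, hu.1, hv.1], by simpa using j, rfl⟩,
        fun j => (dn j (dp_op hu l) hu.1).1⟩).2 (.sut su.1 su.2.1 su.2.2.2.1 su.2.2.2.2)
  · simp only [Pi.neg_apply]
    by_cases a : x ∈ V
    · by_cases b : y ∈ V
      · rw [cnt_zero hm hp (dn b hp hx).2, ind_of_mem a, ind_of_mem b]; rfl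
      · rw [cnt_one (T := {q | q.1.1.bot ∈ V ∧ q.1.2 = 0}) hp (pos a hp.1 b)
          ⟨by simpa using a, rfl⟩ fun _ j _ => j.2, ind_of_mem a, ind_of_not b]; rfl
    · rw [ind_of_not a, ind_of_not fun b => a (dn b hp hx).1]
      by_contra k
      obtain ⟨q, q1, q2⟩ := cnt_ne hp.1 k
      exact a (by simpa [q2] using q1.1)

theorem nul_snk (hA : A.OrdConnected) (hm : Mono A z) (hj : JO A z) (hn : NC A (Rm A))
    (h : ¬ CM A z) : Nul A z := by
  let V := {o | o ∈ Om A ∧ ¬ RM A z o}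
  have up : ∀ {o x}, o ∈ V → Dp A o x → x ∉ A → x ∈ V ∧ z o x = 0 := fun {o x} ho hp hx => by
    obtain ⟨l, a, ha, c1, c2⟩ := id hp
    have k : x ∈ Om A := ⟨hx, a, ha, c2.resolve_left fun j => ho.2 (.sut hx ha j
      (c1.resolve_left fun i => Alg36.om_op hA ho.1 ⟨ho.1.1, a, ha, i⟩))⟩
    have e := le_antisymm (not_lt.1 fun j => ho.2 (.hi k l j)) (hm _ _ hp)
    exact ⟨⟨k, fun j => ho.2 (.up k l e j)⟩, e⟩
  have dn : ∀ {o p}, o ∈ V → p ≤ o → z p o = 0 → p ∈ V := fun ho l e =>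
    ⟨om_dn hA ho.1 l, fun j => ho.2 (.dn l e j)⟩
  have pos : ∀ {o p}, o ∈ V → p ≤ o → p ∉ V → 0 < z p o := fun ho l k =>
    lt_of_le_of_ne (hm _ _ (dp_om ho.1 l)) fun e => k (dn ho l e.symm)
  refine ⟨{q | q.1.1.top ∈ V}, fun p q _ hq l => ?_, ?_, ind V, fun x y hp hx hy => ?_⟩
  · have l := Lv.ch_le l
    have d := q.2.1.dp (l p.1.1.top_mem) q.1.1.top_mem (Ch.top_mono l)
    refine ⟨fun k => (up k d (off_bt hq).2).1, fun k => dn k d.1 ?_⟩
    have := hm _ _ d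
    have := hz.coc.add' q.2.1 (l p.1.1.bot_mem) (l p.1.1.top_mem) q.1.1.top_mem p.1.1.bot_le_top d.1
    have := hj _ _ k.1 (p.1.1.bot_le_top.trans d.1)
    have := lv_pos' p
    omega
  · simp only [CM, not_forall] at h
    obtain ⟨o, ho, h⟩ := h
    obtain ⟨x, a, y, r, su⟩ := om_su hA hn ho
    by_contra k
    refine (r.ind (p := (· ∈ V)) ⟨ho, h⟩ fun u hu v hv l =>
      ⟨fun j => (up j (dp_om hv l) hv.1).1,
        fun j => by_contra fun i => k ⟨ec (dp_om hv l) le_rfl (pos j l i),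
          by simp [mem_la, hu.1, hv.1], by simpa using j⟩⟩).2
      (.sut su.2.2.1 su.2.1 su.2.2.2.2 su.2.2.2.1)
  · by_cases b : y ∈ V
    · by_cases a : x ∈ V
      · rw [cnt_zero hm hp (up a hp hy).2, ind_of_mem a, ind_of_mem b]; rfl
      · rw [cnt_one hp (pos b hp.1 a) (by simpa using b) fun q _ e => ?_, ind_of_mem b,
          ind_of_not a]
        · rfl
        have := q.2.2
        have := hj x y b.1 hp.1
        simp only [e, Ch.top_pr, Ch.bot_pr] at *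
        omega
    · rw [ind_of_not b, ind_of_not fun a => b (up a hp hy).1]
      by_contra k
      obtain ⟨q, q1, q2⟩ := cnt_ne hp.1 k
      exact b (by simpa [q2] using q1)

end

theorem dropStmt : DropStmt := fun s z hz hs h h0 hj hb => by
  obtain ⟨n, hn⟩ : ∃ n : ℕ, chi s.A z < n :=
    ⟨(chi s.A z).toNat + 1, by have := Int.self_le_toNat (chi s.A z); omega⟩
  induction n generalizing z hz with
  | zero => exact absurd h.chi_nonneg (by omega)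
  | succ n ih =>
  by_cases k : CP s.A z ∧ CM s.A z
  · exact ⟨z, hz, h, h0, hj, hb, k.1, k.2⟩
  obtain ⟨K, k1, ⟨q, k2, k3⟩, g, k4⟩ : Nul s.A z := (not_and_or.1 k).elim
    (nul_src hs.conv h.sf.mono hs.sfp.nc) (nul_snk hs.conv h.sf.mono hj hs.sfm.nc)
  obtain ⟨w, hw, a1, a2, a3, a4, a5⟩ := drop1 hs.mf hs.nice hs.bnd h h0 hj hb k1 k2 k3 k4
  exact ih w hw a1 a2 a3 a4 (by omega)

/-- BASE from the three transfer statements -/
theorem base_of' (hR : RegStmt) (hI : IsoStmt) (hT : TrStmt) {s : St} (h : Stt s) (h0 : HB s 0) :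
    ∃ (t : St) (f : t.P → s.P) (z : t.P → t.P → ℤ) (s' : St) (π : s'.P → t.P),
      Desc s t f ∧ Adm t z ∧ Cov t s' z π ∧ End s' :=
  base_of hR hI hT phiStmt countStmt dropStmt h h0

end Crest.Agent.X212.Ind26
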