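import Crest.Agent.X212.Ind26.Brg

/-!
# X212 / Ind26 (helper26): a competitor of the cut manifold is glued back along the discs
-/

set_option autoImplicit false
set_option linter.unusedSectionVars false

open Finset Classical

noncomputable section

namespace Crest.Agent.X212.Ind26

open Hp13 Cut21
open Alg36 (Om Op Esc Fb Clo iIn iMt)

section
variable {P : Type} [PartialOrder P] [Fintype P] {A G S : Set P} {z : P → P → ℤ}

theorem sum_int {c d : Ch P} (h : c ≤ d) :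
    ∑ C ∈ univ.filter (fun C : Ch (Ch P) => C.bot = c ∧ C.top = d), C.sg = -(c.sg * d.sg) := by
  have h1 := sum_through c (fun _ => 1) (fun C => if C.top = d then 1 else 0)
    (fun C => if C.top = d then 1 else 0) fun C C₁ C₂ e1 e2 e => by
      have : C.top = C₂.top := Ch.top_eq (e ▸ mem_union_right _ C₂.top_mem) fun x hx => by
        rcases mem_union.1 (e ▸ hx) with k | k
        exacts [(Ch.le_top k).trans (e1.trans e2.symm ▸ C₂.bot_le_top), Ch.le_top k]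
      rw [this, one_mul]
  have h2 := Alg36.Ft_eq (Ch.pt c) (T := d) (by simpa using h)
  have h3 := eps_ch c
  have h4 := c.sg_sq
  simp only [mul_ite, mul_one, mul_zero, ← sum_filter, filter_filter] at h1
  simp only [Alg36.Ft, Ch.pt_le] at h2
  rw [eps, neg_inj] at h3
  rw [h2, h3] at h1
  linear_combination c.sg * h1 - (∑ C ∈ univ.filter
    (fun C : Ch (Ch P) => C.bot = c ∧ C.top = d), C.sg) * h4

theorem sum_bt (F : Ch P → Ch P → ℤ) : ∑ C : Ch (Ch P), C.sg * F C.bot C.top =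
    -∑ d : Ch P, d.sg * ∑ c ∈ univ.filter (· ≤ d), c.sg * F c d := by
  rw [← sum_fiberwise_of_maps_to (s := univ) (t := univ) (g := Ch.top) fun _ _ => mem_univ _,
    ← sum_neg_distrib]
  refine sum_congr rfl fun d _ => ?_
  rw [← sum_fiberwise_of_maps_to (s := univ.filter fun C : Ch (Ch P) => C.top = d)
    (t := univ.filter (· ≤ d)) (g := Ch.bot) fun C hC =>
    mem_filter.2 ⟨mem_univ _, (mem_filter.1 hC).2 ▸ C.bot_le_top⟩, mul_sum, ← sum_neg_distrib]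
  refine sum_congr rfl fun c hc => ?_
  rw [filter_filter, sum_congr rfl (g := fun C => C.sg * F c d) fun C hC => by
    rw [(mem_filter.1 hC).2.1, (mem_filter.1 hC).2.2], ← sum_mul]
  simp only [and_comm (a := Ch.top _ = d)]
  rw [sum_int (mem_filter.1 hc).2]
  ring

/-- the cells with top in `A` -/
def Yc (A : Set P) (z : P → P → ℤ) : Set (Lv A z) := {p | p.1.1.top ∈ A}

@[simp] theorem mem_yc {p : Lv A z} : p ∈ Yc A z ↔ p.1.1.top ∈ A := Iff.rfl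

theorem yc_la {p : Lv A z} (h : p ∈ Yc A z) : p ∈ LA A z := ⟨_, p.1.1.top_mem, h⟩

/-- the glued region -/
def Vg (A : Set P) (z : P → P → ℤ) (G : Set P) : Set (Ch (Ch P)) :=
  {C | C.top.top ∈ A ∧ z C.bot.bot C.bot.top = 0 ∧ (0 < z C.bot.top C.top.top ∨ C.top.top ∈ G)}

/-- flat flags over `S` -/
def Fl (z : P → P → ℤ) (S : Set P) : Set (Ch (Ch P)) :=
  {C | C.top.top ∈ S ∧ ∀ x ∈ C.bot.1, z x C.top.top = 0}

/-- joined in the cut manifold -/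
def Rz (z : P → P → ℤ) (S : Set P) : P → P → Prop :=
  Relation.ReflTransGen fun x y => x ∈ S ∧ y ∈ S ∧ Z0 z x y

variable [hz : IsCoc A z] (hm : Mono A z) (hj : JK A z)

theorem add3 {a x y : P} (ha : a ∈ A) (h1 : x ≤ y) (h2 : y ≤ a) : z x a = z x y + z y a :=
  (tri3 ha h1 h2).add hz.coc

include hm hj in
theorem flat_iff {c : Ch P} {a : P} (ha : a ∈ A) (h : c.top ≤ a) :
    ((z c.bot c.top = 0 ∧ 0 < z c.top a) ↔ ∀ x ∈ c.1, 0 < z x a) ∧
      ((z c.bot c.top = 0 ∧ ¬ 0 < z c.top a) ↔ ∀ x ∈ c.1, z x a = 0) := by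
  have k : ∀ x ∈ c.1, z x a = z x c.top + z c.top a ∧ 0 ≤ z x c.top ∧ z x c.top ≤ z c.bot c.top ∧
      z x a ≤ 1 := fun x hx =>
    ⟨add3 ha (Ch.le_top hx) h, hm _ _ (dp_hi ha (Ch.le_top hx) h), hm.le_range hz.coc
      ⟨a, ha, fun y hy => Or.inr ((Ch.le_top hy).trans h)⟩ hx c.top_mem (Ch.le_top hx),
      hj _ _ (Or.inl ha) ((Ch.le_top hx).trans h)⟩
  have k1 := k _ c.bot_mem
  have k2 := hm _ _ (Dp.of_right ha h)
  refine ⟨⟨fun j x hx => ?_, fun j => ?_⟩, fun j x hx => ?_, fun j => ?_⟩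
  · have := k x hx; omega
  · have := j _ c.top_mem; omega
  · have := k x hx; omega
  · have := j _ c.top_mem; have := j _ c.bot_mem; omega

include hm hj in
theorem ee_Vg (hG : G ⊆ A) : ee (Vg A z G) = ee G - chiC (Yc A z) := by
  have h1 := sum_bt (P := P) fun c d => if d.top ∈ A ∧ z c.bot c.top = 0 ∧
    (0 < z c.top d.top ∨ d.top ∈ G) then 1 else 0
  have h2 := Sf30.sum_lv hm fun c => c.sg * ind A c.top
  have h3 := sum_top (ind G)
  have e1 : chiC (Yc A z) = ∑ p ∈ univ.filter (· ∈ LA A z), p.1.1.sg * ind A p.1.1.top := by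
    rw [chiC, sum_filter, sum_filter]
    refine sum_congr rfl fun p _ => ?_
    by_cases k : p ∈ Yc A z
    · rw [if_pos k, if_pos (yc_la k), ind_of_mem (mem_yc.1 k), mul_one]
    · rw [if_neg k, ind_of_not (mt mem_yc.2 k), mul_zero, ite_self]
  rw [sum_eps_ind] at h3
  rw [ee_ch, e1, h2, sum_filter, sum_filter, ← neg_neg (ee G), ← h3]
  simp only [mul_ite, mul_one, mul_zero] at h1
  rw [sum_congr rfl (g := fun x : Ch (Ch P) => if x.top.top ∈ A ∧ z x.bot.bot x.bot.top = 0 ∧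
    (0 < z x.bot.top x.top.top ∨ x.top.top ∈ G) then x.sg else 0) fun _ _ => by congr, h1,
    neg_neg, ← sum_neg_distrib, ← sum_sub_distrib]
  refine sum_congr rfl fun d _ => ?_
  by_cases hd : d.top ∈ A
  swap
  · simp [hd, ind_of_not hd, ind_of_not fun k => hd (hG k)]
  have k1 := Alg36.sum_iIn d {x | 0 < z x d.top}
  have k2 := Alg36.sum_iIn d {x | z x d.top = 0}
  have k3 : iMt {x | 0 < z x d.top} d = z d.bot d.top := by
    have := hm _ _ (Dp.of_right hd d.bot_le_top)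
    have := hj _ _ (Or.inl hd) d.bot_le_top
    by_cases k : 0 < z d.bot d.top
    · rw [Alg36.iMt_of ⟨_, d.bot_mem, k⟩]; omega
    · rw [Alg36.iMt_not (S := {x | 0 < z x d.top}) fun ⟨x, hx, j⟩ => k (lt_of_lt_of_le j
        (hm.le_range hz.coc (Mt.dom ⟨_, d.top_mem, hd⟩) hx d.top_mem (Ch.le_top hx)))]
      omega
  rw [Alg36.iMt_of ⟨_, d.top_mem, self0 hz.coc hd⟩] at k2
  rw [if_pos ⟨_, d.top_mem, hd⟩, ind_of_mem hd, sum_congr rfl (g := fun c =>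
    c.sg * iIn {x | 0 < z x d.top} c + c.sg * iIn {x | z x d.top = 0} c * ind G d.top)
    fun c hc => ?_, sum_add_distrib, ← sum_mul, k1, k2, k3]
  · ring
  · have := flat_iff hm hj hd (Ch.top_mono (mem_filter.1 hc).2)
    simp only [iIn, Set.mem_ofPred_eq, ← this.1, ← this.2, hd, ind]
    by_cases a : z c.bot c.top = 0 <;> by_cases b : 0 < z c.top d.top <;>
      by_cases e : d.top ∈ G <;> simp [a, b, e]

include hm in
theorem up_Vg (up : ∀ x ∈ G, ∀ y ∈ A, x ≤ y → z x y = 0 → y ∈ G) {C D : Ch (Ch P)}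
    (hC : C ∈ Vg A z G) (hD : D.top.top ∈ A) (h : C ≤ D) : D ∈ Vg A z G := by
  have l1 : D.bot ≤ C.bot := Ch.bot_anti h
  have l2 : C.bot.top ≤ C.top.top := Ch.top_mono C.bot_le_top
  have l3 : C.top.top ≤ D.top.top := Ch.top_mono (Ch.top_mono h)
  have l4 := Ch.top_mono l1
  have a1 := hm.le_range hz.coc (c := C.bot) ⟨_, hC.1, fun y hy => Or.inr ((Ch.le_top hy).trans l2)⟩
    (l1 D.bot.bot_mem) (l1 D.bot.top_mem) D.bot.bot_le_top
  have a2 := hm _ _ (dp_hi hC.1 D.bot.bot_le_top (l4.trans l2))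
  have a3 := add3 (z := z) hD l4 (l2.trans l3)
  have a4 := add3 (z := z) hD l2 l3
  have a5 := hm _ _ (dp_hi hC.1 l4 l2)
  have a6 := hm _ _ (Dp.of_right hC.1 l2)
  have a7 := hm _ _ (Dp.of_right hD l3)
  have a8 := hC.2.1
  refine ⟨hD, by omega, or_iff_not_imp_left.2 fun k => up _ (hC.2.2.resolve_left (by omega)) _ hD l3
    (by omega)⟩

include hm hj in
theorem mem_Vg {C : Ch (Ch P)} (h : C.top.top ∈ A) (k : ∀ x ∈ C.bot.1, 0 < z x C.top.top) :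
    C ∈ Vg A z G :=
  have := (flat_iff hm hj h (Ch.top_mono C.bot_le_top)).1.2 k
  ⟨h, this.1, Or.inl this.2⟩

include hm hj in
theorem fl_in (hG : G ⊆ A) : Fl z G ⊆ Vg A z G := fun C h =>
  ⟨hG h.1, ((flat_iff hm hj (hG h.1) (Ch.top_mono C.bot_le_top)).2.2 h.2).1, Or.inr h.1⟩

include hm hj in
theorem fl_out : Fl z (A \ G) ⊆ A2 A \ Vg A z G := fun C h =>
  ⟨h.1.1, fun k => k.2.2.elim ((flat_iff hm hj h.1.1 (Ch.top_mono C.bot_le_top)).2.2 h.2).2 h.1.2⟩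

theorem fl_pt (hS : S ⊆ A) {a : P} (ha : a ∈ S) : Ch.pt (Ch.pt a) ∈ Fl z S :=
  ⟨by simpa using ha, by simpa using self0 hz.coc (hS ha)⟩

theorem fl_rch (hS : S ⊆ A) {C : Ch (Ch P)} (h : C ∈ Fl z S) :
    Rch (Fl z S) C (Ch.pt (Ch.pt C.top.top)) := by
  have l : C.bot.top ≤ C.top.top := Ch.top_mono C.bot_le_top
  have l1 := le_tp C.bot _ l
  have l2 := tp_le (h := l) C.bot_le_top C.top.top_mem
  have s0 := self0 hz.coc (hS h.1)
  have m1 : Ch.pr _ _ C.bot_le_top ∈ Fl z S := by simpa [Fl] using h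
  have m2 : tri _ _ _ l1 l2 ∈ Fl z S := by simpa [Fl] using h
  have m3 : Ch.pt (tp C.bot _ l) ∈ Fl z S := by simpa [Fl, s0] using h
  have m4 : Ch.pr _ _ (pt_le_tp C.bot _ l) ∈ Fl z S := by simpa [Fl, s0] using h.1
  exact (((Rch.of_cm h m1 (Or.inr (pr_le C.bot_mem C.top_mem))).trans
    (Rch.of_cm m1 m2 (Or.inl (pr_le (by simp) (by simp))))).trans
    (Rch.of_cm m2 m3 (Or.inr (Ch.pt_le.2 (by simp))))).trans
    ((Rch.of_cm m3 m4 (Or.inl (Ch.pt_le.2 (by simp)))).trans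
      (Rch.of_cm m4 (fl_pt hS h.1) (Or.inr (Ch.pt_le.2 (by simp)))))

theorem fl_rz (hS : S ⊆ A) {a b : P} (h : Rz z S a b) :
    Rch (Fl z S) (Ch.pt (Ch.pt a)) (Ch.pt (Ch.pt b)) := by
  have k : ∀ x ∈ S, ∀ y ∈ S, x ≤ y → z x y = 0 →
      Rch (Fl z S) (Ch.pt (Ch.pt x)) (Ch.pt (Ch.pt y)) := fun x hx y hy l e => by
    have m : Ch.pr (Ch.pt x) (Ch.pr x y l) (Ch.pt_le.2 (by simp)) ∈ Fl z S := by simp [Fl, hy, e]
    simpa using (Rch.of_cm (fl_pt hS hx) m (Or.inl (Ch.pt_le.2 (by simp)))).trans (fl_rch hS m)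
  induction h with
  | refl => exact Rch.rfl
  | tail _ j ih =>
    exact ih.trans (j.2.2.elim (fun i => k _ j.1 _ j.2.1 i.1 i.2)
      fun i => (k _ j.2.1 _ j.1 i.1 i.2).symm)

/-- the flag of a cell in the lower layer -/
def wm (p : Lv A z) : Ch (Ch P) := Ch.pt p.1.1

/-- the flag of a cell in the upper layer -/
def wp (p : Lv A z) : Ch (Ch P) := Ch.pr (Ch.pt p.1.1.bot) p.1.1 (Ch.pt_le.2 p.1.1.bot_mem)

theorem lv_pos' (p : Lv A z) : 0 < z p.1.1.bot p.1.1.top := p.2.2.1.trans_lt p.2.2.2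

theorem mem_out {C : Ch (Ch P)} (h : C.top.top ∈ A) (k : 0 < z C.bot.bot C.bot.top) :
    C ∈ A2 A \ Vg A z G := ⟨h, fun j => k.ne' j.2.1⟩

theorem wm_mem {p : Lv A z} (h : p ∈ Yc A z) : wm p ∈ A2 A \ Vg A z G :=
  mem_out (by simpa [wm] using h) (by simpa [wm] using lv_pos' p)

theorem wm_rch {Y : Set (Lv A z)} (hY : Y ⊆ Yc A z) {p q : Lv A z} (h : Rch Y p q) :
    Rch (A2 A \ Vg A z G) (wm p) (wm q) := h.map fun p hp q hq l =>
  have m : Ch.pr _ _ (Lv.ch_le l) ∈ A2 A \ Vg A z G :=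
    mem_out (by simpa using hY hq) (by simpa using lv_pos' p)
  (Rch.of_cm (wm_mem (hY hp)) m (Or.inl (Ch.pt_le.2 (by simp)))).trans
    (Rch.of_cm m (wm_mem (hY hq)) (Or.inr (Ch.pt_le.2 (by simp))))

include hm hj in
theorem low_rch {p : Lv A z} (h : p ∈ Yc A z) {c : Ch P} (l : c ≤ p.1.1)
    (k : ∀ x ∈ c.1, 0 < z x p.1.1.top) : Rch (Vg A z G) (Ch.pr c p.1.1 l) (wp p) := by
  have l0 : p.1.1.bot ≤ c.bot := Ch.bot_anti l
  have l1 := le_bt c _ l0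
  have l2 : bt c _ l0 ≤ p.1.1 := insert_subset p.1.1.bot_mem l
  have l3 : Ch.pt p.1.1.bot ≤ bt c _ l0 := Ch.pt_le.2 (by simp)
  have p0 := lv_pos' p
  have m0 : Ch.pr c p.1.1 l ∈ Vg A z G := mem_Vg hm hj (by simpa using h) (by simpa using k)
  have m1 : tri _ _ _ l1 l2 ∈ Vg A z G := mem_Vg hm hj (by simpa using h) (by simpa using k)
  have m2 : Ch.pr _ _ l2 ∈ Vg A z G := mem_Vg hm hj (by simpa using h) (by simpa [p0] using k)
  have m3 : tri _ _ _ l3 l2 ∈ Vg A z G := mem_Vg hm hj (by simpa using h) (by simpa using p0)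
  have m4 : wp p ∈ Vg A z G := mem_Vg hm hj (by simpa [wp] using h) (by simpa [wp] using p0)
  exact ((Rch.of_cm m0 m1 (Or.inl (pr_le (by simp) (by simp)))).trans
    (Rch.of_cm m1 m2 (Or.inr (pr_le (by simp) (by simp))))).trans
    ((Rch.of_cm m2 m3 (Or.inl (pr_le (by simp) (by simp)))).trans
      (Rch.of_cm m3 m4 (Or.inr (pr_le (by simp) (by simp)))))

include hm hj in
theorem wp_rch {Y : Set (Lv A z)} (hY : Y ⊆ Yc A z) {p q : Lv A z} (h : Rch Y p q) :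
    Rch (Vg A z G) (wp p) (wp q) := h.map fun p hp q hq l => by
  have l1 := Lv.ch_le l
  have l0 : Ch.pt p.1.1.bot ≤ p.1.1 := Ch.pt_le.2 p.1.1.bot_mem
  have p0 := lv_pos' p
  have p1 : 0 < z p.1.1.bot q.1.1.top := by
    have := add3 (z := z) (mem_yc.1 (hY hq)) p.1.1.bot_le_top (Ch.top_mono l1)
    have := hm _ _ (Dp.of_right (mem_yc.1 (hY hq)) (Ch.top_mono l1))
    omega
  have m0 : wp p ∈ Vg A z G := mem_Vg hm hj (by simpa [wp] using hY hp) (by simpa [wp] using p0)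
  have m1 : tri _ _ _ l0 l1 ∈ Vg A z G := mem_Vg hm hj (by simpa using hY hq) (by simpa using p1)
  have m2 : Ch.pr _ _ (l0.trans l1) ∈ Vg A z G :=
    mem_Vg hm hj (by simpa using hY hq) (by simpa using p1)
  exact ((Rch.of_cm m0 m1 (Or.inl (pr_le (by simp) (by simp)))).trans
    (Rch.of_cm m1 m2 (Or.inr (pr_le (by simp) (by simp))))).trans
    (low_rch hm hj (hY hq) _ (by simpa using p1))

/-- the cell of a crossing chain -/
def cel {c : Ch P} (h : c.top ∈ A) (k : 0 < z c.bot c.top) : Lv A z :=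
  ⟨(c, 0), Mt.dom ⟨_, c.top_mem, h⟩, le_rfl, k⟩

/-- the components of `Yc` that do not reach `O₋` -/
def J1 (A : Set P) (z : P → P → ℤ) [IsCoc A z] : Finset (Set (Lv A z)) :=
  (Sf30.cs (Yc A z)).filter fun Y => ∀ p ∈ Y, ∀ q ≤ p, q ∈ LA A z

/-- the components of `Yc` that do not reach `O₊` -/
def J2 (A : Set P) (z : P → P → ℤ) [IsCoc A z] : Finset (Set (Lv A z)) :=
  (Sf30.cs (Yc A z)).filter fun Y => ∀ p ∈ Y, ∀ q, p ≤ q → q ∈ Yc A z

include hm hj in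
theorem r1_Vg (hG : G ⊆ A)
    (R1 : ∀ a ∈ G, ∃ b, Rz z G a b ∧ b ∈ G ∧ ∃ o, b ≤ o ∧ (o ∉ A ∨ 0 < z b o)) :
    ∀ C ∈ Vg A z G, ∃ b, Rch (Vg A z G) C b ∧ ((∃ o : Ch (Ch P), o.top.top ∉ A ∧ b ≤ o) ∨
      ∃ i ∈ (J1 A z).disjSum (J2 A z), b ∈ Sum.elim (wm '' ·) (wp '' ·) i) := by
  have k1 : ∀ C : Ch (Ch P), C ∈ Vg A z G → 0 < z C.bot.top C.top.top →
      ∃ b, Rch (Vg A z G) C b ∧ ((∃ o : Ch (Ch P), o.top.top ∉ A ∧ b ≤ o) ∨
        ∃ i ∈ (J1 A z).disjSum (J2 A z), b ∈ Sum.elim (wm '' ·) (wp '' ·) i) := by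
    intro C hC k
    have l : C.bot.top ≤ C.top.top := Ch.top_mono C.bot_le_top
    have lo := (flat_iff hm hj hC.1 l).1.1 ⟨hC.2.1, k⟩
    let p := cel hC.1 (k.trans_le (hm.le_range hz.coc (Mt.dom ⟨_, C.top.top_mem, hC.1⟩)
      (C.bot_le_top C.bot.top_mem) C.top.top_mem l))
    have hp : p ∈ Yc A z := hC.1
    have r : Rch (Vg A z G) C (wp p) := (Rch.of_cm hC (mem_Vg hm hj (by simpa using hC.1)
      (by simpa using lo)) (Or.inr (pr_le C.bot_mem C.top_mem))).trans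
      (low_rch hm hj hp C.bot_le_top lo)
    by_cases j : Hp13.cmp (Yc A z) p ∈ J2 A z
    · exact ⟨_, r, Or.inr ⟨.inr _, inr_mem_disjSum.2 j, p, mem_cmp_self hp, rfl⟩⟩
    · simp only [J2, mem_filter, Sf30.mem_cs, isCmp_cmp hp, true_and, not_forall] at j
      obtain ⟨q, q1, q', q2, q3⟩ := j
      exact ⟨_, r.trans (wp_rch hm hj subset_rfl q1.2), Or.inl ⟨tri _ _ _
        (Ch.pt_le.2 q.1.1.bot_mem) (Lv.ch_le q2), by simpa using q3, pr_le (by simp) (by simp)⟩⟩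
  intro C hC
  by_cases k : 0 < z (Ch.bot C).top (Ch.top C).top
  · exact k1 C hC k
  have hC' : C ∈ Fl z G := ⟨hC.2.2.resolve_left k,
    (flat_iff hm hj hC.1 (Ch.top_mono (Ch.bot_le_top C))).2.1 ⟨hC.2.1, k⟩⟩
  obtain ⟨b, r, hb, o, l, j⟩ := R1 _ hC'.1
  have r' := ((fl_rch hG hC').trans (fl_rz hG r)).mono (fl_in hm hj hG)
  have l' : Ch.pt b ≤ Ch.pr b o l := Ch.pt_le.2 (by simp)
  by_cases ho : o ∈ A
  · have j := j.resolve_left (not_not.2 ho)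
    have m : Ch.pr _ _ l' ∈ Vg A z G := mem_Vg hm hj (by simpa using ho) (by simpa using j)
    obtain ⟨e, e1, e2⟩ := k1 _ m (by simpa using j)
    exact ⟨e, (r'.trans (Rch.of_cm (fl_in hm hj hG (fl_pt hG hb)) m
      (Or.inl (Ch.pt_le.2 (by simp))))).trans e1, e2⟩
  · exact ⟨_, r', Or.inl ⟨Ch.pr _ _ l', show (Ch.pr _ _ l').top.top ∉ A by simpa using ho,
      Ch.pt_le.2 (by simp)⟩⟩

include hm hj in
theorem r0_Vg (R0 : ∀ a ∈ A \ G, ∃ b, Rz z (A \ G) a b ∧ b ∈ A \ G ∧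
      ∃ o, o ≤ b ∧ (o ∉ A ∨ 0 < z o b)) :
    ∀ C ∈ A2 A \ Vg A z G, ∃ b, Rch (A2 A \ Vg A z G) C b ∧
      ((∃ o : Ch (Ch P), o.top.top ∉ A ∧ o ≤ b) ∨
        ∃ i ∈ (J1 A z).disjSum (J2 A z), b ∈ Sum.elim (wm '' ·) (wp '' ·) i) := by
  have k1 : ∀ p ∈ Yc A z, ∃ b, Rch (A2 A \ Vg A z G) (wm p) b ∧
      ((∃ o : Ch (Ch P), o.top.top ∉ A ∧ o ≤ b) ∨
        ∃ i ∈ (J1 A z).disjSum (J2 A z), b ∈ Sum.elim (wm '' ·) (wp '' ·) i) := by
    intro p hp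
    by_cases j : Hp13.cmp (Yc A z) p ∈ J1 A z
    · exact ⟨_, Rch.rfl, Or.inr ⟨.inl _, inl_mem_disjSum.2 j, p, mem_cmp_self hp, rfl⟩⟩
    · simp only [J1, mem_filter, Sf30.mem_cs, isCmp_cmp hp, true_and, not_forall] at j
      obtain ⟨q, q1, q', q2, q3⟩ := j
      have m : Ch.pr _ _ (Lv.ch_le q2) ∈ A2 A \ Vg A z G :=
        mem_out (by simpa using q1.1) (by simpa using lv_pos' q')
      exact ⟨_, (wm_rch subset_rfl q1.2).trans (Rch.of_cm (wm_mem q1.1) m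
        (Or.inl (Ch.pt_le.2 (by simp)))), Or.inl ⟨wm q',
          by simpa [wm] using fun k => q3 (yc_la k), Ch.pt_le.2 (by simp)⟩⟩
  intro C hC
  have hA : (Ch.top C).top ∈ A := hC.1
  have l : (Ch.bot C).top ≤ (Ch.top C).top := Ch.top_mono (Ch.bot_le_top C)
  by_cases k : z (Ch.bot C).bot (Ch.bot C).top = 0
  swap
  · have k := lt_of_le_of_ne (hm _ _ (dp_hi hA (Ch.bot C).bot_le_top l)) (Ne.symm k)
    let p := cel hA (k.trans_le (hm.le_range hz.coc (Mt.dom ⟨_, (Ch.top C).top_mem, hA⟩)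
      (Ch.bot_le_top C (Ch.bot C).bot_mem) (Ch.bot_le_top C (Ch.bot C).top_mem)
      (Ch.bot C).bot_le_top))
    obtain ⟨b, r, e⟩ := k1 p hA
    exact ⟨b, (Rch.of_cm hC (wm_mem (p := p) hA) (Or.inr (Ch.pt_le.2 (Ch.top_mem C)))).trans r, e⟩
  have hC' : C ∈ Fl z (A \ G) := ⟨⟨hA, fun j => hC.2 ⟨hA, k, Or.inr j⟩⟩,
    (flat_iff hm hj hA l).2.1 ⟨k, fun j => hC.2 ⟨hA, k, Or.inl j⟩⟩⟩
  obtain ⟨b, r, hb, o, l, j⟩ := R0 _ hC'.1
  have r' := (fl_rch Set.sdiff_subset hC').trans (fl_rz Set.sdiff_subset r)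
  by_cases ho : 0 < z o b
  · have l' : Ch.pt b ≤ Ch.pr o b l := Ch.pt_le.2 (by simp)
    have m : Ch.pr _ _ l' ∈ Fl z (A \ G) := by
      simpa [Fl, self0 hz.coc hb.1] using hb
    let p := cel (z := z) (c := Ch.pr o b l) (by simpa using hb.1) (by simpa using ho)
    have hp : p ∈ Yc A z := show (Ch.pr o b l).top ∈ A by simpa using hb.1
    obtain ⟨e, e1, e2⟩ := k1 p hp
    exact ⟨e, (((r'.trans (Rch.of_cm (fl_pt Set.sdiff_subset hb) m
      (Or.inl (Ch.pt_le.2 (by simp))))).mono (fl_out hm hj)).trans (Rch.of_cm (fl_out hm hj m)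
        (wm_mem hp) (Or.inr (Ch.pt_le.2 (by simp [p, cel]))))).trans e1, e2⟩
  · have l' : Ch.pt o ≤ Ch.pr o b l := Ch.pt_le.2 (by simp)
    have e : z o b = 0 := le_antisymm (not_lt.1 ho) (hm _ _ (Dp.of_right hb.1 l))
    have m : Ch.pr _ _ l' ∈ Fl z (A \ G) := by simpa [Fl, e] using hb
    have r2 := fl_rch Set.sdiff_subset m
    simp only [Ch.top_pr] at r2
    exact ⟨_, (r'.trans r2.symm).mono (fl_out hm hj), Or.inl ⟨Ch.pt (Ch.pt o),
      show (Ch.pt (Ch.pt o)).top.top ∉ A by simpa using j.resolve_right ho,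
      Ch.pt_le.2 (by simp)⟩⟩

end

theorem glue0 {s : St} (h : Inv s) {z : s.P → s.P → ℤ} [hz : IsCoc s.A z] (hm : Mono s.A z)
    (hj : JK s.A z) {G : Set s.P} (hG : G ⊆ s.A)
    (up : ∀ x ∈ G, ∀ y ∈ s.A, x ≤ y → z x y = 0 → y ∈ G)
    (R1 : ∀ a ∈ G, ∃ b, Rz z G a b ∧ b ∈ G ∧ ∃ o, b ≤ o ∧ (o ∉ s.A ∨ 0 < z b o))
    (R0 : ∀ a ∈ s.A \ G, ∃ b, Rz z (s.A \ G) a b ∧ b ∈ s.A \ G ∧
      ∃ o, o ≤ b ∧ (o ∉ s.A ∨ 0 < z o b)) :
    chiC (Yc s.A z) ≤ ee G + (J1 s.A z).card + (J2 s.A z).card := by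
  have := brg (Alg36.inv_desc h ((Desc.sd s).trans (Desc.sd s.sd))) (V := Vg s.A z G)
    (fun _ k => k.1) (fun C hC D hD l => up_Vg hm up hC hD l) ((J1 s.A z).disjSum (J2 s.A z))
    (Sum.elim (wm '' ·) (wp '' ·)) ?_ (r1_Vg hm hj hG R1) (r0_Vg hm hj R0)
  · erw [ee_Vg hm hj hG, card_disjSum] at this
    push_cast at this
    omega
  · rintro (Y | Y) hY _ ⟨p, hp, rfl⟩
    · have k := Sf30.mem_cs.1 (mem_filter.1 (inl_mem_disjSum.1 hY)).1
      refine ⟨(wm_mem (G := G) (k.sub hp)).1, ?_⟩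
      rintro _ ⟨q, hq, rfl⟩
      exact sd_out (wm_rch k.sub (k.conn p hp q hq))
    · have k := Sf30.mem_cs.1 (mem_filter.1 (inr_mem_disjSum.1 hY)).1
      refine ⟨show (wp p).top.top ∈ s.A by simpa [wp] using k.sub hp, ?_⟩
      rintro _ ⟨q, hq, rfl⟩
      exact sd_in (fun _ k => k.1) (wp_rch hm hj k.sub (k.conn p hp q hq))

/-- **GLUE**: the cut along a surface with few bad pieces is taut against potentials -/
theorem glue {s c : St} (h : Inv s) {z : s.P → s.P → ℤ} [hz : IsCoc s.A z] (hm : Mono s.A z)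
    (hj : JK s.A z) {π : c.P → s.P} (hc : Cov s c z π)
    (hΦ : ((J1 s.A z).card : ℤ) + (J2 s.A z).card ≤ chiC (Yc s.A z)) : Pot c := by
  intro V hV up R1 R0
  have L := hc.toLift
  have rz : ∀ {E : Set c.P} {S : Set s.P}, E ⊆ c.A → (∀ b ∈ E, π b ∈ S) → ∀ {a b},
      Rch E a b → Rz z S (π a) (π b) := fun hE hS a b r => by
    induction r with
    | refl => exact .refl
    | tail _ k ih =>
      exact ih.tail ⟨hS _ k.1, hS _ k.2.1, k.2.2.imp ((hc.le_iff (hE k.1) (hE k.2.1)).1)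
        (hc.le_iff (hE k.2.1) (hE k.1)).1⟩
  have hG : π '' V ⊆ s.A := by rintro _ ⟨b, hb, rfl⟩; exact L.mem (hV hb)
  have ng : ∀ b ∈ c.A \ V, π b ∈ s.A \ π '' V := fun b hb =>
    ⟨L.mem hb.1, fun ⟨b', h1, e⟩ => hb.2 (L.bij.injOn (hV h1) hb.1 e ▸ h1)⟩
  have := glue0 h hm hj hG ?_ ?_ ?_
  · have e := L.ee_pre hG
    rw [show {b | b ∈ c.A ∧ π b ∈ π '' V} = V from Set.ext fun b =>
      ⟨fun k => by_contra fun j => (ng b ⟨k.1, j⟩).2 k.2, fun k => ⟨hV k, ⟨b, k, rfl⟩⟩⟩] at e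
    omega
  · rintro _ ⟨b, hb, rfl⟩ y hy l e
    obtain ⟨b', hb', rfl⟩ := L.exA hy
    exact ⟨b', up b hb b' hb' ((hc.le_iff (hV hb) hb').2 ⟨l, e⟩), rfl⟩
  · rintro _ ⟨a, ha, rfl⟩
    obtain ⟨b, r, o, o1, o2⟩ := R1 a ha
    have hb := r.mem ha
    refine ⟨_, rz (S := π '' V) hV (fun b hb => ⟨b, hb, rfl⟩) r, ⟨b, hb, rfl⟩, π o, L.mon o2,
      or_iff_not_imp_left.2 fun k => lt_of_le_of_ne (hm _ _ (Dp.of_left (L.mem (hV hb))
        (L.mon o2))) fun e => o1 ((hc.up b (hV hb) o o2).2 ⟨not_not.1 k, e.symm⟩)⟩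
  · intro x hx
    obtain ⟨a, ha, rfl⟩ := L.exA hx.1
    have ha' : a ∈ c.A \ V := ⟨ha, fun k => hx.2 ⟨a, k, rfl⟩⟩
    obtain ⟨b, r, o, o1, o2⟩ := R0 a ha'
    have hb := r.mem ha'
    refine ⟨_, rz Set.sdiff_subset ng r, ng b hb, π o, L.mon o2,
      or_iff_not_imp_left.2 fun k => lt_of_le_of_ne (hm _ _ (Dp.of_right (L.mem hb.1)
        (L.mon o2))) fun e => o1 ((hc.dn b hb.1 o o2).2 ⟨not_not.1 k, e.symm⟩)⟩

end Crest.Agent.X212.Ind26
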