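import Crest.Agent.X212.Ind26.Circ
import Crest.Agent.X212.Cut21.Cut0

/-!
# X212 / Ind26 (helper26): the leaves of BASE and their assembly
-/

set_option autoImplicit false
set_option linter.unusedSectionVars false

open Finset Classical

noncomputable section

namespace Crest.Agent.X212.Ind26

open Hp13 Cut21
open Alg36 (Om Op Esc)

/-- PHI: few pieces of a system of index zero miss a side -/
def PhiStmt : Prop := ∀ (s : St) (z : s.P → s.P → ℤ) [IsCoc s.A z], Good s → NF s.P s.A z →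
  DS s.A z → idx s.A z = 0 → ((J1 s.A z).card : ℤ) + (J2 s.A z).card ≤ chiC (Yc s.A z)

/-- COUNT: the cut along a complete system of index zero consists of balls -/
def CountStmt : Prop := ∀ (s c : St) (z : s.P → s.P → ℤ) [IsCoc s.A z] (π : c.P → s.P), Good s →
  NF s.P s.A z → DS s.A z → Cov s c z π → Good c → Esc c.A c.A → ∀ C, IsCmp c.A C → 0 < eu C

/-- DROP: a subsystem has conditioned boundary -/
def DropStmt : Prop := ∀ (s : St) (z : s.P → s.P → ℤ) [IsCoc s.A z], Stt s → DS s.A z →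
  idx s.A z = 0 → JO s.A z → BR s.A z →
    ∃ (w : s.P → s.P → ℤ) (_ : IsCoc s.A w), DS s.A w ∧ idx s.A w = 0 ∧ Bdy s.A w

theorem nf_sd {s : St} {z : s.P → s.P → ℤ} (h : NF s.P s.A z) :
    NF s.sd.P s.sd.A (pb Ch.top z) :=
  ⟨h.adm.sd.sf, fun _ _ hy l => h.jk _ _ (hy.imp id Hlf24.om_sd.1) (Ch.top_mono l),
    condP_iff.2 h.adm.sd.cu, condM_iff.2 h.adm.sd.cd⟩

theorem base_of (hR : RegStmt) (hI : IsoStmt) (hT : TrStmt) (hP : PhiStmt) (hC : CountStmt)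
    (hD : DropStmt) {s : St} (h : Stt s) (h0 : HB s 0) :
    ∃ (t : St) (f : t.P → s.P) (z : t.P → t.P → ℤ) (s' : St) (π : s'.P → t.P),
      Desc s t f ∧ Adm t z ∧ Cov t s' z π ∧ End s' := by
  obtain ⟨t1, f1, z1, _, d1, a1, a2⟩ := h0
  have g1 := (Alg36.stt_desc h d1).toGood
  obtain ⟨t2, f2, z2, _, m, d2, b1, b2, b3, b4⟩ := hR t1 z1 g1 a1.sf
  obtain ⟨c1, c2⟩ := hI _ _ _ _ _ m g1 d2 a1 b1 b2
  have s2 := Alg36.stt_desc h (d1.trans d2)
  obtain ⟨z3, _, e1, e2, e3⟩ := hD t2 z2 s2 c1 (by omega) b3 b4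
  obtain ⟨t, f, z, c, π, lev, d3, k1, k2, nf, k3, wc⟩ := cut0 s2.toGood s2.thick s2.esc e1.sf e3
  have : IsCoc t.A z := ⟨nf.sf.coc⟩
  obtain ⟨l1, l2⟩ := hT _ _ _ _ _ s2.toGood d3 e1 nf.sf k1 k2.ge
  have st := Alg36.stt_desc s2 d3
  have iv : Inv t := ⟨st.toTaut, st.esc⟩
  have ds := Desc.sd t
  have : IsCoc t.sd.A (pb Ch.top z) := ⟨ds.coc nf.sf.coc⟩
  obtain ⟨n1, n2⟩ := hT _ _ _ _ _ st.toGood ds l1 (nf_sd nf).sf Eqv.rfl (ds.chi z).ge
  refine ⟨t, _, z, c, π, (d1.trans d2).trans d3, nf.adm, k3.cov,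
    Wk.end_of ⟨wc.toGood, wc.sfm, wc.sfp, wc.esc⟩ (wc.ee.trans s2.bal)
      (glue iv nf.sf.mono nf.jk k3.cov (hP t z st.toGood nf l1 (l2.trans e2)))
      (glue (Alg36.inv_desc iv ds) (nf_sd nf).sf.mono (nf_sd nf).jk k3.cov.sd
        (hP _ _ (Alg36.Good.desc st.toGood ds) (nf_sd nf) n1 (n2.trans (l2.trans e2))))
      (hC t c z π st.toGood nf l1 k3.cov wc.toGood wc.esc)⟩

end Crest.Agent.X212.Ind26
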